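import Vale.Agent.P159.H513.E2
import Vale.Agent.P159.H692.Neut
import Vale.Agent.P159.H340.Kl0
import Vale.Agent.P159.H789.Ray

/-!
Corollaries of E2: bare domination for any mass form, quadratic versions, and the lower bound of the
self energy by the block stiffness.
-/

set_option linter.all false

open MeasureTheory Filter Topology Matrix Finset

namespace Vale.Agent.P159.H513

open Vale.Agent.P159 Vale.Agent.P159.H353 Vale.Agent.P159.R2.H254 Vale.Agent.P159.H950
open Vale.Agent.P159.T1.H934 Vale.Agent.P159.T1.H731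
open Vale.Agent.P159.H37 (qf bf re wM ZM Zs Gm Rs Ght Pik wt)
open Vale.Agent.P159.TM.SpecC (Tor wT)
open Vale.Agent.P159.TM.H104 (Lg)
open Vale.Agent.P159.TM.H859 (dirE)

variable {N l n : ℕ} [NeZero N] {b : ℝ}

/-! ### oscillations -/

lemma cx_st [NeZero n] [NeZero l] (hN : N = n * l) (k : Fin n × Fin n) (p : ↥(blk (0, 0) l)) :
    H692.cx n l (st N l n k p) = (((k.1 : ℕ) : ZMod n), ((k.2 : ℕ) : ZMod n)) := by
  obtain ⟨⟨a, b⟩, hp⟩ := p
  have hm := mem_blk.1 hp
  simp only at hm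
  have key : ∀ (i : Fin n) (a : ℤ), 0 ≤ a → a < l →
      ((((((((l * (i : ℕ) : ℕ) : ℤ) + a : ℤ) : ZMod N)).val / l : ℕ) : ZMod n)) =
        (((i : ℕ) : ZMod n)) := by
    intro i a h1 h2
    lift a to ℕ using h1
    have e : ((((l * (i : ℕ) : ℕ) : ℤ) + (a : ℤ) : ℤ) : ZMod N) =
        ((l * (i : ℕ) + a : ℕ) : ZMod N) := by
      push_cast
      ring
    rw [e, H692.c1_natCast hN]
    congr 1
    have h3 : a < l := by exact_mod_cast h2
    rw [Nat.add_comm, Nat.add_mul_div_left _ _ (NeZero.pos l), Nat.div_eq_of_lt h3, Nat.zero_add]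
  unfold H692.cx st
  ext
  · exact key k.1 a (by omega) (by omega)
  · exact key k.2 b (by omega) (by omega)

/-- Poincaré inequality in the blocks -/
lemma sum_oK_le (hN : N = n * l) (hl : 1 ≤ l) (c : Tor N → Bool → ℝ) :
    ∑ k, oK N l n c k ≤ 16 * (l : ℝ) ^ 2 * (dirE (fun x => c x true) + dirE (fun x => c x false)) := by
  have : NeZero l := ⟨by omega⟩
  have : NeZero n := ⟨by rintro rfl; exact (NeZero.ne N) (by rw [hN, zero_mul])⟩
  have h1 : ∀ k, oK N l n c k ≤ ∑ p : ↥(blk (0, 0) l),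
      ((fun x : Tor N => (c x true - H692.Pc n l (fun x => c x true) x) ^ 2 +
        (c x false - H692.Pc n l (fun x => c x false) x) ^ 2) (st N l n k p)) := by
    intro k
    refine (oK_le_ref hl c k (fun t => H692.av n l (fun x => c x t)
      (((k.1 : ℕ) : ZMod n), ((k.2 : ℕ) : ZMod n)))).trans (le_of_eq ?_)
    refine Finset.sum_congr rfl fun p _ => ?_
    simp only [H692.Pc, cx_st hN]
  refine (Finset.sum_le_sum fun k _ => h1 k).trans ?_
  rw [← sum_st hN (fun x : Tor N => (c x true - H692.Pc n l (fun x => c x true) x) ^ 2 +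
        (c x false - H692.Pc n l (fun x => c x false) x) ^ 2), Finset.sum_add_distrib]
  have h2 := H692.poin hN (fun x => c x true)
  have h3 := H692.poin hN (fun x => c x false)
  linarith

/-! ### the bare form -/

/-- **bare domination with a source**: any coercive mass form, any `w`, `c` -/
theorem e2_bare (hb : 0 ≤ b) {M : Matrix (Tor N) (Tor N) ℝ}
    (hMs : Mᵀ = M) {m0 : ℝ} (hm0 : 0 < m0) (hM : ∀ u : Tor N → ℝ, m0 * ∑ x, u x ^ 2 ≤ qf M u)
    (J w : Tor N → ℝ) (c : Tor N → Bool → ℝ) (hJ : ∀ x, J x = (M *ᵥ w) x + dvT c x) :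
    Lg (wM (wT b N) M) J - Lg (wM (wT b N) M) 0 ≤
      qf M w / 2 + b * ∑ x, ((Real.cosh (c x true) - 1) + (Real.cosh (c x false) - 1)) := by
  have hN : N = N * 1 := (mul_one N).symm
  have hE := H789.em_wM_wT hb hm0 hM
  have h := src_dom (Dk N 1 N) (K := fun _ _ => b) (fun _ _ => hb) (fun _ => ⊤)
    (fun k h => AddSubgroup.mem_top _) (cK N 1 N c) hMs hm0 hM J w (fun x => by
      rw [hJ x, sum_Dk hN])
  rw [← wT_blocks hN b] at h
  have h1 : ∏ k, rat (fun _ : EB 1 => b) ⊤ (cK N 1 N c k) ≤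
      Real.exp (b * ∑ x, ((Real.cosh (c x true) - 1) + (Real.cosh (c x false) - 1))) := by
    have h2 : ∀ k, rat (fun _ : EB 1 => b) ⊤ (cK N 1 N c k) ≤
        Real.exp (∑ p : ↥(blk (0, 0) 1), ((fun x : Tor N => b * ((Real.cosh (c x true) - 1) +
          (Real.cosh (c x false) - 1))) (st N 1 N k p))) := by
      intro k
      refine (rat_bare (fun _ => hb) (fun n _ => AddSubgroup.mem_top _) _).trans
        (Real.exp_le_exp.2 (le_of_eq ?_))
      rw [Fintype.sum_prod_type]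
      refine Finset.sum_congr rfl fun p _ => ?_
      rw [Fintype.sum_bool]
      unfold cK
      simp only [if_true, Bool.false_eq_true, if_false, Real.cosh_neg]
      ring
    refine (Finset.prod_le_prod (fun k _ => (rat_pos (fun _ => hb) _ _).le) fun k _ => h2 k).trans ?_
    rw [← Real.exp_sum, ← sum_st hN (fun x : Tor N => b * ((Real.cosh (c x true) - 1) +
          (Real.cosh (c x false) - 1))), Finset.mul_sum]
  have h0 := H37.Zs_pos hE 0
  have hJp := H37.Zs_pos hE J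
  have h3 : Zs (wM (wT b N) M) J ≤ Real.exp (qf M w / 2 +
      b * ∑ x, ((Real.cosh (c x true) - 1) + (Real.cosh (c x false) - 1))) *
        Zs (wM (wT b N) M) 0 := by
    refine h.trans ?_
    rw [Real.exp_add]
    exact mul_le_mul_of_nonneg_right (mul_le_mul_of_nonneg_left h1 (Real.exp_pos _).le) h0.le
  have h4 := Real.log_le_log hJp h3
  rw [Real.log_mul (Real.exp_pos _).ne' h0.ne', Real.log_exp] at h4
  unfold Lg
  unfold H37.Zs at h4
  linarith

/-! ### quadratic versions -/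

/-- small sources: from a bound of `log Z(sJ)` to a bound of the covariance -/
lemma gm_of_small (hb : 0 ≤ b) {M : Matrix (Tor N) (Tor N) ℝ} {m0 : ℝ} (hm0 : 0 < m0)
    (hM : ∀ u : Tor N → ℝ, m0 * ∑ x, u x ^ 2 ≤ qf M u) (J : Tor N → ℝ) {X Y s0 : ℝ}
    (hs0 : 0 < s0) (h : ∀ s : ℝ, 0 < s → s ≤ s0 →
      Lg (wM (wT b N) M) (s • J) - Lg (wM (wT b N) M) 0 ≤ s ^ 2 * X / 2 + s ^ 4 * Y) :
    qf (Gm (wM (wT b N) M)) J ≤ X := by
  have hE := H789.em_wM_wT hb hm0 hM
  have h1 : ∀ s : ℝ, 0 < s → s ≤ s0 → qf (Gm (wM (wT b N) M)) J ≤ X + 2 * Y * s ^ 2 := by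
    intro s hs hs'
    have h2 := h s hs hs'
    have h3 := H789.Rs_nonneg hE (H789.ev_wM_wT M) (H789.pk_wM_wT' hb hm0 hM) (s • J)
    unfold Rs at h3
    rw [H37.qf_smul] at h3
    have h4 : s ^ 2 * qf (Gm (wM (wT b N) M)) J ≤ s ^ 2 * (X + 2 * Y * s ^ 2) := by
      nlinarith
    exact le_of_mul_le_mul_left h4 (by positivity)
  have hlim : Tendsto (fun s : ℝ => X + 2 * Y * s ^ 2) (𝓝[>] 0) (𝓝 (X + 2 * Y * 0 ^ 2)) := by
    refine tendsto_nhdsWithin_of_tendsto_nhds ?_
    exact (continuous_const.add (continuous_const.mul (continuous_id.pow 2))).tendsto 0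
  have h5 : qf (Gm (wM (wT b N) M)) J ≤ X + 2 * Y * 0 ^ 2 := by
    refine ge_of_tendsto hlim ?_
    have h6 : Set.Ioc (0 : ℝ) s0 ∈ 𝓝[>] (0 : ℝ) := Ioc_mem_nhdsGT hs0
    filter_upwards [h6] with s hs
    exact h1 s hs.1 hs.2
  simpa using h5

lemma dvT_smul (s : ℝ) (c : Tor N → Bool → ℝ) (x : Tor N) :
    dvT (fun x t => s * c x t) x = s * dvT c x := by
  unfold dvT
  ring

/-- **E2 for the covariance**: no smallness condition -/
theorem gm_le (hN : N = n * l) (hb : 0 ≤ b) (hl : 1 ≤ l) {M : Matrix (Tor N) (Tor N) ℝ}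
    (hMs : Mᵀ = M) {m0 : ℝ} (hm0 : 0 < m0) (hM : ∀ u : Tor N → ℝ, m0 * ∑ x, u x ^ 2 ≤ qf M u)
    (J w : Tor N → ℝ) (c : Tor N → Bool → ℝ)
    (hJ : ∀ x, J x = (M *ᵥ w) x + dvT c x) {η : ℝ} (hη : 0 < η) :
    qf (Gm (wM (wT b N) M)) J ≤ qf M w + (1 + η) * (stiff l b * nC c) +
      (1 + 1 / η) * (b * ∑ k, oK N l n c k) := by
  obtain ⟨C, hC⟩ : ∃ C : ℝ, C = ∑ x, (|c x true| + |c x false|) := ⟨_, rfl⟩
  have hC0 : 0 ≤ C := hC ▸ Finset.sum_nonneg fun x _ => by positivity
  have hcC : ∀ x t, |c x t| ≤ C := by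
    intro x t
    have h1 : |c x true| + |c x false| ≤ C := by
      rw [hC]
      exact Finset.single_le_sum (f := fun x => |c x true| + |c x false|)
        (fun x _ => by positivity) (Finset.mem_univ x)
    cases t
    · linarith [abs_nonneg (c x true)]
    · linarith [abs_nonneg (c x false)]
  refine gm_of_small hb hm0 hM J (Y := 3 * max b 1 ^ 2 * ∑ k, nK N l n c k ^ 2)
    (s0 := 1 / (1 + C)) (by positivity) fun s hs hs' => ?_
  have h1 := e2_Lg hN hb hl hMs hm0 hM (s • J) (s • w) (fun x t => s * c x t) (fun x t => by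
    rw [abs_mul, abs_of_pos hs]
    have h2 : s * |c x t| ≤ 1 / (1 + C) * (1 + C) :=
      mul_le_mul hs' (by linarith [hcC x t]) (abs_nonneg _) (by positivity)
    rwa [one_div_mul_cancel (by positivity)] at h2) (fun x => by
    rw [Pi.smul_apply, smul_eq_mul, hJ x, Matrix.mulVec_smul, Pi.smul_apply, smul_eq_mul, dvT_smul]
    ring) hη
  refine h1.trans (le_of_eq ?_)
  rw [H37.qf_smul]
  have e1 : nC (fun x t => s * c x t) = s ^ 2 * nC c := by
    unfold nC
    rw [Finset.mul_sum]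
    exact Finset.sum_congr rfl fun x _ => by ring
  have e2 : ∀ k, nK N l n (fun x t => s * c x t) k = s ^ 2 * nK N l n c k := by
    intro k
    unfold nK
    rw [Finset.mul_sum]
    exact Finset.sum_congr rfl fun x _ => by ring
  have e3 : ∀ k t, mK N l n (fun x t => s * c x t) k t = s * mK N l n c k t := by
    intro k t
    unfold mK
    rw [← Finset.mul_sum]
    ring
  have e4 : ∀ k, oK N l n (fun x t => s * c x t) k = s ^ 2 * oK N l n c k := by
    intro k
    unfold oK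
    rw [Finset.mul_sum]
    simp only [e3]
    exact Finset.sum_congr rfl fun x _ => by ring
  unfold eE2
  rw [e1]
  simp only [e2, e4]
  rw [← Finset.mul_sum]
  have e5 : ∑ k, (s ^ 2 * nK N l n c k) ^ 2 = s ^ 4 * ∑ k, nK N l n c k ^ 2 := by
    rw [Finset.mul_sum]
    exact Finset.sum_congr rfl fun k _ => by ring
  rw [e5]
  ring

/-- **bare domination of the covariance** -/
theorem gm_bare (hb : 0 ≤ b) {M : Matrix (Tor N) (Tor N) ℝ}
    (hMs : Mᵀ = M) {m0 : ℝ} (hm0 : 0 < m0) (hM : ∀ u : Tor N → ℝ, m0 * ∑ x, u x ^ 2 ≤ qf M u)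
    (J w : Tor N → ℝ) (c : Tor N → Bool → ℝ)
    (hJ : ∀ x, J x = (M *ᵥ w) x + dvT c x) :
    qf (Gm (wM (wT b N) M)) J ≤ qf M w + b * nC c := by
  obtain ⟨C, hC⟩ : ∃ C : ℝ, C = ∑ x, (|c x true| + |c x false|) := ⟨_, rfl⟩
  have hC0 : 0 ≤ C := hC ▸ Finset.sum_nonneg fun x _ => by positivity
  have hcC : ∀ x t, |c x t| ≤ C := by
    intro x t
    have h1 : |c x true| + |c x false| ≤ C := by
      rw [hC]
      exact Finset.single_le_sum (f := fun x => |c x true| + |c x false|)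
        (fun x _ => by positivity) (Finset.mem_univ x)
    cases t
    · linarith [abs_nonneg (c x true)]
    · linarith [abs_nonneg (c x false)]
  refine gm_of_small hb hm0 hM J (Y := b * ∑ x, (c x true ^ 4 + c x false ^ 4))
    (s0 := 1 / (1 + C)) (by positivity) fun s hs hs' => ?_
  have h1 := e2_bare hb hMs hm0 hM (s • J) (s • w) (fun x t => s * c x t) (fun x => by
    rw [Pi.smul_apply, smul_eq_mul, hJ x, Matrix.mulVec_smul, Pi.smul_apply, smul_eq_mul, dvT_smul]
    ring)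
  refine h1.trans ?_
  rw [H37.qf_smul]
  have h2 : ∀ x t, Real.cosh (s * c x t) - 1 ≤ s ^ 2 * c x t ^ 2 / 2 + s ^ 4 * c x t ^ 4 := by
    intro x t
    have h3 : |s * c x t| ≤ 1 := by
      rw [abs_mul, abs_of_pos hs]
      have h2 : s * |c x t| ≤ 1 / (1 + C) * (1 + C) :=
        mul_le_mul hs' (by linarith [hcC x t]) (abs_nonneg _) (by positivity)
      rwa [one_div_mul_cancel (by positivity)] at h2
    have h4 := Real.cosh_le_exp_half_sq (s * c x t)
    have h5 : (s * c x t) ^ 2 ≤ 1 := by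
      rw [← sq_abs]; exact pow_le_one₀ (abs_nonneg _) h3
    have h6 : |(s * c x t) ^ 2 / 2| ≤ 1 := by
      rw [abs_of_nonneg (by positivity)]; linarith
    have h7 := (abs_le.1 (Real.abs_exp_sub_one_sub_id_le h6)).2
    have h8 : ((s * c x t) ^ 2 / 2) ^ 2 ≤ s ^ 4 * c x t ^ 4 := by
      have : 0 ≤ s ^ 4 * c x t ^ 4 := by positivity
      nlinarith
    nlinarith
  have h3 : ∑ x, ((Real.cosh (s * c x true) - 1) + (Real.cosh (s * c x false) - 1)) ≤
      s ^ 2 * nC c / 2 + s ^ 4 * ∑ x, (c x true ^ 4 + c x false ^ 4) := by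
    unfold nC
    rw [Finset.mul_sum, Finset.mul_sum, Finset.sum_div, ← Finset.sum_add_distrib]
    refine Finset.sum_le_sum fun x _ => ?_
    linarith [h2 x true, h2 x false]
  have h4 := mul_le_mul_of_nonneg_left h3 hb
  nlinarith

end Vale.Agent.P159.H513
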