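import Vale.Agent.P159.H513.Rg2
import Vale.Agent.P159.H801.SFlow
import Vale.Agent.P159.H43.Sd2
import Vale.Agent.P159.H43.OscP

/-!
P159, helper513: `reg_R` in the letters of the flow `SFlow`.
-/

set_option linter.all false

open Matrix Finset Filter Topology

namespace Vale.Agent.P159.H513

open Vale.Agent.P159.H37 (qf bf re wM ZM Zs Zn Rs Un)
open Vale.Agent.P159.TM.SpecC (Tor wT)
open Vale.Agent.P159.TM.Spec (V)
open Vale.Agent.P159.H963 (Pin Ank Anm Gnh ntr nM nwt MF mf_smul gw_wT)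
open Vale.Agent.P159.H43 (omT)
open Vale.Agent.P159.H972 (Par Good YBn tn)
open Vale.Agent.P159.H801 (SFlow xa)
open Vale.Agent.P159.H864 (yt)

section nums

lemma two_pi_lo : (1 : ℝ) / 2 ≤ 2 / Real.pi := by
  rw [div_le_div_iff₀ (by norm_num) Real.pi_pos]
  have := Real.pi_le_four
  linarith

lemma two_pi_up : 2 / Real.pi ≤ (1 : ℝ) := by
  rw [div_le_one Real.pi_pos]
  exact Real.two_le_pi

/-- upper bound of the stiffness -/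
lemma a_up {a δ : ℝ} (ha : 1 ≤ a) (hx : -δ ≤ a⁻¹ - 2 / Real.pi) (hδ : 0 ≤ δ) (hδ1 : δ ≤ 1 / 4) :
    a ≤ (2 / Real.pi)⁻¹ + 8 * δ := by
  have h1 := two_pi_lo
  set S := 2 / Real.pi
  have hS : 0 < S := by linarith
  have ha0 : 0 < a := by linarith
  have h2 : S - δ ≤ a⁻¹ := by linarith
  have h3 : 0 < S - δ := by linarith
  have h4 : a ≤ (S - δ)⁻¹ := by
    rw [← inv_inv a]
    exact inv_anti₀ h3 h2
  refine h4.trans ?_
  have h5 : S⁻¹ + 8 * δ = (1 + 8 * δ * S) / S := by field_simp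
  rw [h5, inv_eq_one_div, div_le_div_iff₀ h3 hS]
  have h6 : 0 ≤ δ * (8 * S * (S - δ) - 1) := by
    refine mul_nonneg hδ ?_
    nlinarith
  nlinarith

lemma fl_mono {b t a η η' : ℝ} {N : ℕ} [NeZero N] (h : H972.FL b t a η N) (ht : 0 < t)
    (hη : η ≤ η') : H972.FL b t a η' N := by
  obtain ⟨z, a', h1, h2, h3, h4⟩ := h
  refine ⟨z, a', h1, h2.trans hη, h3.trans hη, fun k hk => (h4 k hk).trans ?_⟩
  have := EE_nn k
  gcongr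

/-- the numbers of `reg_flow` -/
lemma rg_num {Y κ c δ g C L K B P u v w : ℝ} (hY : 0 < Y) (hY1 : Y ≤ 1) (hc : 0 ≤ c)
    (hδ : 0 < δ) (hg : g = 2 * c + κ + 2 * δ) (hC : 0 ≤ C) (hL : 0 ≤ L) (hK : 1 ≤ K) (hB : 0 ≤ B)
    (hKB : (K * (1 + B)) ^ 2 ≤ Y ^ (-κ)) (hP0 : 0 ≤ P) (hP : P ≤ 8 * (K * (1 + B)))
    (hu : u ≤ (L + 1) * Y ^ (1 - δ)) (hv0 : 0 ≤ v) (hv : v ≤ 25 * Y) (hw : w ≤ 2 * (K ^ 2 * Y ^ (1 - 2 * c)))
    (hu0 : 0 ≤ u) (hfin : (64 * C * (L + 1) + 1600 * C + 2) * Y ^ δ ≤ 1) :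
    C * (P ^ 2 * u + v * P ^ 2) + w ≤ Y ^ (1 - g) := by
  have hP2 : P ^ 2 ≤ 64 * Y ^ (-κ) := by
    have h1 : P ^ 2 ≤ (8 * (K * (1 + B))) ^ 2 := pow_le_pow_left₀ hP0 hP 2
    nlinarith
  have hK2 : K ^ 2 ≤ Y ^ (-κ) := by
    refine le_trans ?_ hKB
    have : K ≤ K * (1 + B) := by nlinarith
    exact pow_le_pow_left₀ (by linarith) this 2
  set Z := Y ^ (-κ) with hZ
  have hZ0 : 0 ≤ Z := Real.rpow_nonneg hY.le _
  have e1 : Z * Y ^ (1 - δ) ≤ Y ^ (1 - g + δ) := by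
    rw [hZ, ← Real.rpow_add hY]
    exact Real.rpow_le_rpow_of_exponent_ge hY hY1 (by linarith)
  have e2 : Z * Y ≤ Y ^ (1 - g + δ) := by
    have : Z * Y = Y ^ (-κ + 1) := by rw [Real.rpow_add hY, Real.rpow_one]
    rw [this]
    exact Real.rpow_le_rpow_of_exponent_ge hY hY1 (by linarith)
  have e3 : Z * Y ^ (1 - 2 * c) ≤ Y ^ (1 - g + δ) := by
    rw [hZ, ← Real.rpow_add hY]
    exact Real.rpow_le_rpow_of_exponent_ge hY hY1 (by linarith)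
  set W := Y ^ (1 - g + δ) with hW
  have hW0 : 0 ≤ W := Real.rpow_nonneg hY.le _
  have f1 : P ^ 2 * u ≤ 64 * (L + 1) * W := by
    have h1 : P ^ 2 * u ≤ 64 * Z * ((L + 1) * Y ^ (1 - δ)) := mul_le_mul hP2 hu hu0 (by positivity)
    have h2 : 64 * Z * ((L + 1) * Y ^ (1 - δ)) = 64 * (L + 1) * (Z * Y ^ (1 - δ)) := by ring
    rw [h2] at h1
    exact h1.trans (mul_le_mul_of_nonneg_left e1 (by positivity))
  have f2 : v * P ^ 2 ≤ 1600 * W := by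
    have h1 : v * P ^ 2 ≤ 25 * Y * (64 * Z) := mul_le_mul hv hP2 (by positivity) (by positivity)
    nlinarith
  have f3 : w ≤ 2 * W := by
    have h1 : K ^ 2 * Y ^ (1 - 2 * c) ≤ Z * Y ^ (1 - 2 * c) :=
      mul_le_mul_of_nonneg_right hK2 (Real.rpow_nonneg hY.le _)
    linarith
  have f4 : C * (P ^ 2 * u + v * P ^ 2) ≤ C * (64 * (L + 1) * W + 1600 * W) :=
    mul_le_mul_of_nonneg_left (add_le_add f1 f2) hC
  have f5 : W = Y ^ δ * Y ^ (1 - g) := by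
    rw [hW, ← Real.rpow_add hY]
    congr 1
    ring
  have f6 : C * (64 * (L + 1) * W + 1600 * W) + 2 * W =
      ((64 * C * (L + 1) + 1600 * C + 2) * Y ^ δ) * Y ^ (1 - g) := by
    rw [f5]
    ring
  have f7 : ((64 * C * (L + 1) + 1600 * C + 2) * Y ^ δ) * Y ^ (1 - g) ≤ 1 * Y ^ (1 - g) :=
    mul_le_mul_of_nonneg_right hfin (Real.rpow_nonneg hY.le _)
  linarith

lemma rg_u {n r : ℕ} {δ LL Y : ℝ} (hn : 0 < n) (hr : n ≤ r) (hY : 0 < Y) (hδ : 0 < δ) (hδ1 : δ < 1)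
    (hLL : 1 ≤ LL) (h : (n : ℝ)⁻¹ * (1 / Y) ≤ LL) :
    ((r : ℝ) + 1) ^ δ / ((r : ℝ) + 1) ≤ (LL + 1) * Y ^ (1 - δ) := by
  have hn' : (0 : ℝ) < n := by exact_mod_cast hn
  have hr' : (n : ℝ) ≤ (r : ℝ) + 1 := by
    have : (n : ℝ) ≤ r := by exact_mod_cast hr
    linarith
  have hr0 : (0 : ℝ) < (r : ℝ) + 1 := by linarith
  have h1 : ((r : ℝ) + 1) ^ δ / ((r : ℝ) + 1) = ((r : ℝ) + 1) ^ (δ - 1) := by
    rw [Real.rpow_sub hr0, Real.rpow_one]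
  have h2 : ((r : ℝ) + 1) ^ (δ - 1) ≤ (n : ℝ) ^ (δ - 1) :=
    Real.rpow_le_rpow_of_nonpos hn' hr' (by linarith)
  have h3 : (n : ℝ) ^ (δ - 1) = ((n : ℝ)⁻¹) ^ (1 - δ) := by
    rw [Real.inv_rpow hn'.le, ← Real.rpow_neg hn'.le]
    congr 1
    ring
  have h4 : (n : ℝ)⁻¹ ≤ LL * Y := by
    have := mul_le_mul_of_nonneg_right h hY.le
    have e : (n : ℝ)⁻¹ * (1 / Y) * Y = (n : ℝ)⁻¹ := by field_simp
    rwa [e] at this
  have h5 : ((n : ℝ)⁻¹) ^ (1 - δ) ≤ (LL * Y) ^ (1 - δ) :=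
    Real.rpow_le_rpow (by positivity) h4 (by linarith)
  rw [Real.mul_rpow (by linarith) hY.le] at h5
  have h6 : LL ^ (1 - δ) ≤ LL + 1 := by
    have h7 : LL ^ (1 - δ) ≤ LL ^ (1 : ℝ) :=
      Real.rpow_le_rpow_of_exponent_le hLL (by linarith)
    rw [Real.rpow_one] at h7
    linarith
  rw [h1]
  refine h2.trans ?_
  rw [h3]
  exact h5.trans (mul_le_mul_of_nonneg_right h6 (Real.rpow_nonneg hY.le _))

lemma rg_P {n r : ℕ} {κ LL Y K B : ℝ} (hr : n ≤ r) (hY : 0 < Y) (hY1 : Y ≤ 1)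
    (hκ1 : κ ≤ 1) (hK : 1 ≤ K) (hB : 0 ≤ B) (h : (n : ℝ)⁻¹ * (1 / Y) ≤ LL)
    (hn : 64 * LL ≤ n) (hn0 : 0 < n) (hKB : (K * (1 + B)) ^ 2 ≤ Y ^ (-κ)) :
    1 + 8 * (K * B) ≤ (r : ℝ) + 1 := by
  have hn' : (0 : ℝ) < n := by exact_mod_cast hn0
  have hr' : (n : ℝ) ≤ r := by exact_mod_cast hr
  have h1 : Y ^ (-κ) ≤ 1 / Y := by
    rw [one_div, ← Real.rpow_neg_one]
    exact Real.rpow_le_rpow_of_exponent_ge hY hY1 (by linarith)
  have h2 : 1 / Y ≤ LL * n := by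
    have := mul_le_mul_of_nonneg_right h hn'.le
    have e : (n : ℝ)⁻¹ * (1 / Y) * n = 1 / Y := by field_simp
    rwa [e] at this
  have h3 : (8 * (K * (1 + B))) ^ 2 ≤ (n : ℝ) ^ 2 := by
    nlinarith
  have h4 : 8 * (K * (1 + B)) ≤ n := by
    have h5 : (0 : ℝ) ≤ 8 * (K * (1 + B)) := by positivity
    exact (pow_le_pow_iff_left₀ h5 hn'.le two_ne_zero).1 h3
  nlinarith

end nums

/-- stiffness facts of the flow at one level -/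
lemma flow_fl {P : Par} {b σ c c1 q2 qx : ℝ} {a y ε xs : ℕ → ℝ} {c' r' q A : ℝ} {N : ℕ}
    (h : SFlow P b σ c c1 q2 qx a y ε xs c' r' q A N) (hσ0 : 0 ≤ σ) (hσ : σ ≤ 1 / 6)
    (hpf : 2 / 3 ≤ P.pf) {n : ℕ} (hnN : N ≤ n) (hx : 0 < xs n) (hy4 : y n ≤ 1 / 4) :
    ∃ η : ℝ, 0 ≤ η ∧ η ≤ 25 * y n ∧ a n ≤ (2 / Real.pi)⁻¹ + η ∧
      ∀ r, P.TT n (ε n) r → H972.FL b (tn n) (a n) η (2 ^ r) := by
  have hY : 0 < y n := h.fl.y0 n
  have hY1 : y n ≤ 1 := h.y1 n hnN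
  have hε := h.lo n hnN
  have hε0 : 0 < ε n := (Real.rpow_pos_of_pos hY _).trans_le hε
  have ht : 0 < tn n := by unfold H972.tn; positivity
  have hq2 : y n ^ q2 ≤ y n := by
    have := Real.rpow_le_rpow_of_exponent_ge hY hY1 h.q21.le
    rwa [Real.rpow_one] at this
  have hq20 : 0 ≤ y n ^ q2 := Real.rpow_nonneg hY.le _
  have hεp0 : 0 ≤ ε n ^ P.pf := Real.rpow_nonneg hε0.le _
  have hεp : ε n ^ P.pf ≤ y n := by
    have h1 : ε n ^ P.pf ≤ (y n ^ (2 - 3 * σ)) ^ P.pf :=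
      Real.rpow_le_rpow hε0.le (h.up n hnN) (by linarith)
    rw [← Real.rpow_mul hY.le] at h1
    have h2 : y n ^ ((2 - 3 * σ) * P.pf) ≤ y n ^ (1 : ℝ) := by
      refine Real.rpow_le_rpow_of_exponent_ge hY hY1 ?_
      nlinarith
    rw [Real.rpow_one] at h2
    exact h1.trans h2
  refine ⟨17 * ε n ^ P.pf + 8 * y n ^ q2, by positivity, by linarith, ?_, fun r hTT => ?_⟩
  · have h1 := (abs_le.1 (h.near n hnN)).2
    have h2 : -(y n ^ q2) ≤ (a n)⁻¹ - 2 / Real.pi := by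
      have : xa a n = (a n)⁻¹ - 2 / Real.pi := rfl
      rw [← this]
      linarith
    have h3 := a_up (h.a1 n hnN) h2 hq20 (hq2.trans hy4)
    linarith
  · have hFL := h.flc n (ε n) hε0 (h.es n hnN) (h.good n hnN) (ε n) le_rfl (h.es n hnN) r hTT
    exact fl_mono hFL ht (by linarith)

/-- the oscillation at one level of the flow -/
lemma flow_om {P : Par} {b σ c c1 q2 qx : ℝ} {a y ε xs : ℕ → ℝ} {c' r' q A : ℝ} {N : ℕ}
    (hb : 0 < b) (h : SFlow P b σ c c1 q2 qx a y ε xs c' r' q A N) (hc : 0 ≤ c)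
    (hσ0 : 0 ≤ σ) (hσ : σ ≤ 1 / 6) {n r : ℕ} (hnN : N ≤ n)
    (hTT : P.TT n (ε n) r) (hc2 : 2 * c < 1)
    (hosc4 : 4 * (((2 : ℝ) ^ (r - n)) ^ 2 * y n ^ (1 - 2 * c)) ≤ 1) :
    omT (wT b (2 ^ r)) (tn n • (1 : Matrix (Tor (2 ^ r)) (Tor (2 ^ r)) ℝ)) ≤
      2 * (((2 : ℝ) ^ (r - n)) ^ 2 * y n ^ (1 - 2 * c)) := by
  have hY : 0 < y n := h.fl.y0 n
  have hY1 : y n ≤ 1 := h.y1 n hnN
  have hε := h.lo n hnN
  have ht : 0 < tn n := by unfold H972.tn; positivity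
  have hnr : n ≤ r := by
    have := hTT.1
    omega
  have hyy : yt (2 ^ r) b (4 * tn n) ≤ y n ^ (1 - 2 * c) := by
    have h1 := (h.yb n hnN).2.2 (ε n) le_rfl (h.es n hnN) r hTT.1
    refine h1.trans (max_le ?_ ?_)
    · have h2 : y n ^ (2 : ℝ) ≤ ε n :=
        (Real.rpow_le_rpow_of_exponent_ge hY hY1 (by linarith)).trans hε
      have h3 : ε n ^ (-c) ≤ (y n ^ (2 : ℝ)) ^ (-c) :=
        Real.rpow_le_rpow_of_nonpos (Real.rpow_pos_of_pos hY _) h2 (by linarith)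
      rw [← Real.rpow_mul hY.le] at h3
      have h4 : y n ^ (2 * -c) * y n = y n ^ (1 - 2 * c) := by
        have h5 : y n ^ (2 * -c) * y n ^ (1 : ℝ) = y n ^ (1 - 2 * c) := by
          rw [← Real.rpow_add hY]
          congr 1
          ring
        rwa [Real.rpow_one] at h5
      rw [← h4]
      exact mul_le_mul_of_nonneg_right h3 hY.le
    · exact (h.up n hnN).trans (Real.rpow_le_rpow_of_exponent_ge hY hY1 (by linarith))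
  have h1 := H43.osc_post hb hnr le_rfl (by linarith) hyy hosc4
  exact H43.omT_le_osc (H896.wp_t (N := 2 ^ r) hb.le ht).toWM h1

lemma tn_m (n : ℕ) : (((2 ^ n : ℕ) : ℝ)) ^ 2 * (2 / Real.pi * tn n) ≤ 2 := by
  unfold H972.tn
  push_cast
  have e : ((2 : ℝ) ^ n) ^ 2 = 4 ^ n := by
    rw [← pow_mul, mul_comm, pow_mul]
    norm_num
  rw [e]
  have h1 : (4 : ℝ) ^ n * (2 / Real.pi * ((4 : ℝ) ^ n)⁻¹) = 2 / Real.pi := by
    field_simp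
  rw [h1]
  have := two_pi_up
  linarith

lemma rg_B {n r : ℕ} (hnr : n ≤ r) {B : ℝ} (hB : 0 ≤ B) :
    4 * B * 2 ^ r ≤ (1 + 8 * (2 ^ (r - n) * B)) * (2 / Real.pi) * ((2 ^ n : ℕ) : ℝ) := by
  push_cast
  have e : (2 : ℝ) ^ r = 2 ^ n * 2 ^ (r - n) := by
    rw [← pow_add]
    congr 1
    omega
  rw [e]
  have h1 := two_pi_lo
  have h2 : (0 : ℝ) < 2 ^ n := by positivity
  have hP0 : (0 : ℝ) ≤ 1 + 8 * (2 ^ (r - n) * B) := by positivity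
  have h3 : 4 * B * (2 ^ (r - n)) ≤ (1 + 8 * (2 ^ (r - n) * B)) * (2 / Real.pi) := by
    have h4 := mul_le_mul_of_nonneg_left h1 hP0
    linarith
  have h5 := mul_le_mul_of_nonneg_right h3 h2.le
  linarith

lemma rg_G {n r : ℕ} (hnr : n ≤ r) {B G : ℝ} (hB : 0 ≤ B)
    (hG : 8 * G * (2 ^ (r - n) * 2 ^ ((3 * r + 3) / 4)) ≤ 1) :
    4 * G * (2 ^ r * 2 ^ ((3 * r + 3) / 4)) ≤
      (1 + 8 * (2 ^ (r - n) * B)) * (2 / Real.pi) * ((2 ^ n : ℕ) : ℝ) := by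
  push_cast
  have e : (2 : ℝ) ^ r = 2 ^ n * 2 ^ (r - n) := by
    rw [← pow_add]
    congr 1
    omega
  rw [e]
  have h1 := two_pi_lo
  have h2 : (0 : ℝ) < 2 ^ n := by positivity
  have hP0 : (0 : ℝ) ≤ 1 + 8 * (2 ^ (r - n) * B) := by positivity
  have h3 : 4 * G * (2 ^ (r - n) * 2 ^ ((3 * r + 3) / 4)) ≤
      (1 + 8 * (2 ^ (r - n) * B)) * (2 / Real.pi) := by
    have h4 := mul_le_mul_of_nonneg_left h1 hP0
    have h5 : (0 : ℝ) ≤ 2 ^ (r - n) * B := by positivity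
    linarith
  have h5 := mul_le_mul_of_nonneg_right h3 h2.le
  linarith

/-- **RegR in the letters of the flow** -/
theorem reg_flow {P : Par} {b σ c c1 q2 qx : ℝ} {a y ε xs : ℕ → ℝ} {c' r' q A : ℝ} {N : ℕ}
    (hb : 0 < b) (h : SFlow P b σ c c1 q2 qx a y ε xs c' r' q A N) (hc : 0 ≤ c)
    (hσ0 : 0 ≤ σ) (hσ : σ ≤ 1 / 6) (hpf : 2 / 3 ≤ P.pf) (hSi : ∀ i, 2 / Real.pi ≤ stiff (2 ^ i) b)
    (hL : LkS b (2 / Real.pi)) {κ g : ℝ} (hκ : 0 ≤ κ) (hg : 2 * c + κ < g) (hg1 : g ≤ 1) :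
    ∀ᶠ n in atTop, ∀ r, P.TT n (ε n) r → ∀ (F : Tor (2 ^ r) → ℝ) (c0 B G : ℝ),
      (∀ x, |F x - c0| ≤ B) → (∀ x, |F (x + (1, 0)) - F x| ≤ G) →
      (∀ x, |F (x + (0, 1)) - F x| ≤ G) → (2 ^ (r - n) * (1 + B)) ^ 2 ≤ y n ^ (-κ) →
      8 * G * (2 ^ (r - n) * 2 ^ ((3 * r + 3) / 4)) ≤ 1 →
      Rs (nwt (2 ^ r) b (tn n) 0) (ntr (tn n • (1 : Matrix (Tor (2 ^ r)) (Tor (2 ^ r)) ℝ)) (tn n) *ᵥ F) ≤
        y n ^ (1 - g) := by
  obtain ⟨δ, hδd⟩ : ∃ δ : ℝ, δ = (g - 2 * c - κ) / 2 := ⟨_, rfl⟩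
  have hδ : 0 < δ := by rw [hδd]; linarith
  have hδ1 : δ < 1 := by rw [hδd]; linarith
  have hgd : g = 2 * c + κ + 2 * δ := by rw [hδd]; ring
  have hS0 : (0 : ℝ) < 2 / Real.pi := by positivity
  obtain ⟨C, hC, R0, hR⟩ := reg_R hb hS0 hSi hL δ hδ
  obtain ⟨LL, hLLd⟩ : ∃ LL : ℝ, LL = Real.sqrt (H264.kap * A) + 1 := ⟨_, rfl⟩
  have hLL : 1 ≤ LL := by
    rw [hLLd]
    have := Real.sqrt_nonneg (H264.kap * A)
    linarith
  have E3 : ∀ᶠ n : ℕ in atTop, (n : ℝ)⁻¹ * (1 / y n) ≤ LL :=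
    (h.t3.ny.eventually (Iic_mem_nhds (by rw [hLLd]; linarith)))
  obtain ⟨K0, -, E2⟩ := h.t3.lower
  have hyt := h.fl.yt
  have hyδ : Tendsto (fun n => y n ^ δ) atTop (𝓝 0) := by
    have := hyt.rpow_const (p := δ) (Or.inr hδ.le)
    rwa [Real.zero_rpow hδ.ne'] at this
  have E4 : ∀ᶠ n in atTop, (64 * C * (LL + 1) + 1600 * C + 2 + 4) * y n ^ δ ≤ 1 := by
    have := hyδ.const_mul (64 * C * (LL + 1) + 1600 * C + 2 + 4)
    rw [mul_zero] at this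
    exact this.eventually (Iic_mem_nhds one_pos)
  have E5 : ∀ᶠ n in atTop, y n ≤ 1 / 4 := hyt.eventually (Iic_mem_nhds (by norm_num))
  have E6 : ∀ᶠ n : ℕ in atTop, 64 * LL ≤ n := (tendsto_natCast_atTop_atTop (R := ℝ)).eventually_ge_atTop _
  filter_upwards [E2, E3, E4, E5, E6, eventually_ge_atTop N, eventually_ge_atTop R0,
    eventually_ge_atTop 1] with n e2 e3 e4 e5 e6 hnN hnR hn1 r hTT F c0 B G hF hG1 hG2 hKB hGG
  obtain ⟨η, hη0, hη1, ha, hFL⟩ := flow_fl h hσ0 hσ hpf hnN e2.1 e5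
  have hY : 0 < y n := h.fl.y0 n
  have hY1 : y n ≤ 1 := h.y1 n hnN
  have hnr : n ≤ r := by
    have := hTT.1
    omega
  have hB : 0 ≤ B := (abs_nonneg _).trans (hF 0)
  have hK : (1 : ℝ) ≤ 2 ^ (r - n) := one_le_pow₀ (by norm_num)
  have ht : 0 < tn n := by unfold H972.tn; positivity
  have hyd0 : 0 ≤ y n ^ δ := Real.rpow_nonneg hY.le _
  have hCL : 0 ≤ C * (LL + 1) := mul_nonneg hC (by linarith)
  have hK2 : ((2 : ℝ) ^ (r - n)) ^ 2 ≤ y n ^ (-κ) := by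
    refine le_trans ?_ hKB
    exact pow_le_pow_left₀ (by positivity) (by nlinarith) 2
  have hosc4 : 4 * (((2 : ℝ) ^ (r - n)) ^ 2 * y n ^ (1 - 2 * c)) ≤ 1 := by
    have h1 : ((2 : ℝ) ^ (r - n)) ^ 2 * y n ^ (1 - 2 * c) ≤ y n ^ (-κ) * y n ^ (1 - 2 * c) :=
      mul_le_mul_of_nonneg_right hK2 (Real.rpow_nonneg hY.le _)
    rw [← Real.rpow_add hY] at h1
    have h2 : y n ^ (-κ + (1 - 2 * c)) ≤ y n ^ δ :=
      Real.rpow_le_rpow_of_exponent_ge hY hY1 (by linarith)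
    have h3 : 4 * y n ^ δ ≤ 1 :=
      (mul_le_mul_of_nonneg_right (by linarith) hyd0).trans e4
    linarith
  have hom := flow_om hb h hc hσ0 hσ hnN hTT (by linarith) hosc4
  have hPle : 1 + 8 * (2 ^ (r - n) * B) ≤ 8 * ((2 : ℝ) ^ (r - n) * (1 + B)) := by linarith
  have hP0 : (0 : ℝ) ≤ 1 + 8 * (2 ^ (r - n) * B) := by positivity
  have hP1 : (1 : ℝ) ≤ 1 + 8 * (2 ^ (r - n) * B) := by
    have : (0 : ℝ) ≤ 2 ^ (r - n) * B := by positivity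
    linarith
  have hmain := hR r (hnR.trans hnr) (1 + 8 * (2 ^ (r - n) * B)) hP1
    (rg_P hnr hY hY1 (by linarith) hK hB e3 e6 hn1 hKB) (tn n) ht (2 ^ n) Nat.one_le_two_pow
    (Nat.pow_le_pow_right (by norm_num) hnr) (tn_m n) F c0 B G hF hG1 hG2 (rg_B hnr hB)
    (rg_G hnr hB hGG) η (a n) hη0 (hFL r hTT) ha
  refine hmain.trans ?_
  rw [mul_div_assoc]
  exact rg_num hY hY1 hc hδ hgd hC (L := LL) (by linarith) hK hB hKB hP0 hPle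
    (rg_u hn1 hnr hY hδ hδ1 hLL e3) hη0 hη1 hom (by positivity)
    ((mul_le_mul_of_nonneg_right (by linarith) hyd0).trans e4)

end Vale.Agent.P159.H513
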