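import Vale.Agent.P159.H770.DisM
import Vale.Agent.P159.H770.DisN

/-!
P159, helper513: AMPLITUDE GAIN (abstract part, letters of 770).

`TL W b J = log Z(2b, 2J) + 3 log Z(0,0) - 4 log Z(b,J)` (`= 4 E(D) - E(2D)` : a zero background
number).  For every real source `a` and every `S ≥ 1`

* `RsD_gain` : `0 ≤ RsD W b J a ≤ (TL W b J + Rs (W 0) ((2S) a)) / (2S)`,

`RsD` = non-quadratic part of `log Z(b, J + .)` about the undislocated covariance.  In the letters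
of the (neutral) field partition functions, `F₀` the real decoration, `F` a background field,
`ell = ⟨F₀ - E h, M F⟩`:

* `GWF.amp_lo`, `GWF.amp_up` : `log (Ψ(F)/Ψ(0)) = RsD - Rs - ell`.
-/

open scoped Matrix
open Finset

namespace Vale.Agent.P159.H513.Amp

open Vale.Agent.P159.TM.H104 (EM T Ex Cv Lg li Gr)
open Vale.Agent.P159.H37
open Vale.Agent.P159.H770
open Vale.Agent.P159.H789 (kk PSDK disc)
open Vale.Agent.P159.H963 (MF nM ntr pin)

section fam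

variable {B V : Type} [AddCommGroup B] [Fintype V] {W : B → (V → ℤ) → ℝ}

/-- `4 E(D) - E(2 D)` in source letters -/
noncomputable def TL (W : B → (V → ℤ) → ℝ) (b : B) (J : V → ℝ) : ℝ :=
  Lg (W (b + b)) (J + J) + 3 * Lg (W 0) 0 - 4 * Lg (W b) J

/-- Cauchy-Schwarz for the feature vectors of two points -/
theorem cs_psdk {A : Type*} [AddCommGroup A] {Z : A → ℝ} (hK : PSDK Z) (he : ∀ a, Z (-a) = Z a)
    (x y : A) : (Z (x + y) * Z (x - y)) ^ 2 ≤ Z (x + x) * Z 0 * (Z (y + y) * Z 0) := by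
  have h : ∀ s t : ℝ, 0 ≤ s ^ 2 * kk Z x x + 2 * (s * t * kk Z x y) + t ^ 2 * kk Z y y := by
    intro s t
    have h1 := hK 2 ![x, y] ![s, t]
    simp only [Fin.sum_univ_two, Matrix.cons_val_zero, Matrix.cons_val_one] at h1
    have e1 : kk Z y x = kk Z x y := by
      unfold kk
      rw [add_comm y x, ← neg_sub x y, he]
    rw [e1] at h1
    linarith
  have h2 := disc h
  unfold kk at h2
  rw [sub_self, sub_self] at h2
  exact h2

/-- Cauchy-Schwarz, logarithmic form -/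
theorem csL (hW : DisF W) (b : B) (J a : V → ℝ) :
    2 * (Lg (W b) (J + a) + Lg (W b) (J - a)) ≤
      Lg (W (b + b)) (J + J) + Lg (W 0) (a + a) + 2 * Lg (W 0) 0 := by
  have h := cs_psdk hW.psdk hW.negB (b, J) ((0 : B), a)
  have e1 : ZB W ((b, J) + ((0 : B), a)) = Zs (W b) (J + a) := by
    simp [ZB]
  have e2 : ZB W ((b, J) - ((0 : B), a)) = Zs (W b) (J - a) := by
    simp [ZB]
  have e3 : ZB W ((b, J) + (b, J)) = Zs (W (b + b)) (J + J) := by
    simp [ZB]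
  have e4 : ZB W (((0 : B), a) + ((0 : B), a)) = Zs (W 0) (a + a) := by
    simp [ZB]
  have e5 : ZB W 0 = Zs (W 0) 0 := by
    simp [ZB]
  rw [e1, e2, e3, e4, e5, ← exp_LgB hW, ← exp_LgB hW, ← exp_LgB hW, ← exp_LgB hW, ← exp_LgB hW,
    ← Real.exp_add, ← Real.exp_add, ← Real.exp_add, ← Real.exp_add, ← Real.exp_nat_mul,
    Real.exp_le_exp] at h
  push_cast at h
  linarith

/-- `RsD` at `a` and `-a` -/
theorem RsD_pair (hW : DisF W) (b : B) (J a : V → ℝ) :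
    2 * (RsD W b J a + RsD W b J (-a)) ≤ TL W b J + Rs (W 0) ((2 : ℝ) • a) := by
  have h := csL hW b J a
  unfold RsD Rs TL
  rw [Ex_li_neg, qf_neg, qf_smul, ← sub_eq_add_neg]
  rw [← two_smul ℝ a] at h
  linarith

/-- **amplitude gain** -/
theorem RsD_gain (hW : DisF W) (b : B) (J a : V → ℝ) {S : ℝ} (hS : 1 ≤ S) :
    RsD W b J a ≤ (TL W b J + Rs (W 0) ((2 * S) • a)) / (2 * S) := by
  have hS0 : 0 < S := one_pos.trans_le hS
  have hi0 : 0 ≤ 1 / S := by positivity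
  have hi1 : 0 ≤ 1 - 1 / S := sub_nonneg.2 ((div_le_one hS0).2 hS)
  have hc := (RsD_convex hW b J).2 (Set.mem_univ (S • a)) (Set.mem_univ (0 : V → ℝ)) hi0 hi1
    (by ring)
  have e1 : (1 / S) • S • a + (1 - 1 / S) • (0 : V → ℝ) = a := by
    rw [smul_zero, add_zero, smul_smul, one_div_mul_cancel hS0.ne', one_smul]
  rw [e1, RsD_zero_vec, smul_zero, add_zero, smul_eq_mul] at hc
  have hn := RsD_nonneg hW b J (-(S • a))
  have hp := RsD_pair hW b J (S • a)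
  rw [smul_smul] at hp
  have h1 : RsD W b J (S • a) ≤ (TL W b J + Rs (W 0) ((2 * S) • a)) / 2 := by linarith
  refine hc.trans ((mul_le_mul_of_nonneg_left h1 hi0).trans (le_of_eq ?_))
  field_simp

end fam

section letters

variable {B V : Type} [AddCommGroup B] [Fintype V] {W : B → (V → ℤ) → ℝ} {A : Matrix V V ℝ}

/-- field letters : mass form `A`, real field `F` -/
noncomputable def ZF (W : B → (V → ℤ) → ℝ) (A : Matrix V V ℝ) (κ : ℝ) (b : B) (F : V → ℝ) : ℝ :=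
  κ * (Real.exp (-(qf A F / 2)) * Zs (W b) (A *ᵥ F))

/-- the linear functional `⟨F₀ - E h, A F⟩` -/
noncomputable def ell (W : B → (V → ℤ) → ℝ) (A : Matrix V V ℝ) (b : B) (F₀ F : V → ℝ) : ℝ :=
  bf A F₀ F - Ex (W b) (A *ᵥ F₀) (li (A *ᵥ F))

omit [AddCommGroup B] in
theorem ell_smul (b : B) (F₀ F : V → ℝ) (s : ℝ) :
    ell W A b F₀ (s • F) = s * ell W A b F₀ F := by
  unfold ell
  rw [bf_smul_right, Matrix.mulVec_smul, Ex_li_smul]
  ring

theorem ZF_pos (hW : DisF W) {κ : ℝ} (hκ : 0 < κ) (b : B) (F : V → ℝ) : 0 < ZF W A κ b F :=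
  mul_pos hκ (mul_pos (Real.exp_pos _) (hW.pos _ _))

theorem ZF_ratio (hW : DisF W) (hA : Aᵀ = A) (κ : ℝ) (b : B) (F₀ F : V → ℝ) :
    ZF W A κ b (F₀ + F) * ZF W A κ 0 0 = ZF W A κ 0 F * ZF W A κ b F₀ *
      Real.exp (RsD W b (A *ᵥ F₀) (A *ᵥ F) - Rs (W 0) (A *ᵥ F) - ell W A b F₀ F) := by
  unfold ZF
  rw [← exp_LgB hW, ← exp_LgB hW, ← exp_LgB hW, ← exp_LgB hW]
  have e : ∀ a c p q : ℝ, κ * (Real.exp a * Real.exp c) * (κ * (Real.exp p * Real.exp q)) =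
      κ ^ 2 * Real.exp (a + c + (p + q)) := by
    intro a c p q
    rw [Real.exp_add, Real.exp_add, Real.exp_add]
    ring
  rw [e, e, mul_assoc, ← Real.exp_add]
  congr 2
  unfold RsD Rs ell
  rw [qf_add_vec hA, qf_zero_vec, Matrix.mulVec_add, Matrix.mulVec_zero]
  ring

/-- the price `4 E(D) - E(2D)` in field letters -/
theorem exp_TL (hW : DisF W) {κ : ℝ} (hκ : 0 < κ) (b : B) (F₀ : V → ℝ) :
    Real.exp (TL W b (A *ᵥ F₀)) =
      ZF W A κ (b + b) (F₀ + F₀) * ZF W A κ 0 0 ^ 3 / ZF W A κ b F₀ ^ 4 := by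
  unfold ZF TL
  rw [← exp_LgB hW, ← exp_LgB hW, ← exp_LgB hW, eq_div_iff (by positivity)]
  have e1 : F₀ + F₀ = (2 : ℝ) • F₀ := (two_smul ℝ F₀).symm
  rw [← Matrix.mulVec_add, e1, qf_smul, qf_zero_vec, Matrix.mulVec_zero, ← Real.exp_add,
    ← Real.exp_add, ← Real.exp_add, mul_pow, mul_pow, ← Real.exp_nat_mul, ← Real.exp_nat_mul]
  have e : ∀ x y z u : ℝ, x + u = y + z →
      Real.exp x * (κ ^ 4 * Real.exp u) = κ * Real.exp y * (κ ^ 3 * Real.exp z) := by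
    intro x y z u h
    calc Real.exp x * (κ ^ 4 * Real.exp u) = κ ^ 4 * Real.exp (x + u) := by
          rw [Real.exp_add]; ring
      _ = κ ^ 4 * Real.exp (y + z) := by rw [h]
      _ = _ := by rw [Real.exp_add]; ring
  refine e _ _ _ _ ?_
  push_cast
  ring

/-- **lower half** -/
theorem amp_lo (hW : DisF W) (hA : Aᵀ = A) {κ : ℝ} (hκ : 0 < κ) (b : B) (F₀ F : V → ℝ) :
    ZF W A κ 0 F * ZF W A κ b F₀ * Real.exp (-ell W A b F₀ F - Rs (W 0) (A *ᵥ F)) ≤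
      ZF W A κ b (F₀ + F) * ZF W A κ 0 0 := by
  rw [ZF_ratio hW hA]
  have h := RsD_nonneg hW b (A *ᵥ F₀) (A *ᵥ F)
  have p1 := ZF_pos (A := A) hW hκ 0 F
  have p2 := ZF_pos (A := A) hW hκ b F₀
  refine mul_le_mul_of_nonneg_left (Real.exp_le_exp.2 (by linarith)) (by positivity)

/-- **upper half : amplitude gain** -/
theorem amp_up (hW : DisF W) (hA : Aᵀ = A) {κ : ℝ} (hκ : 0 < κ) (b : B) (F₀ F : V → ℝ) {S : ℝ}
    (hS : 1 ≤ S) :
    ZF W A κ b (F₀ + F) * ZF W A κ 0 0 ≤ ZF W A κ 0 F * ZF W A κ b F₀ *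
      Real.exp (-ell W A b F₀ F - Rs (W 0) (A *ᵥ F) +
        (TL W b (A *ᵥ F₀) + Rs (W 0) (A *ᵥ ((2 * S) • F))) / (2 * S)) := by
  rw [ZF_ratio hW hA]
  have h := RsD_gain hW b (A *ᵥ F₀) (A *ᵥ F) hS
  rw [← Matrix.mulVec_smul] at h
  have p1 := ZF_pos (A := A) hW hκ 0 F
  have p2 := ZF_pos (A := A) hW hκ b F₀
  refine mul_le_mul_of_nonneg_left (Real.exp_le_exp.2 (by linarith)) (by positivity)

/-- **the linear functional by the upper bound at a larger amplitude** (both signs) -/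
theorem ell_le (hW : DisF W) (hA : Aᵀ = A) {κ : ℝ} (hκ : 0 < κ) (b : B) (F₀ F : V → ℝ) {S u : ℝ}
    (hS : 0 < S)
    (h1 : ZF W A κ b (F₀ + S • F) * ZF W A κ 0 0 ≤
      Real.exp u * (ZF W A κ 0 (S • F) * ZF W A κ b F₀))
    (h2 : ZF W A κ b (F₀ + (-S) • F) * ZF W A κ 0 0 ≤
      Real.exp u * (ZF W A κ 0 ((-S) • F) * ZF W A κ b F₀)) :
    |ell W A b F₀ F| ≤ (u + Rs (W 0) (A *ᵥ (S • F))) / S := by
  have key : ∀ s : ℝ, ZF W A κ b (F₀ + s • F) * ZF W A κ 0 0 ≤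
      Real.exp u * (ZF W A κ 0 (s • F) * ZF W A κ b F₀) →
      -(s * ell W A b F₀ F) - Rs (W 0) (A *ᵥ (s • F)) ≤ u := by
    intro s h
    have h3 := (amp_lo hW hA hκ b F₀ (s • F)).trans h
    have p1 := ZF_pos (A := A) hW hκ 0 (s • F)
    have p2 := ZF_pos (A := A) hW hκ b F₀
    rw [mul_comm (Real.exp u)] at h3
    have h4 := Real.exp_le_exp.1 (le_of_mul_le_mul_left h3 (mul_pos p1 p2))
    rw [ell_smul] at h4
    exact h4
  have k1 := key S h1
  have k2 := key (-S) h2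
  have e : Rs (W 0) (A *ᵥ ((-S) • F)) = Rs (W 0) (A *ᵥ (S • F)) := by
    rw [neg_smul, Matrix.mulVec_neg, H789.Rs_neg hW.ev0]
  rw [e] at k2
  rw [le_div_iff₀ hS, ← abs_of_pos hS, ← abs_mul, abs_of_pos hS, abs_le]
  constructor <;> nlinarith

end letters

section gwf

variable {B V : Type} [AddCommGroup B] [Fintype V] {w : B → (V → ℤ) → ℝ}

omit [AddCommGroup B] in
/-- integer model in field letters -/
theorem ZM_ZF {M : Matrix V V ℝ} (hM : Mᵀ = M) (b : B) (F : V → ℝ) :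
    ZM (w b) M F = ZF (fun b => wM (w b) M) M 1 b F := by
  unfold ZF
  rw [ZM_eq _ hM, one_mul]

variable [DecidableEq V] [Nonempty V]

/-- neutral model in field letters -/
theorem Zn_ZF (hw : GWF w) {M : Matrix V V ℝ} {m : ℝ} (hM : MF M m) (x₀ : V) (b : B)
    (F : V → ℝ) :
    Zn (w b) M F = ZF (fun b => nM (w b) M m x₀) (ntr M m)
      (Real.sqrt (2 * Real.pi / (m * Fintype.card V))) b F :=
  hw.Zn_eq hM x₀ b F

/-- **amplitude gain, neutral partition functions** -/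
theorem amp_n (hw : GWF w) {M : Matrix V V ℝ} {m : ℝ} (hM : MF M m) (x₀ : V) (b : B)
    (F₀ F : V → ℝ) {S : ℝ} (hS : 1 ≤ S) {R : (V → ℝ) → ℝ} {l T : ℝ}
    (hR : ∀ G, R G = Rs (nM (w 0) M m x₀) (ntr M m *ᵥ G))
    (hl : l = ell (fun b => nM (w b) M m x₀) (ntr M m) b F₀ F)
    (hT : Real.exp T = Zn (w (b + b)) M (F₀ + F₀) * Zn (w 0) M 0 ^ 3 / Zn (w b) M F₀ ^ 4) :
    Zn (w 0) M F * Zn (w b) M F₀ * Real.exp (-l - R F) ≤
      Zn (w b) M (F₀ + F) * Zn (w 0) M 0 ∧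
    Zn (w b) M (F₀ + F) * Zn (w 0) M 0 ≤ Zn (w 0) M F * Zn (w b) M F₀ *
      Real.exp (-l - R F + (T + R ((2 * S) • F)) / (2 * S)) := by
  have hW := hw.disF_nM hM x₀
  have hA := H963.ntr_transpose hM.symm m
  have hN : (0 : ℝ) < Fintype.card V := Nat.cast_pos.2 Fintype.card_pos
  have hm := hM.pos
  have hκ : 0 < Real.sqrt (2 * Real.pi / (m * Fintype.card V)) :=
    Real.sqrt_pos.2 (by positivity)
  have h1 := amp_lo hW hA hκ b F₀ F
  have h2 := amp_up hW hA hκ b F₀ F hS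
  have h3 := exp_TL (A := ntr M m) hW hκ b F₀
  simp only [← Zn_ZF hw hM x₀] at h1 h2 h3
  rw [← hT] at h3
  have h4 := Real.exp_injective h3
  rw [h4] at h2
  rw [hR F, hR ((2 * S) • F), hl]
  exact ⟨h1, h2⟩

/-- if the real decoration minimises `f ↦ -log Zn (w b) M f` the linear term vanishes -/
theorem ell_zero_of_max (hw : GWF w) {M : Matrix V V ℝ} {m : ℝ} (hM : MF M m) (x₀ : V) (b : B)
    (F₀ : V → ℝ) (hmax : ∀ F, Zn (w b) M F ≤ Zn (w b) M F₀) (F : V → ℝ) :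
    ell (fun b => nM (w b) M m x₀) (ntr M m) b F₀ F = 0 := by
  have hW := hw.disF_nM hM x₀
  have hA := H963.ntr_transpose hM.symm m
  have hN : (0 : ℝ) < Fintype.card V := Nat.cast_pos.2 Fintype.card_pos
  have hm := hM.pos
  have hκ : 0 < Real.sqrt (2 * Real.pi / (m * Fintype.card V)) :=
    Real.sqrt_pos.2 (by positivity)
  set W : B → (V → ℤ) → ℝ := fun b => nM (w b) M m x₀ with hWd
  set κ := Real.sqrt (2 * Real.pi / (m * Fintype.card V)) with hκd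
  -- `-s l - Rs (s a) ≤ log (Z(s F) / Z(0))`, i.e. `- s l ≤ q s²`
  have key : ∀ s : ℝ, -(s * ell W (ntr M m) b F₀ F) ≤
      qf (ntr M m) (s • F) / 2 - qf (Gm (W 0)) (ntr M m *ᵥ (s • F)) / 2 := by
    intro s
    have h := hmax (F₀ + s • F)
    rw [Zn_ZF hw hM x₀, Zn_ZF hw hM x₀] at h
    have h1 := RsD_nonneg hW b (ntr M m *ᵥ F₀) (ntr M m *ᵥ (s • F))
    unfold ZF at h
    rw [← exp_LgB hW, ← exp_LgB hW, ← Real.exp_add, ← Real.exp_add] at h
    have h2 := Real.exp_le_exp.1 (le_of_mul_le_mul_left h hκ)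
    rw [qf_add_vec hA, Matrix.mulVec_add] at h2
    have h3 := ell_smul (W := W) (A := ntr M m) b F₀ F s
    rw [← h3]
    unfold RsD at h1
    unfold ell
    linarith
  set l := ell W (ntr M m) b F₀ F with hld
  set q := qf (ntr M m) F / 2 - qf (Gm (W 0)) (ntr M m *ᵥ F) / 2 with hq
  have key2 : ∀ s : ℝ, -(s * l) ≤ q * s ^ 2 := by
    intro s
    have h := key s
    rw [Matrix.mulVec_smul, qf_smul, qf_smul] at h
    calc -(s * l) ≤ _ := h
      _ = q * s ^ 2 := by rw [hq]; ring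
  by_contra hne
  have hq0 : 0 ≤ q := by
    have h1 := key2 1
    have h2 := key2 (-1)
    linarith
  have hl2 : 0 < l ^ 2 := by positivity
  have h1 := key2 (-(l / (2 * (q + 1))))
  have e1 : -(-(l / (2 * (q + 1))) * l) = l ^ 2 / (2 * (q + 1)) := by ring
  have e2 : q * (-(l / (2 * (q + 1)))) ^ 2 = l ^ 2 / (2 * (q + 1)) * (q / (2 * (q + 1))) := by
    field_simp
  rw [e1, e2] at h1
  have h2 : q / (2 * (q + 1)) < 1 := by
    rw [div_lt_one (by positivity)]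
    linarith
  have h3 : 0 < l ^ 2 / (2 * (q + 1)) := by positivity
  nlinarith

end gwf

end Vale.Agent.P159.H513.Amp
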