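import Vale.Agent.P159.H513.Cor
import Vale.Agent.P159.H864.Fou2

/-!
Gradient fields, domination of the covariance by inverses, and the lower bound of the self energy by
the stiffness of the blocks.
-/

set_option linter.all false

open MeasureTheory Filter Topology Matrix Finset

namespace Vale.Agent.P159.H513

open Vale.Agent.P159 Vale.Agent.P159.H353 Vale.Agent.P159.R2.H254 Vale.Agent.P159.H950
open Vale.Agent.P159.H37 (qf bf re wM ZM Zs Gm Rs Ght Pik wt)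
open Vale.Agent.P159.TM.SpecC (Tor wT)
open Vale.Agent.P159.TM.H104 (Lg)
open Vale.Agent.P159.TM.H859 (dirE)
open Vale.Agent.P159.TM.H764 (cN sN dt EE)
open Vale.Agent.P159.H864 (lapM TI sym)

variable {N l n : ℕ} [NeZero N] {b : ℝ}

/-- gradient field -/
def gF {N : ℕ} (u : Tor N → ℝ) (x : Tor N) (t : Bool) : ℝ :=
  if t then u (x + (1, 0)) - u x else u (x + (0, 1)) - u x

lemma dvT_gF (u : Tor N → ℝ) (x : Tor N) : dvT (gF u) x = (lapM *ᵥ u) x := by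
  rw [H340.lapM_mulVec]
  unfold dvT gF
  simp only [if_true, Bool.false_eq_true, if_false, sub_add_cancel]
  ring

lemma nC_gF (u : Tor N → ℝ) : nC (gF u) = dirE u := by
  unfold nC gF dirE
  simp only [if_true, Bool.false_eq_true, if_false]

/-- summation by parts -/
lemma sum_parts (u v : Tor N → ℝ) :
    ∑ x, (gF u x true * gF v x true + gF u x false * gF v x false) = ∑ x, u x * (lapM *ᵥ v) x := by
  have key : ∀ e : Tor N, ∑ x, (u (x + e) - u x) * (v (x + e) - v x) =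
      ∑ x, u x * (2 * v x - v (x + e) - v (x - e)) := by
    intro e
    have h1 : ∑ x, u (x + e) * (v (x + e) - v x) = ∑ x, u x * (v x - v (x - e)) := by
      rw [← Equiv.sum_comp (Equiv.addRight e) (fun x => u x * (v x - v (x - e)))]
      exact Finset.sum_congr rfl fun x _ => by simp
    have h2 : ∑ x, (u (x + e) - u x) * (v (x + e) - v x) =
        ∑ x, u (x + e) * (v (x + e) - v x) - ∑ x, u x * (v (x + e) - v x) := by
      rw [← Finset.sum_sub_distrib]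
      exact Finset.sum_congr rfl fun x _ => by ring
    rw [h2, h1, ← Finset.sum_sub_distrib]
    exact Finset.sum_congr rfl fun x _ => by ring
  rw [Finset.sum_add_distrib]
  unfold gF
  simp only [if_true, Bool.false_eq_true, if_false]
  rw [key (1, 0), key (0, 1), ← Finset.sum_add_distrib]
  refine Finset.sum_congr rfl fun x _ => ?_
  rw [H340.lapM_mulVec]
  ring

lemma dirE_eq (u : Tor N → ℝ) : dirE u = ∑ x, u x * (lapM *ᵥ u) x := by
  rw [← sum_parts, ← nC_gF]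
  unfold nC
  exact Finset.sum_congr rfl fun x _ => by ring

/-- second differences -/
lemma dirE_gF (u : Tor N → ℝ) :
    dirE (fun x => gF u x true) + dirE (fun x => gF u x false) = ∑ x, (lapM *ᵥ u) x ^ 2 := by
  have h1 : ∀ t x, (lapM *ᵥ (fun x => gF u x t)) x = gF (lapM *ᵥ u) x t := by
    intro t x
    rw [H340.lapM_mulVec]
    cases t
    · simp only [gF, Bool.false_eq_true, if_false, H340.lapM_mulVec]
      have e1 : x + (0, 1) + (1, 0) = x + (1, 0) + (0, 1) := by abel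
      have e2 : x + (0, 1) - (1, 0) = x - (1, 0) + (0, 1) := by abel
      have e3 : x + (0, 1) - (0, 1) = x - (0, 1) + (0, 1) := by abel
      rw [e1, e2, e3]
      ring
    · simp only [gF, if_true, H340.lapM_mulVec]
      have e1 : x + (1, 0) + (0, 1) = x + (0, 1) + (1, 0) := by abel
      have e2 : x + (1, 0) - (0, 1) = x - (0, 1) + (1, 0) := by abel
      have e3 : x + (1, 0) - (1, 0) = x - (1, 0) + (1, 0) := by abel
      rw [e1, e2, e3]
      ring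
  rw [dirE_eq, dirE_eq, ← Finset.sum_add_distrib]
  simp only [h1]
  rw [sum_parts u (lapM *ᵥ u)]
  have h2 := sum_parts (lapM *ᵥ u) u
  have h3 : ∑ x, (gF (lapM *ᵥ u) x true * gF u x true + gF (lapM *ᵥ u) x false * gF u x false) =
      ∑ x, (gF u x true * gF (lapM *ᵥ u) x true + gF u x false * gF (lapM *ᵥ u) x false) :=
    Finset.sum_congr rfl fun x _ => by ring
  rw [h3, sum_parts u (lapM *ᵥ u)] at h2
  rw [h2]
  exact Finset.sum_congr rfl fun x _ => by ring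

/-- **E2 with gradient fields**: `J = M ψ + a (-Δ) ψ` -/
theorem e2_grad (hN : N = n * l) (hb : 0 ≤ b) (hl : 1 ≤ l) {M : Matrix (Tor N) (Tor N) ℝ}
    (hMs : Mᵀ = M) {m0 : ℝ} (hm0 : 0 < m0) (hM : ∀ u : Tor N → ℝ, m0 * ∑ x, u x ^ 2 ≤ qf M u)
    (J ψ : Tor N → ℝ) (a : ℝ) (hJ : J = M *ᵥ ψ + a • (lapM *ᵥ ψ))
    (hc : ∀ x t, |a * gF ψ x t| ≤ 1) {η : ℝ} (hη : 0 < η) :
    Lg (wM (wT b N) M) J - Lg (wM (wT b N) M) 0 ≤ qf M ψ / 2 +
      (1 + η) / 2 * (stiff l b * (a ^ 2 * dirE ψ)) +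
      (1 + 1 / η) / 2 * (16 * b * (l : ℝ) ^ 2 * (a ^ 2 * ∑ x, (lapM *ᵥ ψ) x ^ 2)) +
      3 * max b 1 ^ 2 * ∑ k, nK N l n (fun x t => a * gF ψ x t) k ^ 2 := by
  have h := e2_Lg hN hb hl hMs hm0 hM J ψ (fun x t => a * gF ψ x t) hc (fun x => by
    rw [hJ, dvT_smul, dvT_gF]
    rfl) hη
  refine h.trans ?_
  have h1 : nC (fun x t => a * gF ψ x t) = a ^ 2 * dirE ψ := by
    rw [← nC_gF]
    unfold nC
    rw [Finset.mul_sum]
    exact Finset.sum_congr rfl fun x _ => by ring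
  have h2 := sum_oK_le hN hl (fun x t => a * gF ψ x t)
  have h3 : ∀ t, dirE (fun x => a * gF ψ x t) = a ^ 2 * dirE (fun x => gF ψ x t) := by
    intro t
    unfold dirE
    rw [Finset.mul_sum]
    exact Finset.sum_congr rfl fun x _ => by ring
  rw [h3, h3, ← mul_add, dirE_gF] at h2
  unfold eE2
  rw [h1]
  have h4 : 0 ≤ (1 + 1 / η) / 2 := by positivity
  have h5 := mul_le_mul_of_nonneg_left (mul_le_mul_of_nonneg_left h2 hb) h4
  linarith

/-- the same for the covariance, no smallness -/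
theorem gm_grad (hN : N = n * l) (hb : 0 ≤ b) (hl : 1 ≤ l) {M : Matrix (Tor N) (Tor N) ℝ}
    (hMs : Mᵀ = M) {m0 : ℝ} (hm0 : 0 < m0) (hM : ∀ u : Tor N → ℝ, m0 * ∑ x, u x ^ 2 ≤ qf M u)
    (J ψ : Tor N → ℝ) (a : ℝ) (hJ : J = M *ᵥ ψ + a • (lapM *ᵥ ψ)) {η : ℝ} (hη : 0 < η) :
    qf (Gm (wM (wT b N) M)) J ≤ qf M ψ + (1 + η) * (stiff l b * (a ^ 2 * dirE ψ)) +
      (1 + 1 / η) * (16 * b * (l : ℝ) ^ 2 * (a ^ 2 * ∑ x, (lapM *ᵥ ψ) x ^ 2)) := by
  have h := gm_le hN hb hl hMs hm0 hM J ψ (fun x t => a * gF ψ x t) (fun x => by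
    rw [hJ, dvT_smul, dvT_gF]
    rfl) hη
  refine h.trans ?_
  have h1 : nC (fun x t => a * gF ψ x t) = a ^ 2 * dirE ψ := by
    rw [← nC_gF]
    unfold nC
    rw [Finset.mul_sum]
    exact Finset.sum_congr rfl fun x _ => by ring
  have h2 := sum_oK_le hN hl (fun x t => a * gF ψ x t)
  have h3 : ∀ t, dirE (fun x => a * gF ψ x t) = a ^ 2 * dirE (fun x => gF ψ x t) := by
    intro t
    unfold dirE
    rw [Finset.mul_sum]
    exact Finset.sum_congr rfl fun x _ => by ring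
  rw [h3, h3, ← mul_add, dirE_gF] at h2
  rw [h1]
  have h4 : 0 ≤ 1 + 1 / η := by positivity
  have h5 := mul_le_mul_of_nonneg_left (mul_le_mul_of_nonneg_left h2 hb) h4
  linarith

/-- bare form -/
theorem gm_bare_grad (hb : 0 ≤ b) {M : Matrix (Tor N) (Tor N) ℝ}
    (hMs : Mᵀ = M) {m0 : ℝ} (hm0 : 0 < m0) (hM : ∀ u : Tor N → ℝ, m0 * ∑ x, u x ^ 2 ≤ qf M u)
    (J ψ : Tor N → ℝ) (a : ℝ) (hJ : J = M *ᵥ ψ + a • (lapM *ᵥ ψ)) :
    qf (Gm (wM (wT b N) M)) J ≤ qf M ψ + b * (a ^ 2 * dirE ψ) := by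
  have h := gm_bare hb hMs hm0 hM J ψ (fun x t => a * gF ψ x t) (fun x => by
    rw [hJ, dvT_smul, dvT_gF]
    rfl)
  have h1 : nC (fun x t => a * gF ψ x t) = a ^ 2 * dirE ψ := by
    rw [← nC_gF]
    unfold nC
    rw [Finset.mul_sum]
    exact Finset.sum_congr rfl fun x _ => by ring
  rwa [h1] at h

lemma qf_lapM' (u : Tor N → ℝ) : qf lapM u = dirE u := by
  rw [dirE_eq, H37.qf_eq]
  rfl

/-- **bare domination**: `G ≤ (M + b⁻¹ (-Δ))⁻¹` -/
theorem gm_bare_inv (hb : 0 < b) {M : Matrix (Tor N) (Tor N) ℝ}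
    (hMs : Mᵀ = M) {m0 : ℝ} (hm0 : 0 < m0) (hM : ∀ u : Tor N → ℝ, m0 * ∑ x, u x ^ 2 ≤ qf M u)
    (J : Tor N → ℝ) :
    qf (Gm (wM (wT b N) M)) J ≤ qf (M + b⁻¹ • lapM)⁻¹ J := by
  set A : Matrix (Tor N) (Tor N) ℝ := M + b⁻¹ • lapM with hA
  have hAq : ∀ u, m0 * ∑ x, u x ^ 2 ≤ qf A u := by
    intro u
    rw [hA, H37.qf_add_mat]
    have h1 : 0 ≤ qf (b⁻¹ • lapM (N := N)) u := by
      have : qf (b⁻¹ • lapM (N := N)) u = b⁻¹ * qf lapM u := by
        rw [H37.qf_eq, H37.qf_eq, Matrix.smul_mulVec, dotProduct_smul, smul_eq_mul]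
      rw [this, qf_lapM']
      have : 0 ≤ dirE u := Finset.sum_nonneg fun x _ => by positivity
      positivity
    linarith [hM u]
  have hu : IsUnit A := by
    rw [← Matrix.mulVec_injective_iff_isUnit]
    refine (injective_iff_map_eq_zero (Matrix.mulVecLin A)).2 fun v hv => ?_
    have h1 := hAq v
    have h2 : qf A v = 0 := by
      rw [H37.qf_eq]
      have : A *ᵥ v = 0 := hv
      rw [this, dotProduct_zero]
    rw [h2] at h1
    have h3 : ∑ x, v x ^ 2 = 0 := by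
      have h4 : 0 ≤ ∑ x, v x ^ 2 := Finset.sum_nonneg fun x _ => sq_nonneg _
      nlinarith
    rw [Finset.sum_eq_zero_iff_of_nonneg fun x _ => sq_nonneg _] at h3
    funext x
    exact pow_eq_zero_iff two_ne_zero |>.1 (h3 x (Finset.mem_univ x))
  have hdet : IsUnit A.det := (Matrix.isUnit_iff_isUnit_det A).1 hu
  set ψ : Tor N → ℝ := A⁻¹ *ᵥ J with hψ
  have hAψ : A *ᵥ ψ = J := by
    rw [hψ, Matrix.mulVec_mulVec, Matrix.mul_nonsing_inv _ hdet, Matrix.one_mulVec]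
  have hJ : J = M *ᵥ ψ + b⁻¹ • (lapM *ᵥ ψ) := by
    rw [← hAψ, hA, Matrix.add_mulVec, Matrix.smul_mulVec]
  refine (gm_bare_grad hb.le hMs hm0 hM J ψ b⁻¹ hJ).trans (le_of_eq ?_)
  have e1 : b * (b⁻¹ ^ 2 * dirE ψ) = b⁻¹ * dirE ψ := by
    field_simp
  have e2 : qf A⁻¹ J = J ⬝ᵥ ψ := by
    rw [H37.qf_eq]
  have e3 : J ⬝ᵥ ψ = qf A ψ := by
    rw [H37.qf_eq, hAψ, dotProduct_comm]
  rw [e1, e2, e3, hA, H37.qf_add_mat]
  have e4 : qf (b⁻¹ • lapM (N := N)) ψ = b⁻¹ * qf lapM ψ := by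
    rw [H37.qf_eq, H37.qf_eq, Matrix.smul_mulVec, dotProduct_smul, smul_eq_mul]
  rw [e4, qf_lapM']

/-! ### modes -/

/-- effective stiffness of the blocks at the momentum `k` -/
noncomputable def Sl (b η : ℝ) (l : ℕ) (e : ℝ) : ℝ :=
  (1 + η) * stiff l b + (1 + 1 / η) * (16 * b * (l : ℝ) ^ 2 * e)

/-- **the block stiffness bounds the covariance mode by mode**, translation invariant masses -/
theorem sym_Gm_le (hN : N = n * l) (hb : 0 < b) (hl : 1 ≤ l) {M : Matrix (Tor N) (Tor N) ℝ}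
    (hT : TI M) {m0 : ℝ} (hm0 : 0 < m0) (hM : ∀ u : Tor N → ℝ, m0 * ∑ x, u x ^ 2 ≤ qf M u)
    {η : ℝ} (hη : 0 < η) {k : Tor N} (hk : 0 < EE k) :
    sym (Gm (wM (wT b N) M)) k ≤ (sym M k + EE k / Sl b η l (EE k))⁻¹ := by
  have hMs : Mᵀ = M := hT.transpose
  have hN2 : (0 : ℝ) < (N : ℝ) ^ 2 := H864.N_pos
  have hstiff : 0 ≤ stiff l b := UJ.h3_stiff_nonneg hb hl
  have hl0 : (0 : ℝ) < l := by exact_mod_cast hl
  have hS : 0 < Sl b η l (EE k) := by unfold Sl; positivity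
  have hTG : TI (Gm (wM (wT b N) M)) := H864.ti_Gm (H864.tinv_wM (H864.tinv_wT b) hT)
  obtain ⟨S, hSd⟩ : ∃ S : ℝ, S = Sl b η l (EE k) := ⟨_, rfl⟩
  rw [← hSd] at hS ⊢
  have hmk : 0 < sym M k := by
    have h1 := H864.qf_wave hT k
    have h2 := hM (fun x => cN (dt k x))
    have h3 := hM (fun x => sN (dt k x))
    have h4 := H864.qf_wave (TI.one (N := N)) k
    have h5 : ∀ u : Tor N → ℝ, qf (1 : Matrix (Tor N) (Tor N) ℝ) u = ∑ x, u x ^ 2 := fun u => by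
      have := H37.qf_smul_one (1 : ℝ) u
      rw [one_smul, one_mul] at this
      exact this
    rw [h5, h5, H864.sym_one, mul_one] at h4
    have h6 : m0 * (N : ℝ) ^ 2 ≤ (N : ℝ) ^ 2 * sym M k := by
      rw [← h1, ← h4]
      linarith
    have h7 : m0 ≤ sym M k := by
      have : (N : ℝ) ^ 2 * m0 ≤ (N : ℝ) ^ 2 * sym M k := by linarith
      exact le_of_mul_le_mul_left this hN2
    linarith
  obtain ⟨r, hr⟩ : ∃ r : ℝ, r = sym M k + EE k / S := ⟨_, rfl⟩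
  have hr0 : 0 < r := by rw [hr]; positivity
  rw [← hr]
  have key : ∀ v : Tor N → ℝ, M *ᵥ v = sym M k • v → lapM *ᵥ v = EE k • v →
      qf (Gm (wM (wT b N) M)) v ≤ r⁻¹ * ∑ x, v x ^ 2 := by
    intro v hv1 hv2
    have h := gm_grad hN hb.le hl hMs hm0 hM v (r⁻¹ • v) S⁻¹ (by
      rw [Matrix.mulVec_smul, Matrix.mulVec_smul, hv1, hv2, smul_smul, smul_smul, smul_smul,
        ← add_smul]
      have : r⁻¹ * sym M k + S⁻¹ * r⁻¹ * EE k = 1 := by
        rw [hr]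
        field_simp
      rw [this, one_smul]) hη
    refine h.trans (le_of_eq ?_)
    have e1 : qf M (r⁻¹ • v) = r⁻¹ ^ 2 * (sym M k * ∑ x, v x ^ 2) := by
      rw [H37.qf_smul, H37.qf_eq, hv1, dotProduct_smul, smul_eq_mul]
      congr 2
      unfold dotProduct
      exact Finset.sum_congr rfl fun x _ => by ring
    have e2 : dirE (r⁻¹ • v) = r⁻¹ ^ 2 * (EE k * ∑ x, v x ^ 2) := by
      rw [← qf_lapM', H37.qf_smul, H37.qf_eq, hv2, dotProduct_smul, smul_eq_mul]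
      congr 2
      unfold dotProduct
      exact Finset.sum_congr rfl fun x _ => by ring
    have e3 : ∑ x, (lapM *ᵥ (r⁻¹ • v)) x ^ 2 = r⁻¹ ^ 2 * (EE k ^ 2 * ∑ x, v x ^ 2) := by
      rw [Matrix.mulVec_smul, hv2, Finset.mul_sum, Finset.mul_sum]
      refine Finset.sum_congr rfl fun x _ => ?_
      simp only [Pi.smul_apply, smul_eq_mul]
      ring
    rw [e1, e2, e3]
    have e4 : (1 + η) * (stiff l b * (S⁻¹ ^ 2 * (r⁻¹ ^ 2 * (EE k * ∑ x, v x ^ 2)))) +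
        (1 + 1 / η) * (16 * b * (l : ℝ) ^ 2 * (S⁻¹ ^ 2 * (r⁻¹ ^ 2 *
          (EE k ^ 2 * ∑ x, v x ^ 2)))) =
        S * (S⁻¹ ^ 2 * (r⁻¹ ^ 2 * (EE k * ∑ x, v x ^ 2))) := by
      rw [hSd]
      unfold Sl
      ring
    have e5 : sym M k + S⁻¹ * EE k = r := by
      rw [hr]
      ring
    have e6 : S * (S⁻¹ ^ 2 * (r⁻¹ ^ 2 * (EE k * ∑ x, v x ^ 2))) =
        r⁻¹ ^ 2 * (S⁻¹ * EE k) * ∑ x, v x ^ 2 := by
      field_simp
    rw [add_assoc, e4, e6]
    have e7 : r⁻¹ ^ 2 * (sym M k * ∑ x, v x ^ 2) + r⁻¹ ^ 2 * (S⁻¹ * EE k) * ∑ x, v x ^ 2 =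
        r⁻¹ ^ 2 * (sym M k + S⁻¹ * EE k) * ∑ x, v x ^ 2 := by ring
    rw [e7, e5]
    field_simp
  have h1 := H864.qf_wave hTG k
  have h4 := H864.qf_wave (TI.one (N := N)) k
  have h5 : ∀ u : Tor N → ℝ, qf (1 : Matrix (Tor N) (Tor N) ℝ) u = ∑ x, u x ^ 2 := fun u => by
    have := H37.qf_smul_one (1 : ℝ) u
    rw [one_smul, one_mul] at this
    exact this
  rw [h5, h5, H864.sym_one, mul_one] at h4
  have h6 := key (fun x => cN (dt k x)) (hT.mulVec_cN k) (by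
    rw [H864.ti_lapM.mulVec_cN k, H864.sym_lapM])
  have h7 := key (fun x => sN (dt k x)) (hT.mulVec_sN k) (by
    rw [H864.ti_lapM.mulVec_sN k, H864.sym_lapM])
  have h8 : (N : ℝ) ^ 2 * sym (Gm (wM (wT b N) M)) k ≤ (N : ℝ) ^ 2 * r⁻¹ := by
    rw [← h1]
    calc _ ≤ r⁻¹ * ∑ x, cN (dt k x) ^ 2 + r⁻¹ * ∑ x, sN (dt k x) ^ 2 := add_le_add h6 h7
      _ = (N : ℝ) ^ 2 * r⁻¹ := by rw [← mul_add, h4]; ring
  exact le_of_mul_le_mul_left h8 hN2

/-- **(B1) of the LINK**: lower bound of the self energy by the block stiffness -/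
theorem pik_ge (hN : N = n * l) (hb : 0 < b) (hl : 1 ≤ l) {t : ℝ} (ht : 0 < t)
    {η : ℝ} (hη : 0 < η) (k : Tor N) :
    EE k / ((1 + η) * stiff l b + (1 + 1 / η) * (16 * b * (l : ℝ) ^ 2 * EE k)) ≤ Pik N b t k := by
  rcases (TM.H764.EE_nonneg k).eq_or_lt with hk | hk
  · rw [← hk, zero_div]
    exact H864.Pik_nonneg hb ht k
  · have h := sym_Gm_le hN hb hl (H864.ti_smul_one (N := N) t) ht (H789.coer_smul t) hη hk
    rw [H864.sym_smul_one] at h
    have h1 : Ght N b t k ≤ (t + EE k / Sl b η l (EE k))⁻¹ := h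
    have h0 := H864.Ght_pos (N := N) hb ht k
    have hS : 0 < Sl b η l (EE k) := by
      have hstiff : 0 ≤ stiff l b := UJ.h3_stiff_nonneg hb hl
      have hl0 : (0 : ℝ) < l := by exact_mod_cast hl
      unfold Sl
      positivity
    have h2 : t + EE k / Sl b η l (EE k) ≤ (Ght N b t k)⁻¹ := by
      rw [le_inv_comm₀ (by positivity) h0]
      exact h1
    unfold Pik
    unfold Sl at h2
    linarith

end Vale.Agent.P159.H513
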