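import Vale.Agent.P159.H513.Dom4
import Vale.Agent.P159.H37.Spec0L

/-!
Any coercive mass form: domination of the shifted Gaussian weight, and the block domination in
the language of `H37/Spec0`.
-/

set_option linter.all false

open MeasureTheory Filter Topology Matrix

namespace Vale.Agent.P159.H513

open Vale.Agent.P159 Vale.Agent.P159.H353 Vale.Agent.P159.R2.H254
open Vale.Agent.P159.TM.H129 (ip ip_neg)
open Vale.Agent.P159.T1.H934 Vale.Agent.P159.T1.H731
open Vale.Agent.P159.H37 (qf bf re wM ZM qf_eq qf_sub_vec qf_add_mat qf_smul_one)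


variable {A : Type} [Fintype A] [DecidableEq A]

omit [DecidableEq A] in
/-- multiplication by a constant -/
theorem Dom.cmul {C : ℝ} {M P : (A → ℤ) → ℝ} (h : Dom C M P) {a : ℝ} (ha : 0 ≤ a) :
    Dom (a * C) (fun x => a * M x) P where
  sM := by
    have := h.sM.mul_left |a|
    refine this.congr fun x => ?_
    rw [abs_mul]
  sP := h.sP
  even := h.even
  le φ := by
    have e1 : ft (fun x => a * M x) φ = (a : ℂ) * ft M φ := by
      unfold ft
      rw [← tsum_mul_left]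
      refine tsum_congr fun x => ?_
      push_cast
      ring
    rw [e1, norm_mul, Complex.norm_real, Real.norm_eq_abs, abs_of_nonneg ha, mul_assoc]
    exact mul_le_mul_of_nonneg_left (h.le φ) ha

/-- a positive semidefinite form is a sum of squares -/
lemma psd_rep {S : Matrix A A ℝ} (hS : Sᵀ = S) (h0 : ∀ u, 0 ≤ qf S u) :
    ∃ (v : A → ℝ) (ρ : A → A → ℝ), (∀ i, 0 ≤ v i) ∧
      ∀ u : A → ℝ, qf S u = ∑ i, v i * (∑ x, ρ i x * u x) ^ 2 := by
  have hH : S.IsHermitian := by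
    unfold Matrix.IsHermitian
    rw [Matrix.conjTranspose_eq_transpose_of_trivial]
    exact hS
  have hP : S.PosSemidef := Matrix.PosSemidef.of_dotProduct_mulVec_nonneg hH fun x => by
    have := h0 x
    rw [qf_eq] at this
    simpa using this
  obtain ⟨ev, U, hev, e1⟩ : ∃ (ev : A → ℝ) (U : Matrix A A ℝ), (∀ i, 0 ≤ ev i) ∧
      S = U * diagonal ev * Uᵀ := by
    refine ⟨hP.1.eigenvalues, (hP.1.eigenvectorUnitary : Matrix A A ℝ), hP.eigenvalues_nonneg, ?_⟩
    conv_lhs => rw [hP.1.spectral_theorem, Unitary.conjStarAlgAut_apply]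
    rfl
  refine ⟨ev, fun i x => U x i, hev, fun u => ?_⟩
  have e2 : qf S u = (Uᵀ *ᵥ u) ⬝ᵥ (diagonal ev *ᵥ (Uᵀ *ᵥ u)) := by
    rw [qf_eq, e1, ← Matrix.mulVec_mulVec, ← Matrix.mulVec_mulVec, Matrix.dotProduct_mulVec,
      ← Matrix.mulVec_transpose]
  rw [e2]
  unfold dotProduct
  refine Finset.sum_congr rfl fun i _ => ?_
  rw [Matrix.mulVec_diagonal]
  have e3 : (Uᵀ *ᵥ u) i = ∑ x, U x i * u x := rfl
  rw [e3]
  ring

/-- **domination for any coercive mass form** -/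
theorem Dom.form {M : Matrix A A ℝ} (hMs : Mᵀ = M) {m0 : ℝ} (hm0 : 0 < m0)
    (hM : ∀ u : A → ℝ, m0 * ∑ x, u x ^ 2 ≤ qf M u) (w : A → ℝ) :
    Dom 1 (fun h => Real.exp (-(qf M (re h - w) / 2))) (fun h => Real.exp (-(qf M (re h) / 2))) := by
  obtain ⟨v, ρ, hv, hrep⟩ := psd_rep (S := M - m0 • (1 : Matrix A A ℝ)) (by
    rw [transpose_sub, hMs, transpose_smul, transpose_one]) (fun u => by
    have h1 := hM u
    have h2 := qf_add_mat (M - m0 • (1 : Matrix A A ℝ)) (m0 • (1 : Matrix A A ℝ)) u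
    rw [sub_add_cancel, qf_smul_one] at h2
    linarith)
  have hdec : ∀ u, qf M u = m0 * ∑ x, u x ^ 2 + ∑ i, v i * (∑ x, ρ i x * u x) ^ 2 := by
    intro u
    have h2 := qf_add_mat (M - m0 • (1 : Matrix A A ℝ)) (m0 • (1 : Matrix A A ℝ)) u
    rw [sub_add_cancel, qf_smul_one, hrep] at h2
    linarith
  have key : ∀ s : Finset A, Dom 1
      (fun h => gm (fun _ => m0) w h *
        ∏ i ∈ s, Real.exp (-(v i / 2) * (ip (ρ i) h - ∑ x, ρ i x * w x) ^ 2))
      (fun h => gm (fun _ => m0) 0 h * ∏ i ∈ s, Real.exp (-(v i / 2) * ip (ρ i) h ^ 2)) := by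
    intro s
    induction s using Finset.induction_on with
    | empty => simpa using Dom.mass (fun _ : A => hm0) w
    | insert a s ha ih =>
      have h1 := ih.gauss (ρ a) (hv a) (∑ x, ρ a x * w x)
      have e1 : (fun h => gm (fun _ => m0) w h *
          ∏ i ∈ insert a s, Real.exp (-(v i / 2) * (ip (ρ i) h - ∑ x, ρ i x * w x) ^ 2)) =
          fun h => gm (fun _ => m0) w h *
          (∏ i ∈ s, Real.exp (-(v i / 2) * (ip (ρ i) h - ∑ x, ρ i x * w x) ^ 2)) *
          Real.exp (-(v a / 2) * (ip (ρ a) h - ∑ x, ρ a x * w x) ^ 2) := by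
        funext h
        rw [Finset.prod_insert ha]
        ring
      have e2 : (fun h => gm (fun _ => m0) 0 h *
          ∏ i ∈ insert a s, Real.exp (-(v i / 2) * ip (ρ i) h ^ 2)) =
          fun h => gm (fun _ => m0) 0 h *
          (∏ i ∈ s, Real.exp (-(v i / 2) * ip (ρ i) h ^ 2)) *
          Real.exp (-(v a / 2) * ip (ρ a) h ^ 2) := by
        funext h
        rw [Finset.prod_insert ha]
        ring
      rw [e1, e2]
      exact h1
  have h := key Finset.univ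
  have e : ∀ (w : A → ℝ) (h : A → ℤ), gm (fun _ => m0) w h *
      ∏ i, Real.exp (-(v i / 2) * (ip (ρ i) h - ∑ x, ρ i x * w x) ^ 2) =
      Real.exp (-(qf M (re h - w) / 2)) := by
    intro w h
    unfold gm
    rw [← Real.exp_sum, ← Real.exp_sum, ← Real.exp_add, hdec]
    congr 1
    unfold ip
    have e3 : ∀ i, ∑ x, ρ i x * (re h - w) x = (∑ x, ρ i x * (h x : ℝ)) - ∑ x, ρ i x * w x := by
      intro i
      rw [← Finset.sum_sub_distrib]
      exact Finset.sum_congr rfl fun x _ => by simp [re]; ring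
    simp only [e3]
    have e4 : ∑ x, -(m0 / 2) * ((h x : ℝ) - w x) ^ 2 = -(m0 / 2 * ∑ x, (re h - w) x ^ 2) := by
      rw [← Finset.mul_sum]
      have : ∑ x, ((h x : ℝ) - w x) ^ 2 = ∑ x, (re h - w) x ^ 2 :=
        Finset.sum_congr rfl fun x _ => by simp [re]
      rw [this]
      ring
    rw [e4]
    have e5 : ∑ i, -(v i / 2) * (∑ x, ρ i x * (h x : ℝ) - ∑ x, ρ i x * w x) ^ 2 =
        -(∑ i, v i * (∑ x, ρ i x * (h x : ℝ) - ∑ x, ρ i x * w x) ^ 2) / 2 := by
      rw [← Finset.sum_neg_distrib, Finset.sum_div]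
      exact Finset.sum_congr rfl fun i _ => by ring
    rw [e5]
    ring
  have e0 : ∀ h : A → ℤ, gm (fun _ => m0) 0 h * ∏ i, Real.exp (-(v i / 2) * ip (ρ i) h ^ 2) =
      Real.exp (-(qf M (re h) / 2)) := by
    intro h
    have := e 0 h
    simpa using this
  simp only [e, e0] at h
  exact h

variable {ι : Type} {Eb : ι → Type} [∀ i, Fintype (Eb i)]

/-- **block domination, any coercive mass form, all Fourier modes**: if `J = M w + div c` then
`|Z(J + i φ)| ≤ exp (<w, M w> / 2) ∏ rat * Z(i φ)` for every `φ` -/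
theorem src_Dom [Fintype ι] (D : ∀ i, Eb i → A → ℤ) {K : ∀ i, Eb i → ℝ}
    (hK : ∀ i e, 0 ≤ K i e) (Γ : ∀ i, AddSubgroup (Eb i → ℤ))
    (hΓ : ∀ i h, TM.H129.nn (D i) h ∈ Γ i) (c : ∀ i, Eb i → ℝ) {M : Matrix A A ℝ} (hMs : Mᵀ = M)
    {m0 : ℝ} (hm0 : 0 < m0) (hM : ∀ u : A → ℝ, m0 * ∑ x, u x ^ 2 ≤ qf M u)
    (J w : A → ℝ) (hdiv : ∀ x, J x = (M *ᵥ w) x + ∑ i, ∑ e, c i e * D i e x) :
    Dom (Real.exp (qf M w / 2) * ∏ i, rat (K i) (Γ i) (c i))
      (fun h => wM (wB D K) M h * Real.exp (∑ x, J x * (h x : ℝ))) (wM (wB D K) M) := by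
  classical
  have h1 := Dom.blocks D hK Γ c (Dom.form hMs hm0 hM w) Finset.univ
  have e0 : ∀ h : A → ℤ, ∀ i, gw' (K i) (Γ i) (c i) (TM.H129.nn (D i) h) =
      (∏ e, wI (K i e) (TM.H129.nn (D i) h e)) * Real.exp (∑ e, c i e * (TM.H129.nn (D i) h e : ℝ)) := by
    intro h i
    unfold gw' T1.H731.wt
    rw [if_pos (hΓ i h)]
  have e0' : ∀ h : A → ℤ, ∀ i, gw' (K i) (Γ i) 0 (TM.H129.nn (D i) h) =
      (∏ e, wI (K i e) (TM.H129.nn (D i) h e)) := by
    intro h i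
    unfold gw' T1.H731.wt
    rw [if_pos (hΓ i h)]
    simp
  have e2 : ∀ h : A → ℤ, ∑ i, ∑ e, c i e * (TM.H129.nn (D i) h e : ℝ) =
      ∑ x, (J x - (M *ᵥ w) x) * (h x : ℝ) := by
    intro h
    have : ∀ x, J x - (M *ᵥ w) x = ∑ i, ∑ e, c i e * D i e x := fun x => by rw [hdiv x]; ring
    simp only [this]
    unfold Vale.Agent.P159.TM.H129.nn
    push_cast
    simp only [Finset.mul_sum, Finset.sum_mul]
    have e3 : ∀ i, ∑ e, ∑ x, c i e * ((D i e x : ℝ) * (h x : ℝ)) =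
        ∑ x, ∑ e, c i e * (D i e x : ℝ) * (h x : ℝ) := fun i => by
      rw [Finset.sum_comm]
      exact Finset.sum_congr rfl fun x _ => Finset.sum_congr rfl fun e _ => by ring
    rw [Finset.sum_congr rfl fun i _ => e3 i, Finset.sum_comm]
  have e3 : ∀ h : A → ℤ, qf M (re h - w) = qf M (re h) + qf M w -
      2 * ∑ x, (M *ᵥ w) x * (h x : ℝ) := by
    intro h
    have h2 := qf_sub_vec hMs (re h) w
    have h3 := H37.li_mass hMs w h
    unfold TM.H104.li at h3
    rw [h3]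
    linarith
  have e4 : ∀ h : A → ℤ, Real.exp (qf M w / 2) * (Real.exp (-(qf M (re h - w) / 2)) *
      ∏ i, gw' (K i) (Γ i) (c i) (TM.H129.nn (D i) h)) =
      wM (wB D K) M h * Real.exp (∑ x, J x * (h x : ℝ)) := by
    intro h
    simp only [e0]
    rw [Finset.prod_mul_distrib, ← Real.exp_sum, e2, e3]
    unfold wM wB
    have e5 : Real.exp (∑ x, J x * (h x : ℝ)) = Real.exp (∑ x, (J x - (M *ᵥ w) x) * (h x : ℝ)) *
        Real.exp (∑ x, (M *ᵥ w) x * (h x : ℝ)) := by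
      rw [← Real.exp_add, ← Finset.sum_add_distrib]
      congr 1
      exact Finset.sum_congr rfl fun x _ => by ring
    have e6 : Real.exp (-((qf M (re h) + qf M w - 2 * ∑ x, (M *ᵥ w) x * (h x : ℝ)) / 2)) =
        Real.exp (-(qf M (re h) / 2)) * Real.exp (-(qf M w / 2)) *
          Real.exp (∑ x, (M *ᵥ w) x * (h x : ℝ)) := by
      rw [← Real.exp_add, ← Real.exp_add]
      congr 1
      ring
    have e7 : Real.exp (qf M w / 2) * Real.exp (-(qf M w / 2)) = 1 := by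
      rw [← Real.exp_add]; simp
    rw [e5, e6]
    linear_combination (Real.exp (-(qf M (re h) / 2)) *
      Real.exp (∑ x, (M *ᵥ w) x * (h x : ℝ)) * (∏ i, ∏ e, wI (K i e) (TM.H129.nn (D i) h e)) *
        Real.exp (∑ x, (J x - (M *ᵥ w) x) * (h x : ℝ))) * e7
  have e8 : ∀ h : A → ℤ, Real.exp (-(qf M (re h) / 2)) *
      ∏ i, gw' (K i) (Γ i) 0 (TM.H129.nn (D i) h) = wM (wB D K) M h := by
    intro h
    simp only [e0']
    unfold wM wB
    ring
  have h2 := h1.cmul (Real.exp_pos (qf M w / 2)).le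
  simp only [e4, e8] at h2
  rw [one_mul] at h2
  exact h2

/-- **block domination with a source** -/
theorem src_dom [Fintype ι] (D : ∀ i, Eb i → A → ℤ) {K : ∀ i, Eb i → ℝ}
    (hK : ∀ i e, 0 ≤ K i e) (Γ : ∀ i, AddSubgroup (Eb i → ℤ))
    (hΓ : ∀ i h, TM.H129.nn (D i) h ∈ Γ i) (c : ∀ i, Eb i → ℝ) {M : Matrix A A ℝ} (hMs : Mᵀ = M)
    {m0 : ℝ} (hm0 : 0 < m0) (hM : ∀ u : A → ℝ, m0 * ∑ x, u x ^ 2 ≤ qf M u)
    (J w : A → ℝ) (hdiv : ∀ x, J x = (M *ᵥ w) x + ∑ i, ∑ e, c i e * D i e x) :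
    H37.Zs (wM (wB D K) M) J ≤ Real.exp (qf M w / 2) * (∏ i, rat (K i) (Γ i) (c i)) *
      H37.Zs (wM (wB D K) M) 0 := by
  have h := (src_Dom D hK Γ hΓ c hMs hm0 hM J w hdiv).total
  have e : ∀ J : A → ℝ, H37.Zs (wM (wB D K) M) J =
      ∑' h, wM (wB D K) M h * Real.exp (∑ x, J x * (h x : ℝ)) := by
    intro J
    unfold H37.Zs TM.H104.T TM.H104.li
    exact tsum_congr fun h => by ring
  rw [e J, e 0]
  simpa using h

end Vale.Agent.P159.H513
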