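import Vale.Agent.P159.H513.Blk2
import Vale.Agent.P159.H513.MassF
import Vale.Agent.P159.TM.Spec.C

/-!
Blocks of the torus: `N = n l`, the torus is tiled by `n²` blocks of side `l`.
-/

set_option linter.all false

open MeasureTheory Filter Topology Matrix

namespace Vale.Agent.P159.H513

open Vale.Agent.P159 Vale.Agent.P159.H353 Vale.Agent.P159.R2.H254 Vale.Agent.P159.H950
open Vale.Agent.P159.T1.H934 Vale.Agent.P159.T1.H731
open Vale.Agent.P159.H37 (qf bf re wM ZM)
open Vale.Agent.P159.TM.SpecC (Tor wT)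


/-- the site `c` of the block `k` -/
def st (N l n : ℕ) (k : Fin n × Fin n) (c : ℤ × ℤ) : Tor N :=
  ((((l * (k.1 : ℕ) : ℕ) : ℤ) + c.1 : ℤ), (((l * (k.2 : ℕ) : ℕ) : ℤ) + c.2 : ℤ))

lemma st_e1 (N l n : ℕ) (k : Fin n × Fin n) (c : ℤ × ℤ) :
    st N l n k (c + (1, 0)) = st N l n k c + (1, 0) := by
  unfold st
  ext <;> simp [add_assoc]

lemma st_e2 (N l n : ℕ) (k : Fin n × Fin n) (c : ℤ × ℤ) :
    st N l n k (c + (0, 1)) = st N l n k c + (0, 1) := by
  unfold st
  ext <;> simp [add_assoc]

/-- difference operators of the block `k` -/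
def Dk (N l n : ℕ) [NeZero N] (k : Fin n × Fin n) (e : EB l) (x : Tor N) : ℤ :=
  if e.2 then (if x = st N l n k e.1 + (1, 0) then 1 else 0) - (if x = st N l n k e.1 then 1 else 0)
  else (if x = st N l n k e.1 then 1 else 0) - (if x = st N l n k e.1 + (0, 1) then 1 else 0)

lemma nn_Dk (N l n : ℕ) [NeZero N] (k : Fin n × Fin n) (h : Tor N → ℤ) :
    TM.H129.nn (Dk N l n k) h = cur fun c => h (st N l n k c) := by
  funext e
  unfold Vale.Agent.P159.TM.H129.nn Dk cur
  cases e.2
  · simp only [Bool.false_eq_true, if_false, sub_mul, ite_mul, one_mul, zero_mul,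
      Finset.sum_sub_distrib, Finset.sum_ite_eq', Finset.sum_ite_eq, Finset.mem_univ, if_true, st_e2]
  · simp only [if_true, sub_mul, ite_mul, one_mul, zero_mul,
      Finset.sum_sub_distrib, Finset.sum_ite_eq', Finset.sum_ite_eq, Finset.mem_univ, if_true, st_e1]

/-- the tiling is a bijection -/
lemma st_bij {N l n : ℕ} [NeZero N] (hN : N = n * l) :
    Function.Bijective (fun p : (Fin n × Fin n) × ↥(blk (0, 0) l) => st N l n p.1 p.2) := by
  have hN0 : 0 < N := Nat.pos_of_ne_zero (NeZero.ne N)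
  have hl : 0 < l := Nat.pos_of_ne_zero (by rintro rfl; omega)
  rw [Fintype.bijective_iff_injective_and_card]
  constructor
  · have key : ∀ (i i' : Fin n) (a a' : ℤ), 0 ≤ a → a < l → 0 ≤ a' → a' < l →
        (((((l * (i : ℕ) : ℕ) : ℤ) + a : ℤ) : ZMod N) = ((((l * (i' : ℕ) : ℕ) : ℤ) + a' : ℤ) : ZMod N)) →
        i = i' ∧ a = a' := by
      intro i i' a a' h1 h2 h3 h4 h
      lift a to ℕ using h1
      lift a' to ℕ using h3
      have h5 : ((l * (i : ℕ) + a : ℕ) : ZMod N) = ((l * (i' : ℕ) + a' : ℕ) : ZMod N) := by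
        exact_mod_cast h
      rw [ZMod.natCast_eq_natCast_iff'] at h5
      have b1 : ∀ (i : Fin n) (a : ℕ), (a : ℤ) < l → l * (i : ℕ) + a < N := by
        intro i a ha
        have h6 : (i : ℕ) + 1 ≤ n := i.2
        have h7 : a < l := by exact_mod_cast ha
        calc l * (i : ℕ) + a < l * (i : ℕ) + l := by omega
          _ = ((i : ℕ) + 1) * l := by ring
          _ ≤ n * l := Nat.mul_le_mul_right _ h6
          _ = N := hN.symm
      rw [Nat.mod_eq_of_lt (b1 i a h2), Nat.mod_eq_of_lt (b1 i' a' h4)] at h5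
      have h7 : a < l := by exact_mod_cast h2
      have h8 : a' < l := by exact_mod_cast h4
      have h9 : (i : ℕ) = i' := by
        have e1 : (l * (i : ℕ) + a) / l = i := by
          rw [Nat.add_comm, Nat.add_mul_div_left _ _ hl, Nat.div_eq_of_lt h7, Nat.zero_add]
        have e2 : (l * (i' : ℕ) + a') / l = i' := by
          rw [Nat.add_comm, Nat.add_mul_div_left _ _ hl, Nat.div_eq_of_lt h8, Nat.zero_add]
        rw [← e1, ← e2, h5]
      refine ⟨Fin.ext h9, ?_⟩
      rw [h9] at h5
      have : a = a' := by omega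
      exact_mod_cast this
    rintro ⟨⟨i, j⟩, ⟨⟨a, b⟩, hab⟩⟩ ⟨⟨i', j'⟩, ⟨⟨a', b'⟩, hab'⟩⟩ h
    have hm := mem_blk.1 hab
    have hm' := mem_blk.1 hab'
    simp only [st, Prod.mk.injEq] at h
    simp only at hm hm'
    obtain ⟨h1, h2⟩ := key i i' a a' (by omega) (by omega) (by omega) (by omega) h.1
    obtain ⟨h3, h4⟩ := key j j' b b' (by omega) (by omega) (by omega) (by omega) h.2
    subst h1 h2 h3 h4
    rfl
  · rw [Fintype.card_prod, Fintype.card_prod, Fintype.card_fin, Fintype.card_coe, card_blk,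
      Fintype.card_prod, ZMod.card, hN]
    ring

/-- sum over the blocks -/
lemma sum_st {N l n : ℕ} [NeZero N] (hN : N = n * l) {R : Type*} [AddCommMonoid R]
    (f : Tor N → R) : ∑ x, f x = ∑ k, ∑ c : ↥(blk (0, 0) l), f (st N l n k c) := by
  rw [← (Equiv.ofBijective _ (st_bij hN)).sum_comp, Fintype.sum_prod_type]
  rfl

/-- product over the blocks -/
lemma prod_st {N l n : ℕ} [NeZero N] (hN : N = n * l) {R : Type*} [CommMonoid R]
    (f : Tor N → R) : ∏ x, f x = ∏ k, ∏ c : ↥(blk (0, 0) l), f (st N l n k c) := by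
  rw [← (Equiv.ofBijective _ (st_bij hN)).prod_comp, Fintype.prod_prod_type]
  rfl

/-- the weight of the torus is the product of the weights of the blocks -/
lemma wT_blocks {N l n : ℕ} [NeZero N] (hN : N = n * l) (b : ℝ) :
    wT b N = wB (Dk N l n) fun _ _ => b := by
  funext h
  unfold wT wB
  rw [prod_st hN]
  refine Finset.prod_congr rfl fun k _ => ?_
  rw [Fintype.prod_prod_type]
  refine Finset.prod_congr rfl fun c _ => ?_
  rw [Fintype.prod_bool, nn_Dk]
  simp only [cur, if_true, Bool.false_eq_true, if_false, st_e1, st_e2]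
  congr 1
  rw [← wI_neg]
  congr 1
  ring

/-- the tilt of the block `k` -/
def cK (N l n : ℕ) (c : Tor N → Bool → ℝ) (k : Fin n × Fin n) (e : EB l) : ℝ :=
  if e.2 then c (st N l n k e.1) true else -c (st N l n k e.1) false

/-- divergence of a field on the edges of the torus -/
def dvT {N : ℕ} (c : Tor N → Bool → ℝ) (x : Tor N) : ℝ :=
  (c (x - (1, 0)) true - c x true) + (c (x - (0, 1)) false - c x false)

lemma sum_Dk {N l n : ℕ} [NeZero N] (hN : N = n * l) (c : Tor N → Bool → ℝ) (x : Tor N) :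
    ∑ k, ∑ e, cK N l n c k e * Dk N l n k e x = dvT c x := by
  have e1 : ∀ k, ∑ e, cK N l n c k e * (Dk N l n k e x : ℝ) =
      ∑ p : ↥(blk (0, 0) l), ((fun y : Tor N => c y true * ((if x = y + (1, 0) then 1 else 0) -
        (if x = y then 1 else 0)) + c y false * ((if x = y + (0, 1) then 1 else 0) -
        (if x = y then 1 else 0))) (st N l n k p)) := by
    intro k
    rw [Fintype.sum_prod_type]
    refine Finset.sum_congr rfl fun p _ => ?_
    rw [Fintype.sum_bool]
    unfold cK Dk
    simp only [if_true, Bool.false_eq_true, if_false]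
    push_cast
    ring
  rw [Finset.sum_congr rfl fun k _ => e1 k, ← sum_st hN (fun y : Tor N =>
    c y true * ((if x = y + (1, 0) then 1 else 0) -
      (if x = y then 1 else 0)) + c y false * ((if x = y + (0, 1) then 1 else 0) -
      (if x = y then 1 else 0)))]
  have e2 : ∀ (g : Tor N → ℝ) (a : Tor N), ∑ y, g y * (if x = y + a then 1 else 0) = g (x - a) := by
    intro g a
    have : ∀ y : Tor N, (x = y + a) ↔ (y = x - a) := fun y =>
      ⟨fun h => by rw [h, add_sub_cancel_right], fun h => by rw [h, sub_add_cancel]⟩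
    simp [this]
  have e3 : ∀ (g : Tor N → ℝ), ∑ y, g y * (if x = y then 1 else 0) = g x := by
    intro g
    simp
  simp only [mul_sub, Finset.sum_add_distrib, Finset.sum_sub_distrib, e2, e3]
  rfl

end Vale.Agent.P159.H513
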