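import Vale.Agent.P159.H513.Eta1
import Vale.Agent.P159.H513.TorG
import Vale.Agent.P159.H770.DisT
import Vale.Agent.P159.H817.Ang5

/-!
General tilings of the torus by square blocks, and the domination of the dislocated weights.
Edges (x, false) from x to x + (1,0), (x, true) from x to x + (0,1) (letters of H770, H817).
-/

set_option linter.all false

open MeasureTheory Filter Topology Matrix

namespace Vale.Agent.P159.H513

open Vale.Agent.P159 Vale.Agent.P159.H353 Vale.Agent.P159.R2.H254 Vale.Agent.P159.H950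
open Vale.Agent.P159.T1.H934 Vale.Agent.P159.T1.H731
open Vale.Agent.P159.H37 (qf bf re wM ZM Zs)
open Vale.Agent.P159.TM.SpecC (Tor wT)
open Vale.Agent.P159.H770 (wTD)

/-- the site of the torus with integer coordinates `o + c` -/
def sT (N : ℕ) (o c : ℤ × ℤ) : Tor N := (((o.1 + c.1 : ℤ) : ZMod N), ((o.2 + c.2 : ℤ) : ZMod N))

lemma sT_e1 (N : ℕ) (o c : ℤ × ℤ) : sT N o (c + (1, 0)) = sT N o c + (1, 0) := by
  unfold sT
  ext <;> simp [add_assoc]

lemma sT_e2 (N : ℕ) (o c : ℤ × ℤ) : sT N o (c + (0, 1)) = sT N o c + (0, 1) := by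
  unfold sT
  ext <;> simp [add_assoc]

/-- a tiling of the torus by square blocks -/
structure Til (N : ℕ) (ι : Type) where
  /-- sides -/
  l : ι → ℕ
  hl : ∀ i, 1 ≤ l i
  /-- corners -/
  o : ι → ℤ × ℤ
  bij : Function.Bijective (fun p : (i : ι) × ↥(blk (0, 0) (l i)) => sT N (o p.1) p.2)

section til

variable {N : ℕ} [NeZero N] {ι : Type} [Fintype ι] (T : Til N ι)

/-- the site `c` of the block `i` -/
def Til.s (i : ι) (c : ℤ × ℤ) : Tor N := sT N (T.o i) c

lemma Til.s_e1 (i : ι) (c : ℤ × ℤ) : T.s i (c + (1, 0)) = T.s i c + (1, 0) := sT_e1 _ _ _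

lemma Til.s_e2 (i : ι) (c : ℤ × ℤ) : T.s i (c + (0, 1)) = T.s i c + (0, 1) := sT_e2 _ _ _

/-- sum over the blocks -/
lemma Til.sum {R : Type*} [AddCommMonoid R] (f : Tor N → R) :
    ∑ x, f x = ∑ i, ∑ c : ↥(blk (0, 0) (T.l i)), f (T.s i c) := by
  rw [← (Equiv.ofBijective _ T.bij).sum_comp, Fintype.sum_sigma]
  rfl

/-- product over the blocks -/
lemma Til.prod {R : Type*} [CommMonoid R] (f : Tor N → R) :
    ∏ x, f x = ∏ i, ∏ c : ↥(blk (0, 0) (T.l i)), f (T.s i c) := by
  rw [← (Equiv.ofBijective _ T.bij).prod_comp, Fintype.prod_sigma]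
  rfl

/-- difference operators of the block `i` -/
def Til.D (i : ι) (e : EB (T.l i)) (x : Tor N) : ℤ :=
  if e.2 then (if x = T.s i e.1 + (1, 0) then 1 else 0) - (if x = T.s i e.1 then 1 else 0)
  else (if x = T.s i e.1 then 1 else 0) - (if x = T.s i e.1 + (0, 1) then 1 else 0)

lemma Til.nn_D (i : ι) (h : Tor N → ℤ) :
    TM.H129.nn (T.D i) h = cur fun c => h (T.s i c) := by
  funext e
  unfold Vale.Agent.P159.TM.H129.nn Til.D cur
  cases e.2
  · simp only [Bool.false_eq_true, if_false, sub_mul, ite_mul, one_mul, zero_mul,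
      Finset.sum_sub_distrib, Finset.sum_ite_eq', Finset.sum_ite_eq, Finset.mem_univ, if_true,
      T.s_e2]
  · simp only [if_true, sub_mul, ite_mul, one_mul, zero_mul,
      Finset.sum_sub_distrib, Finset.sum_ite_eq', Finset.sum_ite_eq, Finset.mem_univ, if_true,
      T.s_e1]

/-- the weight of the torus is the product of the weights of the blocks -/
lemma Til.wT_blocks (b : ℝ) : wT b N = wB T.D fun _ _ => b := by
  funext h
  unfold wT wB
  rw [T.prod]
  refine Finset.prod_congr rfl fun k _ => ?_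
  rw [Fintype.prod_prod_type]
  refine Finset.prod_congr rfl fun c _ => ?_
  rw [Fintype.prod_bool, T.nn_D]
  simp only [cur, if_true, Bool.false_eq_true, if_false, T.s_e1, T.s_e2]
  congr 1
  rw [← wI_neg]
  congr 1
  ring

/-- a real edge field in the block `i` (signs of the block) -/
def Til.c (c : Tor N × Bool → ℝ) (i : ι) (e : EB (T.l i)) : ℝ :=
  if e.2 then c (T.s i e.1, false) else -c (T.s i e.1, true)

/-- an integer edge field in the block `i` -/
def Til.η (η : Tor N × Bool → ℤ) (i : ι) (e : EB (T.l i)) : ℤ :=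
  if e.2 then η (T.s i e.1, false) else -η (T.s i e.1, true)

/-- the weight with dislocation is the product over the blocks -/
lemma Til.wTD_blocks (b : ℝ) (η : Tor N × Bool → ℤ) :
    wTD N b η = wBD T.D (fun _ _ => b) (T.η η) := by
  funext h
  rw [H770.wTD_eq]
  unfold wBD
  rw [T.prod]
  refine Finset.prod_congr rfl fun k _ => ?_
  rw [Fintype.prod_prod_type]
  refine Finset.prod_congr rfl fun c _ => ?_
  rw [Fintype.prod_bool, T.nn_D]
  simp only [cur, if_true, Bool.false_eq_true, if_false, T.s_e1, T.s_e2, Til.η]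
  congr 1
  rw [← wI_neg]
  congr 1
  ring

/-- divergence -/
lemma Til.sum_D (c : Tor N × Bool → ℝ) (x : Tor N) :
    ∑ i, ∑ e, T.c c i e * T.D i e x = H817.dv c x := by
  have e1 : ∀ i, ∑ e, T.c c i e * (T.D i e x : ℝ) =
      ∑ p : ↥(blk (0, 0) (T.l i)), ((fun y : Tor N => c (y, false) *
        ((if x = y + (1, 0) then 1 else 0) -
        (if x = y then 1 else 0)) + c (y, true) * ((if x = y + (0, 1) then 1 else 0) -
        (if x = y then 1 else 0))) (T.s i p)) := by
    intro i
    rw [Fintype.sum_prod_type]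
    refine Finset.sum_congr rfl fun p _ => ?_
    rw [Fintype.sum_bool]
    unfold Til.c Til.D
    simp only [if_true, Bool.false_eq_true, if_false]
    push_cast
    ring
  rw [Finset.sum_congr rfl fun k _ => e1 k, ← T.sum (fun y : Tor N =>
    c (y, false) * ((if x = y + (1, 0) then 1 else 0) -
      (if x = y then 1 else 0)) + c (y, true) * ((if x = y + (0, 1) then 1 else 0) -
      (if x = y then 1 else 0)))]
  have e2 : ∀ (g : Tor N → ℝ) (a : Tor N), ∑ y, g y * (if x = y + a then 1 else 0) = g (x - a) := by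
    intro g a
    have : ∀ y : Tor N, (x = y + a) ↔ (y = x - a) := fun y =>
      ⟨fun h => by rw [h, add_sub_cancel_right], fun h => by rw [h, sub_add_cancel]⟩
    simp [this]
  have e3 : ∀ (g : Tor N → ℝ), ∑ y, g y * (if x = y then 1 else 0) = g x := by
    intro g
    simp
  simp only [mul_sub, Finset.sum_add_distrib, Finset.sum_sub_distrib, e2, e3]
  rfl

/-- pairing -/
lemma Til.sum_cη (c : Tor N × Bool → ℝ) (η : Tor N × Bool → ℤ) :
    ∑ i, ∑ e, T.c c i e * (T.η η i e : ℝ) = ∑ e, c e * (η e : ℝ) := by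
  have e1 : ∀ i, ∑ e, T.c c i e * (T.η η i e : ℝ) =
      ∑ p : ↥(blk (0, 0) (T.l i)), ((fun y : Tor N => c (y, false) * (η (y, false) : ℝ) +
        c (y, true) * (η (y, true) : ℝ)) (T.s i p)) := by
    intro i
    rw [Fintype.sum_prod_type]
    refine Finset.sum_congr rfl fun p _ => ?_
    rw [Fintype.sum_bool]
    unfold Til.c Til.η
    simp only [if_true, Bool.false_eq_true, if_false]
    push_cast
    ring
  have e2 : ∑ e, c e * (η e : ℝ) = ∑ y : Tor N, (c (y, false) * (η (y, false) : ℝ) +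
      c (y, true) * (η (y, true) : ℝ)) := by
    rw [Fintype.sum_prod_type (f := fun e : Tor N × Bool => c e * (η e : ℝ))]
    refine Finset.sum_congr rfl fun y _ => ?_
    rw [Fintype.sum_bool, add_comm]
  rw [e2, Finset.sum_congr rfl fun k _ => e1 k, ← T.sum (fun y : Tor N =>
    c (y, false) * (η (y, false) : ℝ) + c (y, true) * (η (y, true) : ℝ))]

/-- **domination with dislocation, general tiling** -/
theorem Til.dom {b : ℝ} (hb : 0 ≤ b) (η : Tor N × Bool → ℤ)
    {M : Matrix (Tor N) (Tor N) ℝ} (hMs : Mᵀ = M) {m0 : ℝ} (hm0 : 0 < m0)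
    (hM : ∀ u : Tor N → ℝ, m0 * ∑ x, u x ^ 2 ≤ qf M u) (J w : Tor N → ℝ)
    (c : Tor N × Bool → ℝ) (hJ : ∀ x, J x = (M *ᵥ w) x + H817.dv c x) :
    Dom (Real.exp (qf M w / 2 - ∑ e, c e * η e) *
        ∏ i, rtx (fun _ : EB (T.l i) => b) (GX (chB (T.l i))) (T.c c i) (T.η η i))
      (fun h => wM (wTD N b η) M h * Real.exp (∑ x, J x * (h x : ℝ))) (wM (wT b N) M) := by
  have h := srcD_Dom T.D (K := fun _ _ => b) (fun _ _ => hb) (fun i => GX (chB (T.l i)))
    (fun i => GX_half G_div2 _) (fun k h => by rw [T.nn_D]; exact cur_mem _) (T.c c) (T.η η)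
    hMs hm0 hM J w (fun x => by rw [hJ x, T.sum_D])
  rw [← T.wT_blocks b, ← T.wTD_blocks b, T.sum_cη] at h
  exact h

/-- currents without circulation in the block -/
theorem mem_GXB {l : ℕ} (n : EB l → ℤ)
    (hn : ∀ w ∈ intR (blk (0, 0) l), T1.H731.dv (uB l) (vB l) n w = 0) : n ∈ GX (chB l) := by
  intro x
  rw [pc_chB, ang_eq_lin (F := Finset.univ.image (uB l) ∪ Finset.univ.image (vB l))
    (uB l) (vB l) (fun e => Finset.mem_union_left _ (Finset.mem_image_of_mem _ (Finset.mem_univ e)))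
    (fun e => Finset.mem_union_right _ (Finset.mem_image_of_mem _ (Finset.mem_univ e)))]
  have h0 : lin (Finset.univ.image (uB l) ∪ Finset.univ.image (vB l))
      (T1.H731.dv (uB l) (vB l) n) (proj (intR (blk (0, 0) l)) x) = 0 := by
    unfold lin
    refine Finset.sum_eq_zero fun w _ => ?_
    by_cases hw : w ∈ intR (blk (0, 0) l)
    · rw [hn w hw, zero_smul]
    · rw [proj_of_notMem hw, smul_zero]
  rw [h0, fourier_arg_zero]

/-- integer circulation -/
def cuZ (η : Tor N × Bool → ℤ) (x : Tor N) : ℤ :=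
  η (x, false) + η (x + (1, 0), true) - η (x + (0, 1), false) - η (x, true)

/-- no core in the block -/
theorem Til.η_mem (η : Tor N × Bool → ℤ) (i : ι)
    (h : T.l i = 1 ∨ ∀ c ∈ blk (0, 0) (T.l i), cuZ η (T.s i c) = 0) :
    T.η η i ∈ GX (chB (T.l i)) := by
  refine mem_GXB _ fun w hw => ?_
  obtain ⟨h0, h1, h2, h3⟩ := hw
  rcases h with h | h
  · rw [h, mem_blk] at h0 h3
    simp only [Prod.fst_sub, Prod.snd_sub] at h3
    omega
  have a1 : ∀ c : ℤ × ℤ, hu c (true, true) = w ↔ c = w - (1, 0) := fun c => by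
    unfold hu
    constructor
    · rintro rfl; ext <;> simp
    · rintro rfl; ext <;> simp
  have a2 : ∀ c : ℤ × ℤ, hu c (false, true) = w ↔ c = w - (0, 1) := fun c => by
    unfold hu
    constructor
    · rintro rfl; ext <;> simp
    · rintro rfl; ext <;> simp
  have a3 : ∀ c : ℤ × ℤ, hv c (true, true) = w ↔ c = w - (1, 1) := fun c => by
    unfold hv hu
    constructor
    · rintro rfl; ext <;> simp
    · rintro rfl; ext <;> simp
  have a4 : ∀ c : ℤ × ℤ, hv c (false, true) = w ↔ c = w - (1, 1) := fun c => by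
    unfold hv hu
    constructor
    · rintro rfl; ext <;> simp
    · rintro rfl; ext <;> simp
  have hc := h _ h3
  unfold cuZ at hc
  unfold T1.H731.dv
  rw [Fintype.sum_prod_type]
  simp only [Fintype.sum_bool, uB, vB, a1, a2, a3, a4, Til.η, if_true, Bool.false_eq_true, if_false]
  have key : ∀ (g : ℤ × ℤ → ℤ) (v : ℤ × ℤ), v ∈ blk (0, 0) (T.l i) →
      ∑ c : ↥(blk (0, 0) (T.l i)), g c * (if (c : ℤ × ℤ) = v then 1 else 0) = g v := by
    intro g v hv'
    rw [Finset.sum_coe_sort (blk (0, 0) (T.l i)) (fun c => g c * (if c = v then 1 else 0))]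
    simp [hv']
  simp only [mul_sub, Finset.sum_add_distrib, Finset.sum_sub_distrib]
  rw [key (fun c => η (T.s i c, false)) _ h1, key (fun c => η (T.s i c, false)) _ h3,
    key (fun c => -η (T.s i c, true)) _ h2, key (fun c => -η (T.s i c, true)) _ h3]
  have e1 : T.s i (w - (1, 0)) = T.s i (w - (1, 1)) + (0, 1) := by
    rw [← T.s_e2]
    congr 1
    ext <;> simp
  have e2 : T.s i (w - (0, 1)) = T.s i (w - (1, 1)) + (1, 0) := by
    rw [← T.s_e1]
    congr 1
    ext <;> simp
  rw [e1, e2]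
  linarith

end til

end Vale.Agent.P159.H513
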