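import Vale.Agent.P159.H513.Eta14

/-!
**SL5 with the sum of the excess of the block stiffness bounded by a small power**:
a neutral charge distribution costs `enR ch / (2 S)` up to `C K (R + 1) ^ ε`.
-/

set_option linter.all false

open MeasureTheory Filter Topology Matrix

namespace Vale.Agent.P159.H513

open Vale.Agent.P159 Vale.Agent.P159.H353 Vale.Agent.P159.R2.H254 Vale.Agent.P159.H950
open Vale.Agent.P159.T1.H934 Vale.Agent.P159.T1.H731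
open Vale.Agent.P159.H37 (qf bf re wM ZM Zs Zn)
open Vale.Agent.P159.TM.SpecC (Tor wT)
open Vale.Agent.P159.H770 (wTD)
open Vale.Agent.P159.H817 (sz gr dv cu rot cst cG CG nrm lp mnj G0 aN)

/-- the sum of the excess of the block stiffness over `S` is at most every small power -/
def LkS (b S : ℝ) : Prop := ∀ ε : ℝ, 0 < ε → ∃ n0 : ℕ, ∀ n : ℕ, n0 ≤ n →
  ∑ i ∈ Finset.range (n + 1), (stiff (2 ^ i) b - S) ≤ (n : ℝ) ^ ε

lemma log_le_pow (ε : ℝ) (hε : 0 < ε) (R : ℕ) :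
    Real.log ((R : ℝ) + 3) ≤ (3 / ε) * 3 ^ ε * ((R : ℝ) + 1) ^ ε := by
  have hR : (0 : ℝ) ≤ R := Nat.cast_nonneg R
  have h1 := Real.log_le_rpow_div (show (0 : ℝ) ≤ (R : ℝ) + 3 by positivity) hε
  have h2 : ((R : ℝ) + 3) ^ ε ≤ (3 * ((R : ℝ) + 1)) ^ ε :=
    Real.rpow_le_rpow (by positivity) (by linarith) hε.le
  rw [Real.mul_rpow (by norm_num) (by positivity)] at h2
  have h3 : (0 : ℝ) < 3 ^ ε * ((R : ℝ) + 1) ^ ε := by positivity
  calc Real.log ((R : ℝ) + 3) ≤ ((R : ℝ) + 3) ^ ε / ε := h1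
    _ ≤ (3 ^ ε * ((R : ℝ) + 1) ^ ε) / ε := div_le_div_of_nonneg_right h2 hε.le
    _ ≤ 3 * ((3 ^ ε * ((R : ℝ) + 1) ^ ε) / ε) := by
        have : 0 ≤ (3 ^ ε * ((R : ℝ) + 1) ^ ε) / ε := by positivity
        linarith
    _ = _ := by ring

lemma ek_le_b {b S : ℝ} (hb : 0 ≤ b) (hS : 0 ≤ S) (k : ℕ) : ek b S k ≤ b := by
  unfold ek
  refine max_le hb ?_
  linarith [stiff_le_b hb k]

/-- the sum of the excess of the block stiffness -/
theorem exs_link {b S : ℝ} (hb : 0 ≤ b) (hS : 0 ≤ S) (hSi : ∀ i, S ≤ stiff (2 ^ i) b)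
    (hL : LkS b S) (ε : ℝ) (hε : 0 < ε) :
    ∃ C : ℝ, 0 ≤ C ∧ ∀ r R : ℕ, 1 + exs b S r R ≤ C * ((R : ℝ) + 1) ^ ε := by
  obtain ⟨n0, hn0⟩ := hL ε hε
  refine ⟨1 + n0 * b + 1 + b * ((3 / ε) * 3 ^ ε), by positivity, ?_⟩
  intro r R
  have hR : (0 : ℝ) ≤ R := Nat.cast_nonneg R
  have hek : ∀ k, ek b S k = stiff (2 ^ k) b - S := fun k => by
    unfold ek
    exact max_eq_right (by linarith [hSi k])
  have h1 : (1 : ℝ) ≤ ((R : ℝ) + 1) ^ ε := Real.one_le_rpow (by linarith) hε.le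
  have hlog := log_le_pow ε hε R
  have h2 : ∑ k ∈ Finset.range (mR r R), ek b S k ≤ n0 * b + ((R : ℝ) + 1) ^ ε := by
    rcases le_or_gt n0 R with h | h
    · have h3 : ∑ k ∈ Finset.range (mR r R), ek b S k ≤ ∑ k ∈ Finset.range (R + 1), ek b S k :=
        Finset.sum_le_sum_of_subset_of_nonneg
          (Finset.range_mono (by unfold mR; omega)) fun k _ _ => ek_nonneg b S k
      have h4 := hn0 R h
      simp_rw [hek] at h3 ⊢
      have h5 : (R : ℝ) ^ ε ≤ ((R : ℝ) + 1) ^ ε := Real.rpow_le_rpow hR (by linarith) hε.le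
      have h6 : 0 ≤ (n0 : ℝ) * b := by positivity
      linarith
    · have h3 : ∑ k ∈ Finset.range (mR r R), ek b S k ≤ ∑ k ∈ Finset.range n0, ek b S k :=
        Finset.sum_le_sum_of_subset_of_nonneg
          (Finset.range_mono (by unfold mR; omega)) fun k _ _ => ek_nonneg b S k
      have h4 : ∑ k ∈ Finset.range n0, ek b S k ≤ n0 * b := by
        refine (Finset.sum_le_sum fun k _ => ek_le_b hb hS k).trans (le_of_eq ?_)
        rw [Finset.sum_const, Finset.card_range, nsmul_eq_mul]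
      linarith
  have h3 : Real.log ((R : ℝ) + 3) * ek b S (mR r R) ≤
      b * ((3 / ε) * 3 ^ ε) * ((R : ℝ) + 1) ^ ε := by
    have h4 := mul_le_mul hlog (ek_le_b hb hS (mR r R)) (ek_nonneg _ _ _) (by positivity)
    linarith
  unfold exs
  have h4 : (n0 : ℝ) * b ≤ n0 * b * ((R : ℝ) + 1) ^ ε :=
    le_mul_of_one_le_right (by positivity) h1
  linarith

/-- **SL5**: a neutral charge distribution of total charge at most `Q` on the torus of side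
`2 ^ R`, every real background, error a small power of `R` -/
theorem sl5_link {b S : ℝ} (hb : 0 ≤ b) (hS : 0 < S) (hSi : ∀ i, S ≤ stiff (2 ^ i) b)
    (hL : LkS b S) (Q : ℝ) (hQ : 0 ≤ Q) (ε : ℝ) (hε : 0 < ε) :
    ∃ C : ℝ, 0 ≤ C ∧ ∃ R0 : ℕ, ∀ R : ℕ, R0 ≤ R → ∀ (d : Tor (2 ^ R) → ℕ) (K : ℝ), Cor d K →
    ∀ ch : Tor (2 ^ R) → ℝ, ∑ x, ch x = 0 → Near d ch → qa ch ≤ Q →
    ∀ η : Tor (2 ^ R) × Bool → ℤ, (∀ x, ((cuZ η x : ℤ) : ℝ) = ch x) →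
    ∀ (M : Matrix (Tor (2 ^ R)) (Tor (2 ^ R)) ℝ) (m0 : ℝ), Mᵀ = M → 0 < m0 →
    (∀ u : Tor (2 ^ R) → ℝ, m0 * ∑ x, u x ^ 2 ≤ qf M u) → ∀ F : Tor (2 ^ R) → ℝ,
    ZM (wTD (2 ^ R) b η) M F ≤
      Real.exp (-(1 / (2 * S) * enR ch) + C * K * ((R : ℝ) + 1) ^ ε) *
        ZM (wT b (2 ^ R)) M 0 := by
  obtain ⟨C, hC, r, h⟩ := sl5_num b hb S hS Q hQ
  obtain ⟨C', hC', h'⟩ := exs_link hb hS.le hSi hL ε hε
  obtain ⟨R0, hR0⟩ : ∃ R0 : ℕ, ∀ R : ℕ, R0 ≤ R → r + kl R ≤ R := by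
    have h1 : Tendsto (fun R : ℕ => ((R : ℝ) + 3) ^ 2 * (2 * 2 ^ r) / 2 ^ R) atTop (𝓝 0) := by
      have e1 := tendsto_pow_const_div_const_pow_of_one_lt 2 (one_lt_two (α := ℝ))
      have e2 := tendsto_pow_const_div_const_pow_of_one_lt 1 (one_lt_two (α := ℝ))
      have e3 := tendsto_pow_const_div_const_pow_of_one_lt 0 (one_lt_two (α := ℝ))
      have e4 := ((e1.add (e2.const_mul 6)).add (e3.const_mul 9)).const_mul (2 * 2 ^ r)
      norm_num at e4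
      refine e4.congr fun n => ?_
      have : (2 : ℝ) ^ n ≠ 0 := by positivity
      field_simp
      ring
    have h2 := (h1.eventually (gt_mem_nhds (show (0 : ℝ) < 1 by norm_num)))
    obtain ⟨R0, hR0⟩ := eventually_atTop.1 h2
    refine ⟨R0, fun R hR => ?_⟩
    have h3 := hR0 R hR
    rw [div_lt_one (by positivity)] at h3
    have h4 : (2 : ℝ) ^ (r + kl R) < 2 ^ R := by
      rw [pow_add]
      have := mul_le_mul_of_nonneg_left (kl_le R) (show (0 : ℝ) ≤ 2 ^ r by positivity)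
      linarith
    exact ((pow_lt_pow_iff_right₀ (by norm_num)).1 h4).le
  refine ⟨C * C', by positivity, R0, ?_⟩
  intro R hR d K hdK ch hch hd hqa η hη M m0 hMs hm0 hM F
  refine (h R (hR0 R hR) d K hdK ch hch hd hqa η hη M m0 hMs hm0 hM S le_rfl F).trans
    (mul_le_mul_of_nonneg_right (Real.exp_le_exp.2 (add_le_add le_rfl ?_)) (ZM_nonneg hb M))
  have h1 := mul_le_mul_of_nonneg_left (h' r R) (mul_nonneg hC hdK.K0)
  linarith

/-- **the quadrupole**, error a small power of `R` -/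
theorem quad_link {b S : ℝ} (hb : 0 ≤ b) (hS : 0 < S) (hSi : ∀ i, S ≤ stiff (2 ^ i) b)
    (hL : LkS b S) (ε : ℝ) (hε : 0 < ε) :
    ∃ C : ℝ, 0 ≤ C ∧ ∃ R0 : ℕ, ∀ R : ℕ, R0 ≤ R →
    ∀ (p : Fin 4 → Tor (2 ^ R)) (u v : ZMod (2 ^ R)) (ℓ : ℝ),
    p 0 - p 1 = (u, 0) → p 0 - p 2 = (0, v) → p 0 - p 3 = (u, v) →
    1 ≤ ℓ → ℓ ≤ u.valMinAbs.natAbs → ℓ ≤ v.valMinAbs.natAbs →
    ∀ η : Tor (2 ^ R) × Bool → ℤ, (∀ x, ((cuZ η x : ℤ) : ℝ) = chF p qq x) →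
    ∀ (M : Matrix (Tor (2 ^ R)) (Tor (2 ^ R)) ℝ) (m0 : ℝ), Mᵀ = M → 0 < m0 →
    (∀ u : Tor (2 ^ R) → ℝ, m0 * ∑ x, u x ^ 2 ≤ qf M u) → ∀ F : Tor (2 ^ R) → ℝ,
    ZM (wTD (2 ^ R) b η) M F ≤
      Real.exp (-(Real.log ℓ / (Real.pi * S)) + C * ((R : ℝ) + 1) ^ ε) *
        ZM (wT b (2 ^ R)) M 0 := by
  obtain ⟨C, hC, R0, h⟩ := sl5_link hb hS hSi hL 4 (by norm_num) ε hε
  obtain ⟨Cq, hCq, hq⟩ := enR_quad_ge
  refine ⟨4 * C + Cq / (2 * S), by positivity, R0, ?_⟩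
  intro R hR p u v ℓ h01 h02 h03 hℓ hu hv η hη M m0 hMs hm0 hM F
  have hen := hq (2 ^ R) p u v h01 h02 h03 ℓ hℓ hu hv
  have h1 := h R hR (dF p) _ (cor_dF p) (chF p qq) (by rw [sum_chF, sum_qq]) (near_dF p qq)
    ((qa_chF p qq).trans (le_of_eq abs_qq)) η hη M m0 hMs hm0 hM F
  refine h1.trans (mul_le_mul_of_nonneg_right (Real.exp_le_exp.2 ?_) (ZM_nonneg hb M))
  have e5 : ((Fintype.card (Fin 4) : ℕ) : ℝ) = 4 := by simp
  rw [e5]
  have hR' : (0 : ℝ) ≤ R := Nat.cast_nonneg R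
  have h0 : (1 : ℝ) ≤ ((R : ℝ) + 1) ^ ε := Real.one_le_rpow (by linarith) hε.le
  have h2 := mul_le_mul_of_nonneg_left hen (show 0 ≤ 1 / (2 * S) by positivity)
  have h3 : 1 / (2 * S) * (2 / Real.pi * Real.log ℓ - Cq) =
      Real.log ℓ / (Real.pi * S) - Cq / (2 * S) := by
    have := Real.pi_pos
    field_simp
  have h5 : Cq / (2 * S) ≤ Cq / (2 * S) * ((R : ℝ) + 1) ^ ε :=
    le_mul_of_one_le_right (by positivity) h0
  rw [h3] at h2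
  nlinarith

end Vale.Agent.P159.H513
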