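import Vale.Agent.P159.H513.Spin
import Vale.Agent.P159.T1.H731.Fou
import Vale.Agent.P159.H950.B2

/-!
One block: the edges are the right and the top sides of the cells, with full weight. Gradients of
heights in the block are annihilated by the characters of the wired block, and the quadratic form of
a constant field is the one of `stiff`.
-/

set_option linter.all false

open MeasureTheory Filter Topology

namespace Vale.Agent.P159.H513

open Vale.Agent.P159 Vale.Agent.P159.H353 Vale.Agent.P159.R2.H254 Vale.Agent.P159.H950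
open Vale.Agent.P159.T1.H934 Vale.Agent.P159.T1.H731

/-- edges of a block: right (`true`) and top (`false`) sides of the cells -/
abbrev EB (l : ℕ) : Type := (blk (0, 0) l) × Bool

/-- the half-bond of an edge -/
def eK {l : ℕ} (e : EB l) : KR (blk (0, 0) l) := (e.1, (e.2, true))

/-- character of an edge -/
noncomputable def chB (l : ℕ) (e : EB l) : Chr Ginf := chiR (blk (0, 0) l) (eK e)

/-- direction of the height gradient across the edge -/
def dd (t : Bool) : ℤ × ℤ := if t then (1, 0) else (0, 1)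

/-- the current of a height function -/
def cur {l : ℕ} (h : ℤ × ℤ → ℤ) (e : EB l) : ℤ :=
  if e.2 then h (e.1.1 + (1, 0)) - h e.1.1 else h e.1.1 - h (e.1.1 + (0, 1))

lemma sum_tele (g : ℤ → ℝ) (l : ℕ) :
    ∑ i ∈ Finset.Ico (0 : ℤ) l, (g (i + 1) - g i) = g l - g 0 := by
  induction l with
  | zero => simp
  | succ n ih =>
    have h1 : Finset.Ico (0 : ℤ) ((n + 1 : ℕ) : ℤ) = insert (n : ℤ) (Finset.Ico (0 : ℤ) n) := by
      ext i
      simp only [Finset.mem_Ico, Finset.mem_insert]
      push_cast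
      omega
    rw [h1, Finset.sum_insert (by simp), ih]
    push_cast
    ring

lemma blk0 (l : ℕ) : blk (0, 0) l = Finset.Ico (0 : ℤ) l ×ˢ Finset.Ico (0 : ℤ) l := by
  unfold blk
  simp

/-- shift in the first direction -/
lemma sum_shift1 (l : ℕ) (g : ℤ × ℤ → ℝ) (hb : ∀ j, g (0, j) = g (l, j)) :
    ∑ c ∈ blk (0, 0) l, g (c + (1, 0)) = ∑ c ∈ blk (0, 0) l, g c := by
  rw [← sub_eq_zero, ← Finset.sum_sub_distrib, blk0, Finset.sum_product_right]
  refine Finset.sum_eq_zero fun j _ => ?_
  have := sum_tele (fun i => g (i, j)) l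
  simp only [hb j, sub_self] at this
  rw [← this]
  refine Finset.sum_congr rfl fun i _ => ?_
  simp

/-- shift in the second direction -/
lemma sum_shift2 (l : ℕ) (g : ℤ × ℤ → ℝ) (hb : ∀ i, g (i, 0) = g (i, l)) :
    ∑ c ∈ blk (0, 0) l, g (c + (0, 1)) = ∑ c ∈ blk (0, 0) l, g c := by
  rw [← sub_eq_zero, ← Finset.sum_sub_distrib, blk0, Finset.sum_product]
  refine Finset.sum_eq_zero fun i _ => ?_
  have := sum_tele (fun j => g (i, j)) l
  simp only [hb i, sub_self] at this
  rw [← this]
  refine Finset.sum_congr rfl fun j _ => ?_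
  simp

/-- the sum over the half-bonds of a function of the bonds -/
lemma sum_half_full (l : ℕ) (g : ℤ × ℤ → Bool → ℝ) (h1 : ∀ j, g (0, j) true = g (l, j) true)
    (h2 : ∀ i, g (i, 0) false = g (i, l) false) :
    ∑ e : KR (blk (0, 0) l), g (hu e.1 e.2) e.2.1 = 2 * ∑ e : EB l, g (hu e.1 (e.2, true)) e.2 := by
  have e1 := sum_KR (blk (0, 0) l) (fun c t => g (hu c t) t.1)
  rw [show (∑ e : KR (blk (0, 0) l), g (hu e.1 e.2) e.2.1) =
    ∑ e : KR (blk (0, 0) l), (fun c t => g (hu c t) t.1 : ℤ × ℤ → HT → ℝ) e.1 e.2 from rfl, e1]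
  rw [Fintype.sum_prod_type]
  simp only [Fintype.sum_bool]
  have e2 : ∑ x : ↥(blk (0, 0) l), (g (hu ↑x (true, true)) true + g (hu ↑x (false, true)) false) =
      ∑ c ∈ blk (0, 0) l, (g (hu c (true, true)) true + g (hu c (false, true)) false) :=
    Finset.sum_coe_sort (blk (0, 0) l) (fun c => g (hu c (true, true)) true +
      g (hu c (false, true)) false)
  rw [e2]
  have e3 : ∑ c ∈ blk (0, 0) l, g (hu c (true, true)) true =
      ∑ c ∈ blk (0, 0) l, g (hu c (true, false)) true := by
    have := sum_shift1 l (fun v => g v true) h1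
    have a1 : ∀ c : ℤ × ℤ, hu c (true, true) = c + (1, 0) := fun c => by
      unfold hu; ext <;> simp
    have a2 : ∀ c : ℤ × ℤ, hu c (true, false) = c := fun c => by
      unfold hu; ext <;> simp
    simp only [a1, a2]
    exact this
  have e4 : ∑ c ∈ blk (0, 0) l, g (hu c (false, true)) false =
      ∑ c ∈ blk (0, 0) l, g (hu c (false, false)) false := by
    have := sum_shift2 l (fun v => g v false) h2
    have a1 : ∀ c : ℤ × ℤ, hu c (false, true) = c + (0, 1) := fun c => by
      unfold hu; ext <;> simp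
    have a2 : ∀ c : ℤ × ℤ, hu c (false, false) = c := fun c => by
      unfold hu; ext <;> simp
    simp only [a1, a2]
    exact this
  simp only [Finset.sum_add_distrib]
  rw [e3, e4]
  ring

lemma hv_eq (c : ℤ × ℤ) (t : HT) : hv c t = hu c t + dd (!t.1) := by
  unfold hv dd
  rcases t with ⟨_ | _, _ | _⟩ <;> simp

lemma proj_out {l : ℕ} (x : Ginf) {v : ℤ × ℤ} (h : v.1 ≤ 0 ∨ (l : ℤ) ≤ v.1 ∨ v.2 ≤ 0 ∨ (l : ℤ) ≤ v.2) :
    proj (intR (blk (0, 0) l)) x v = 0 := by
  apply proj_of_notMem
  rw [mem_intR_blk]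
  simp only
  omega

/-- equality of the sums of the cosines -/
lemma sum_c (b : ℝ) (l : ℕ) (a : Bool → ℝ) (x : Ginf) :
    ∑ e : KR (blk (0, 0) l), b / 2 * a e.2.1 * (chiR (blk (0, 0) l) e).c x =
      ∑ e : EB l, b * a e.2 * (chB l e).c x := by
  have h := sum_half_full l (fun v t => b / 2 * a t * cosT (proj (intR (blk (0, 0) l)) x v -
    proj (intR (blk (0, 0) l)) x (v + dd (!t)))) (fun j => by
      simp only [dd]
      rw [proj_out x (by simp), proj_out x (by simp), proj_out x (by simp), proj_out x (by simp)])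
    (fun i => by
      simp only [dd]
      rw [proj_out x (by simp), proj_out x (by simp), proj_out x (by simp), proj_out x (by simp)])
  have e1 : ∀ e : KR (blk (0, 0) l), (chiR (blk (0, 0) l) e).c x =
      cosT (proj (intR (blk (0, 0) l)) x (hu e.1 e.2) -
        proj (intR (blk (0, 0) l)) x (hu e.1 e.2 + dd (!e.2.1))) := fun e => by
    rw [← hv_eq]; rfl
  have e2 : ∀ e : EB l, (chB l e).c x =
      cosT (proj (intR (blk (0, 0) l)) x (hu e.1 (e.2, true)) -
        proj (intR (blk (0, 0) l)) x (hu e.1 (e.2, true) + dd (!e.2))) := fun e => e1 (eK e)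
  simp only [e1, e2]
  rw [h, Finset.mul_sum]
  exact Finset.sum_congr rfl fun e _ => by ring

/-- equality of the sums of the sines -/
lemma sum_s (b : ℝ) (l : ℕ) (a : Bool → ℝ) (x : Ginf) :
    ∑ e : KR (blk (0, 0) l), b / 2 * a e.2.1 * (chiR (blk (0, 0) l) e).s x =
      ∑ e : EB l, b * a e.2 * (chB l e).s x := by
  have h := sum_half_full l (fun v t => b / 2 * a t * sinT (proj (intR (blk (0, 0) l)) x v -
    proj (intR (blk (0, 0) l)) x (v + dd (!t)))) (fun j => by
      simp only [dd]
      rw [proj_out x (by simp), proj_out x (by simp), proj_out x (by simp), proj_out x (by simp)])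
    (fun i => by
      simp only [dd]
      rw [proj_out x (by simp), proj_out x (by simp), proj_out x (by simp), proj_out x (by simp)])
  have e1 : ∀ e : KR (blk (0, 0) l), (chiR (blk (0, 0) l) e).s x =
      sinT (proj (intR (blk (0, 0) l)) x (hu e.1 e.2) -
        proj (intR (blk (0, 0) l)) x (hu e.1 e.2 + dd (!e.2.1))) := fun e => by
    rw [← hv_eq]; rfl
  have e2 : ∀ e : EB l, (chB l e).s x =
      sinT (proj (intR (blk (0, 0) l)) x (hu e.1 (e.2, true)) -
        proj (intR (blk (0, 0) l)) x (hu e.1 (e.2, true) + dd (!e.2))) := fun e => e1 (eK e)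
  simp only [e1, e2]
  rw [h, Finset.mul_sum]
  exact Finset.sum_congr rfl fun e _ => by ring

/-- quadratic form of a constant field, full weight -/
theorem QB_const (b : ℝ) (l : ℕ) (hl : 1 ≤ l) (u w : ℝ) :
    Qform muInf (fun _ : EB l => b) (chB l) (fun e => if e.2 then w else u) =
      (l : ℝ) ^ 2 * stiff l b * (u ^ 2 + w ^ 2) := by
  rw [← qR_const b (0, 0) l hl u w]
  have h1 : ∀ x, ∑ e : KR (blk (0, 0) l), b / 2 * (chiR (blk (0, 0) l) e).c x =
      ∑ e : EB l, b * (chB l e).c x := fun x => by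
    have := sum_c b l (fun _ => 1) x
    simpa using this
  have h2 : ∀ x, ∑ e : KR (blk (0, 0) l), b / 2 * twR (blk (0, 0) l) (cst u w) e ^ 2 *
      (chiR (blk (0, 0) l) e).c x =
      ∑ e : EB l, b * (if e.2 then w else u) ^ 2 * (chB l e).c x := fun x =>
    sum_c b l (fun t => (if t then w else u) ^ 2) x
  have h3 : ∀ x, ∑ e : KR (blk (0, 0) l), b / 2 * twR (blk (0, 0) l) (cst u w) e *
      (chiR (blk (0, 0) l) e).s x =
      ∑ e : EB l, b * (if e.2 then w else u) * (chB l e).s x := fun x =>
    sum_s b l (fun t => if t then w else u) x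
  unfold qR Qform gibbs
  simp only [h1, h2, h3]

end Vale.Agent.P159.H513
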