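import Vale.Agent.P159.H513.Blk

/-!
Gradients of heights are annihilated by the characters of the block.
-/

set_option linter.all false

open MeasureTheory Filter Topology

namespace Vale.Agent.P159.H513

open Vale.Agent.P159 Vale.Agent.P159.H353 Vale.Agent.P159.R2.H254 Vale.Agent.P159.H950
open Vale.Agent.P159.T1.H934 Vale.Agent.P159.T1.H731

/-- first endpoint of an edge -/
def uB (l : ℕ) (e : EB l) : ℤ × ℤ := hu e.1 (e.2, true)

/-- second endpoint of an edge -/
def vB (l : ℕ) (e : EB l) : ℤ × ℤ := hv e.1 (e.2, true)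

lemma fourier_zpow (n : ℤ) (x : T) : (fourier 1 x : ℂ) ^ n = (fourier 1 (n • x) : ℂ) := by
  rw [← fourier_smul, fourier_apply, fourier_apply, one_zsmul, AddCircle.toCircle_zsmul]
  push_cast
  rfl

lemma chB_e (l : ℕ) (e : EB l) (x : Ginf) : (chB l e).e x =
    (fourier 1 (proj (intR (blk (0, 0) l)) x (uB l e) - proj (intR (blk (0, 0) l)) x (vB l e)) : ℂ) := by
  rw [fourier_one_cs, mul_comm Complex.I]
  rfl

lemma pc_chB (l : ℕ) (n : EB l → ℤ) (x : Ginf) : pc (chB l) n x =
    (fourier 1 (ang (uB l) (vB l) n (proj (intR (blk (0, 0) l)) x)) : ℂ) := by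
  unfold pc ang
  rw [fourier_arg_sum]
  exact Finset.prod_congr rfl fun e _ => by rw [chB_e, fourier_zpow]

lemma dv_cur {l : ℕ} (h : ℤ × ℤ → ℤ) {w : ℤ × ℤ} (hw : w ∈ intR (blk (0, 0) l)) :
    T1.H731.dv (uB l) (vB l) (cur h) w = 0 := by
  obtain ⟨-, h1, h2, h3⟩ := hw
  have a1 : ∀ c : ℤ × ℤ, hu c (true, true) = w ↔ c = w - (1, 0) := fun c => by
    unfold hu
    constructor
    · rintro rfl; ext <;> simp
    · rintro rfl; ext <;> simp
  have a2 : ∀ c : ℤ × ℤ, hu c (false, true) = w ↔ c = w - (0, 1) := fun c => by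
    unfold hu
    constructor
    · rintro rfl; ext <;> simp
    · rintro rfl; ext <;> simp
  have a3 : ∀ c : ℤ × ℤ, hv c (true, true) = w ↔ c = w - (1, 1) := fun c => by
    unfold hv hu
    constructor
    · rintro rfl; ext <;> simp
    · rintro rfl; ext <;> simp
  have a4 : ∀ c : ℤ × ℤ, hv c (false, true) = w ↔ c = w - (1, 1) := fun c => by
    unfold hv hu
    constructor
    · rintro rfl; ext <;> simp
    · rintro rfl; ext <;> simp
  unfold T1.H731.dv
  rw [Fintype.sum_prod_type]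
  simp only [Fintype.sum_bool, uB, vB, a1, a2, a3, a4, cur, if_true, Bool.false_eq_true, if_false]
  have key : ∀ (g : ℤ × ℤ → ℤ) (v : ℤ × ℤ), v ∈ blk (0, 0) l →
      ∑ c : ↥(blk (0, 0) l), g c * (if (c : ℤ × ℤ) = v then 1 else 0) = g v := by
    intro g v hv'
    rw [Finset.sum_coe_sort (blk (0, 0) l) (fun c => g c * (if c = v then 1 else 0))]
    simp [hv']
  simp only [mul_sub, Finset.sum_add_distrib, Finset.sum_sub_distrib]
  rw [key (fun c => h (c + (1, 0)) - h c) _ h1, key (fun c => h (c + (1, 0)) - h c) _ h3,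
    key (fun c => h c - h (c + (0, 1))) _ h2, key (fun c => h c - h (c + (0, 1))) _ h3]
  have e1 : w - (1, 0) + (1, 0) = w := by abel
  have e2 : w - (1, 1) + (1, 0) = w - (0, 1) := by ext <;> simp
  have e3 : w - (0, 1) + (0, 1) = w := by abel
  have e4 : w - (1, 1) + (0, 1) = w - (1, 0) := by ext <;> simp
  rw [e1, e2, e3, e4]
  ring

/-- **gradients of heights are annihilated by the characters of the wired block** -/
theorem cur_mem {l : ℕ} (h : ℤ × ℤ → ℤ) : cur h ∈ GX (chB l) := by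
  intro x
  rw [pc_chB, ang_eq_lin (F := Finset.univ.image (uB l) ∪ Finset.univ.image (vB l))
    (uB l) (vB l) (fun e => Finset.mem_union_left _ (Finset.mem_image_of_mem _ (Finset.mem_univ e)))
    (fun e => Finset.mem_union_right _ (Finset.mem_image_of_mem _ (Finset.mem_univ e)))]
  have h0 : lin (Finset.univ.image (uB l) ∪ Finset.univ.image (vB l))
      (T1.H731.dv (uB l) (vB l) (cur h)) (proj (intR (blk (0, 0) l)) x) = 0 := by
    unfold lin
    refine Finset.sum_eq_zero fun w _ => ?_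
    by_cases hw : w ∈ intR (blk (0, 0) l)
    · rw [dv_cur h hw, zero_smul]
    · rw [proj_of_notMem hw, smul_zero]
  rw [h0, fourier_arg_zero]

/-- mean of a field over the edges of direction `t` -/
noncomputable def mB {l : ℕ} (c : EB l → ℝ) (t : Bool) : ℝ :=
  (∑ p : ↥(blk (0, 0) l), c (p, t)) / (l : ℝ) ^ 2

/-- oscillation: squared distance to the constant fields -/
noncomputable def oB {l : ℕ} (c : EB l → ℝ) : ℝ := ∑ e, (c e - mB c e.2) ^ 2

lemma oB_eq {l : ℕ} (hl : 1 ≤ l) (c : EB l → ℝ) :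
    oB c = ∑ e, c e ^ 2 - (l : ℝ) ^ 2 * (mB c false ^ 2 + mB c true ^ 2) := by
  have hl0 : (l : ℝ) ^ 2 ≠ 0 := by
    have : (0 : ℝ) < l := by exact_mod_cast hl
    positivity
  have hc : (Fintype.card ↥(blk (0, 0) l) : ℝ) = (l : ℝ) ^ 2 := by
    rw [Fintype.card_coe, card_blk]
    push_cast
    rfl
  have key : ∀ t, ∑ p : ↥(blk (0, 0) l), (c (p, t) - mB c t) ^ 2 =
      ∑ p : ↥(blk (0, 0) l), c (p, t) ^ 2 - (l : ℝ) ^ 2 * mB c t ^ 2 := by
    intro t
    have e1 : ∑ p : ↥(blk (0, 0) l), c (p, t) = (l : ℝ) ^ 2 * mB c t := by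
      unfold mB
      field_simp
    have e2 : ∀ p : ↥(blk (0, 0) l), (c (p, t) - mB c t) ^ 2 =
        c (p, t) ^ 2 - 2 * mB c t * c (p, t) + mB c t ^ 2 := fun p => by ring
    simp only [e2, Finset.sum_add_distrib, Finset.sum_sub_distrib, ← Finset.mul_sum, e1,
      Finset.sum_const, Finset.card_univ, nsmul_eq_mul, hc]
    ring
  unfold oB
  rw [Fintype.sum_prod_type, Fintype.sum_prod_type]
  simp only [Fintype.sum_bool, Finset.sum_add_distrib, key]
  ring

lemma oB_nonneg {l : ℕ} (c : EB l → ℝ) : 0 ≤ oB c := Finset.sum_nonneg fun e _ => sq_nonneg _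

/-- **the quadratic form of a block** -/
theorem QB_le {b : ℝ} (hb : 0 ≤ b) {l : ℕ} (hl : 1 ≤ l) (c : EB l → ℝ) {η : ℝ} (hη : 0 < η) :
    Qform muInf (fun _ : EB l => b) (chB l) c ≤
      (1 + η) * (stiff l b * (∑ e, c e ^ 2 - oB c)) + (1 + 1 / η) * (b * oB c) := by
  have h1 := Qform_add_le muInf (fun _ : EB l => b) (chB l) G_div2 (fun _ => hb)
    (fun e : EB l => if e.2 then mB c true else mB c false)
    (c - fun e : EB l => if e.2 then mB c true else mB c false) hη
  rw [add_sub_cancel] at h1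
  rw [QB_const b l hl] at h1
  have h2 := Qform_le muInf (fun _ : EB l => b) (chB l) (fun _ => hb)
    (c - fun e : EB l => if e.2 then mB c true else mB c false)
  have h3 : ∑ e : EB l, b * (c - fun e : EB l => if e.2 then mB c true else mB c false) e ^ 2 =
      b * oB c := by
    unfold oB
    rw [← Finset.mul_sum]
    congr 1
    refine Finset.sum_congr rfl fun e _ => ?_
    rw [Pi.sub_apply]
    cases e.2 <;> simp
  rw [h3] at h2
  have h4 : (l : ℝ) ^ 2 * stiff l b * (mB c false ^ 2 + mB c true ^ 2) =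
      stiff l b * (∑ e, c e ^ 2 - oB c) := by
    rw [oB_eq hl]
    ring
  rw [h4] at h1
  refine h1.trans ?_
  have h5 : 0 ≤ 1 + 1 / η := by positivity
  have := mul_le_mul_of_nonneg_left h2 h5
  linarith

/-- **the ratio of a block, fourth order error** -/
theorem rat_block {b : ℝ} (hb : 0 ≤ b) {l : ℕ} (hl : 1 ≤ l) (c : EB l → ℝ) (hc : ∀ e, |c e| ≤ 1)
    {η : ℝ} (hη : 0 < η) :
    rat (fun _ : EB l => b) (GX (chB l)) c ≤
      Real.exp ((1 + η) / 2 * (stiff l b * (∑ e, c e ^ 2 - oB c)) +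
        (1 + 1 / η) / 2 * (b * oB c) + 3 * (max b 1 * ∑ e, c e ^ 2) ^ 2) := by
  have hS : 0 ≤ ∑ e, c e ^ 2 := Finset.sum_nonneg fun e _ => sq_nonneg _
  have h1 := rho_quart muInf (fun _ : EB l => b) (chB l) G_div2 (fun _ => hb) c hc
    (B := max b 1 * ∑ e, c e ^ 2) (by
      rw [← Finset.mul_sum]
      exact mul_le_mul_of_nonneg_right (le_max_left _ _) hS) (fun e => by
      have h2 : c e ^ 2 ≤ ∑ e, c e ^ 2 :=
        Finset.single_le_sum (f := fun e => c e ^ 2) (fun _ _ => sq_nonneg _) (Finset.mem_univ e)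
      have h3 : 1 * ∑ e, c e ^ 2 ≤ max b 1 * ∑ e, c e ^ 2 :=
        mul_le_mul_of_nonneg_right (le_max_right _ _) hS
      linarith) (by positivity)
  refine h1.trans (Real.exp_le_exp.2 ?_)
  have := QB_le hb hl c hη
  linarith

end Vale.Agent.P159.H513
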