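import Vale.Agent.P159.TM.H129.Bare
import Vale.Agent.P159.T1.H731.U1

/-!
Domination of Fourier transforms of functions of integer heights: `‖ft M φ‖ ≤ C * re (ft P φ)` for
all `φ`. It is stable under products with functions of an integer linear map, under Gaussian
factors, and holds for shifted Gaussians and for tilted sums over groups of currents.
-/

open MeasureTheory Filter Topology

namespace Vale.Agent.P159.H513

open Vale.Agent.P159 Vale.Agent.P159.H353 Vale.Agent.P159.R2.H254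
open Vale.Agent.P159.TM.H129 (circ circ_exp ip ip_neg tr ip_tr tor gauss_cos)
open Vale.Agent.P159.T1.H934 Vale.Agent.P159.T1.H731


variable {A E : Type} [Fintype A] [Fintype E]

/-- the character `exp (i φ · h)` -/
noncomputable def ph (φ : A → ℝ) (h : A → ℤ) : ℂ := Complex.exp (Complex.I * (ip φ h : ℝ))

lemma norm_ph (φ : A → ℝ) (h : A → ℤ) : ‖ph φ h‖ = 1 := by
  unfold ph
  rw [mul_comm, Complex.norm_exp_ofReal_mul_I]

lemma ip_add (φ ψ : A → ℝ) (h : A → ℤ) : ip (φ + ψ) h = ip φ h + ip ψ h := by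
  unfold ip
  rw [← Finset.sum_add_distrib]
  exact Finset.sum_congr rfl fun x _ => by rw [Pi.add_apply]; ring

lemma ip_neg_left (φ : A → ℝ) (h : A → ℤ) : ip (-φ) h = -ip φ h := by
  unfold ip
  rw [← Finset.sum_neg_distrib]
  exact Finset.sum_congr rfl fun x _ => by rw [Pi.neg_apply]; ring

lemma ip_smul_left (t : ℝ) (φ : A → ℝ) (h : A → ℤ) : ip (t • φ) h = t * ip φ h := by
  unfold ip
  rw [Finset.mul_sum]
  exact Finset.sum_congr rfl fun x _ => by rw [Pi.smul_apply, smul_eq_mul]; ring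

lemma ph_add (φ ψ : A → ℝ) (h : A → ℤ) : ph (φ + ψ) h = ph φ h * ph ψ h := by
  unfold ph
  rw [← Complex.exp_add, ip_add]
  congr 1
  push_cast
  ring

lemma ph_cont (h : A → ℤ) : Continuous fun φ => ph φ h := by
  unfold ph ip
  fun_prop

lemma ph_zero (h : A → ℤ) : ph 0 h = 1 := by
  unfold ph ip
  simp

lemma ph_arg_neg (φ : A → ℝ) (h : A → ℤ) : ph φ (-h) = ph (-φ) h := by
  unfold ph
  rw [ip_neg, ip_neg_left]

lemma ph_re (φ : A → ℝ) (h : A → ℤ) : (ph φ h).re = Real.cos (ip φ h) := by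
  unfold ph
  rw [mul_comm, Complex.exp_ofReal_mul_I_re]

lemma ph_im (φ : A → ℝ) (h : A → ℤ) : (ph φ h).im = Real.sin (ip φ h) := by
  unfold ph
  rw [mul_comm, Complex.exp_ofReal_mul_I_im]

lemma ph_tr (D : E → A → ℤ) (θ : E → ℝ) (h : A → ℤ) : ph (tr D θ) h = ph θ (TM.H129.nn D h) := by
  unfold ph
  rw [ip_tr]
  rfl

/-- Fourier transform -/
noncomputable def ft (M : (A → ℤ) → ℝ) (φ : A → ℝ) : ℂ := ∑' h, (M h : ℂ) * ph φ h

lemma term_norm' (M : (A → ℤ) → ℝ) (φ : A → ℝ) (h : A → ℤ) : ‖(M h : ℂ) * ph φ h‖ = |M h| := by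
  rw [norm_mul, norm_ph, mul_one, Complex.norm_real, Real.norm_eq_abs]

lemma summ_term {M : (A → ℤ) → ℝ} (hM : Summable fun h => |M h|) (φ : A → ℝ) :
    Summable fun h => (M h : ℂ) * ph φ h :=
  Summable.of_norm (hM.congr fun h => (term_norm' M φ h).symm)

lemma ft_norm_le {M : (A → ℤ) → ℝ} (hM : Summable fun h => |M h|) (φ : A → ℝ) :
    ‖ft M φ‖ ≤ ∑' h, |M h| := by
  unfold ft
  refine tsum_of_norm_bounded hM.hasSum fun h => ?_
  rw [term_norm']

lemma ft_cont {M : (A → ℤ) → ℝ} (hM : Summable fun h => |M h|) : Continuous (ft M) := by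
  unfold ft
  refine continuous_tsum (fun h => continuous_const.mul (ph_cont h)) hM fun h φ => ?_
  rw [term_norm']

lemma ft_zero (M : (A → ℤ) → ℝ) : ft M 0 = ((∑' h, M h : ℝ) : ℂ) := by
  unfold ft
  rw [Complex.ofReal_tsum]
  exact tsum_congr fun h => by rw [ph_zero, mul_one]

lemma ft_re {M : (A → ℤ) → ℝ} (hM : Summable fun h => |M h|) (φ : A → ℝ) :
    (ft M φ).re = ∑' h, M h * Real.cos (ip φ h) := by
  unfold ft
  rw [Complex.re_tsum (summ_term hM φ)]
  refine tsum_congr fun h => ?_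
  rw [Complex.re_ofReal_mul, ph_re]

lemma ft_im_zero {P : (A → ℤ) → ℝ} (hP : Summable fun h => |P h|) (he : ∀ h, P (-h) = P h)
    (φ : A → ℝ) : (ft P φ).im = 0 := by
  unfold ft
  rw [Complex.im_tsum (summ_term hP φ)]
  have h1 : ∀ h, ((P h : ℂ) * ph φ h).im = P h * Real.sin (ip φ h) := fun h => by
    rw [Complex.im_ofReal_mul, ph_im]
  simp only [h1]
  have h2 : ∑' h, P h * Real.sin (ip φ h) = ∑' h, -(P h * Real.sin (ip φ h)) := by
    rw [← (Equiv.neg (A → ℤ)).tsum_eq (fun h => P h * Real.sin (ip φ h))]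
    refine tsum_congr fun h => ?_
    show P (-h) * Real.sin (ip φ (-h)) = _
    rw [he, ip_neg, Real.sin_neg]
    ring
  rw [tsum_neg] at h2
  linarith

lemma ft_eq_re {P : (A → ℤ) → ℝ} (hP : Summable fun h => |P h|) (he : ∀ h, P (-h) = P h)
    (φ : A → ℝ) : ft P φ = ((ft P φ).re : ℂ) := by
  apply Complex.ext
  · simp
  · rw [ft_im_zero hP he, Complex.ofReal_im]

/-- orthogonality -/
lemma ph_orth (m n : E → ℤ) : ∫ θ, ph θ m * ph (-θ) n ∂(tor E) = if m = n then 1 else 0 := by
  have e1 : ∀ θ : E → ℝ, ph θ m * ph (-θ) n =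
      ∏ e, Complex.exp (Complex.I * ((m e - n e : ℤ) : ℂ) * (θ e : ℂ)) := by
    intro θ
    unfold ph ip
    rw [← Complex.exp_add, ← Complex.exp_sum]
    congr 1
    push_cast
    rw [← mul_add, ← Finset.sum_add_distrib, Finset.mul_sum]
    refine Finset.sum_congr rfl fun e _ => ?_
    simp only [Pi.neg_apply]
    push_cast
    ring
  simp only [e1]
  rw [integral_fintype_prod_eq_prod
    (f := fun e (x : ℝ) => Complex.exp (Complex.I * ((m e - n e : ℤ) : ℂ) * (x : ℂ)))
    (μ := fun _ => circ)]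
  simp only [circ_exp]
  split_ifs with h
  · subst h
    simp
  · obtain ⟨e, he⟩ := Function.ne_iff.1 h
    refine Finset.prod_eq_zero (Finset.mem_univ e) ?_
    rw [if_neg (sub_ne_zero.2 he)]

/-- Fourier inversion -/
lemma ft_inv {a : (E → ℤ) → ℝ} (ha : Summable fun h => |a h|) (n : E → ℤ) :
    ∫ θ, ft a θ * ph (-θ) n ∂(tor E) = (a n : ℂ) := by
  classical
  set F : (E → ℤ) → (E → ℝ) → ℂ := fun m θ => (a m : ℂ) * (ph θ m * ph (-θ) n) with hF
  have hFn : ∀ m θ, ‖F m θ‖ = |a m| := fun m θ => by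
    rw [hF]
    simp only
    rw [norm_mul, norm_mul, norm_ph, norm_ph, mul_one, mul_one, Complex.norm_real,
      Real.norm_eq_abs]
  have hFc : ∀ m, Continuous (F m) := fun m =>
    continuous_const.mul ((ph_cont m).mul ((ph_cont n).comp continuous_neg))
  have hFi : ∀ m, Integrable (F m) (tor E) := fun m =>
    Integrable.of_bound (C := |a m|) (hFc m).aestronglyMeasurable
      (Eventually.of_forall fun θ => (hFn m θ).le)
  have hs := hasSum_integral_of_summable_integral_norm hFi (by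
    simp only [hFn]
    simpa using ha)
  have e1 : ∀ m, ∫ θ, F m θ ∂(tor E) = if m = n then (a n : ℂ) else 0 := by
    intro m
    rw [hF]
    simp only
    rw [integral_const_mul, ph_orth]
    split_ifs with h
    · rw [h, mul_one]
    · rw [mul_zero]
  have e2 : ∀ θ, ∑' m, F m θ = ft a θ * ph (-θ) n := by
    intro θ
    rw [hF]
    unfold ft
    rw [← tsum_mul_right]
    exact tsum_congr fun m => by ring
  simp only [e1, e2] at hs
  exact hs.unique (hasSum_ite_eq n _)

/-- the Fourier transform of `M` is dominated by `C` times the one of `P` -/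
structure Dom (C : ℝ) (M P : (A → ℤ) → ℝ) : Prop where
  sM : Summable fun h => |M h|
  sP : Summable fun h => |P h|
  even : ∀ h, P (-h) = P h
  le : ∀ φ, ‖ft M φ‖ ≤ C * (ft P φ).re

/-- the total sums -/
theorem Dom.total {C : ℝ} {M P : (A → ℤ) → ℝ} (h : Dom C M P) : ∑' x, M x ≤ C * ∑' x, P x := by
  have h1 := h.le 0
  rw [ft_zero, ft_zero, Complex.norm_real, Complex.ofReal_re] at h1
  exact (le_abs_self _).trans h1

omit [Fintype E] in
lemma bdd {a : (E → ℤ) → ℝ} (ha : Summable fun n => |a n|) (n : E → ℤ) : |a n| ≤ ∑' n, |a n| :=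
  ha.le_tsum n fun _ _ => abs_nonneg _

/-- convolution formula -/
lemma ft_mul (D : E → A → ℤ) {M : (A → ℤ) → ℝ} {a : (E → ℤ) → ℝ} (hM : Summable fun h => |M h|)
    (ha : Summable fun n => |a n|) (φ : A → ℝ) :
    ft (fun h => M h * a (TM.H129.nn D h)) φ = ∫ θ, ft a θ * ft M (φ - tr D θ) ∂(tor E) := by
  have htc : Continuous fun θ : E → ℝ => φ - tr D θ := by
    unfold tr
    fun_prop
  set K : ℝ := ∑' n, |a n| with hK
  set F : (A → ℤ) → (E → ℝ) → ℂ := fun h θ => ft a θ * ((M h : ℂ) * ph (φ - tr D θ) h) with hF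
  have hFn : ∀ h θ, ‖F h θ‖ ≤ K * |M h| := fun h θ => by
    rw [hF]
    simp only
    rw [norm_mul, term_norm']
    exact mul_le_mul_of_nonneg_right (ft_norm_le ha θ) (abs_nonneg _)
  have hFc : ∀ h, Continuous (F h) := fun h =>
    (ft_cont ha).mul (continuous_const.mul ((ph_cont h).comp htc))
  have hFi : ∀ h, Integrable (F h) (tor E) := fun h =>
    Integrable.of_bound (C := K * |M h|) (hFc h).aestronglyMeasurable
      (Eventually.of_forall fun θ => hFn h θ)
  have hFs : Summable fun h => ∫ θ, ‖F h θ‖ ∂(tor E) := by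
    refine Summable.of_nonneg_of_le (fun h => integral_nonneg fun θ => norm_nonneg _)
      (fun h => ?_) (hM.mul_left K)
    calc ∫ θ, ‖F h θ‖ ∂(tor E) ≤ ∫ _θ, K * |M h| ∂(tor E) :=
          integral_mono (hFi h).norm (integrable_const _) (hFn h)
      _ = _ := by simp
  have hs := hasSum_integral_of_summable_integral_norm hFi hFs
  have e1 : ∀ h, ∫ θ, F h θ ∂(tor E) = ((M h * a (TM.H129.nn D h) : ℝ) : ℂ) * ph φ h := by
    intro h
    have e2 : ∀ θ, F h θ = ((M h : ℂ) * ph φ h) * (ft a θ * ph (-θ) (TM.H129.nn D h)) := by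
      intro θ
      have e3 : ph (φ - tr D θ) h = ph φ h * ph (-θ) (TM.H129.nn D h) := by
        rw [sub_eq_add_neg, ph_add, ← ph_arg_neg, ph_tr, ← ph_arg_neg]
        congr 2
        funext e
        unfold Vale.Agent.P159.TM.H129.nn
        rw [Pi.neg_apply, ← Finset.sum_neg_distrib]
        exact Finset.sum_congr rfl fun x _ => by rw [Pi.neg_apply]; ring
      rw [hF]
      simp only
      rw [e3]
      ring
    simp only [e2]
    rw [integral_const_mul, ft_inv ha]
    push_cast
    ring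
  have e4 : ∀ θ, ∑' h, F h θ = ft a θ * ft M (φ - tr D θ) := by
    intro θ
    rw [hF]
    simp only
    rw [tsum_mul_left]
    rfl
  simp only [e1, e4] at hs
  exact hs.tsum_eq

/-- **products** -/
theorem Dom.mul (D : E → A → ℤ) {C C' : ℝ} {M P : (A → ℤ) → ℝ} {a b : (E → ℤ) → ℝ}
    (h : Dom C M P) (h' : Dom C' a b) :
    Dom (C * C') (fun h => M h * a (TM.H129.nn D h)) (fun h => P h * b (TM.H129.nn D h)) := by
  have htc : ∀ φ : A → ℝ, Continuous fun θ : E → ℝ => φ - tr D θ := fun φ => by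
    unfold tr
    fun_prop
  have hnn : ∀ h : A → ℤ, TM.H129.nn D (-h) = -TM.H129.nn D h := fun h => by
    funext e
    unfold Vale.Agent.P159.TM.H129.nn
    rw [Pi.neg_apply, ← Finset.sum_neg_distrib]
    exact Finset.sum_congr rfl fun x _ => by rw [Pi.neg_apply]; ring
  refine ⟨?_, ?_, fun x => ?_, fun φ => ?_⟩
  · refine Summable.of_nonneg_of_le (fun _ => abs_nonneg _) (fun x => ?_)
      (h.sM.mul_right (∑' n, |a n|))
    rw [abs_mul]
    exact mul_le_mul_of_nonneg_left (bdd h'.sM _) (abs_nonneg _)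
  · refine Summable.of_nonneg_of_le (fun _ => abs_nonneg _) (fun x => ?_)
      (h.sP.mul_right (∑' n, |b n|))
    rw [abs_mul]
    exact mul_le_mul_of_nonneg_left (bdd h'.sP _) (abs_nonneg _)
  · rw [h.even, hnn, h'.even]
  · rw [ft_mul D h.sM h'.sM, ft_mul D h.sP h'.sP]
    have e1 : ∀ θ, ft b θ * ft P (φ - tr D θ) =
        (((ft b θ).re * (ft P (φ - tr D θ)).re : ℝ) : ℂ) := fun θ => by
      rw [Complex.ofReal_mul, ← ft_eq_re h'.sP h'.even, ← ft_eq_re h.sP h.even]
    simp only [e1]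
    rw [integral_complex_ofReal, Complex.ofReal_re, ← integral_const_mul]
    refine (norm_integral_le_integral_norm _).trans ?_
    have c1 : Continuous fun θ => ‖ft a θ * ft M (φ - tr D θ)‖ :=
      ((ft_cont h'.sM).mul ((ft_cont h.sM).comp (htc φ))).norm
    have c2 : Continuous fun θ => C * C' * ((ft b θ).re * (ft P (φ - tr D θ)).re) :=
      continuous_const.mul ((Complex.continuous_re.comp (ft_cont h'.sP)).mul
        (Complex.continuous_re.comp ((ft_cont h.sP).comp (htc φ))))
    refine integral_mono ?_ ?_ fun θ => ?_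
    · refine Integrable.of_bound (C := (∑' n, |a n|) * ∑' x, |M x|) c1.aestronglyMeasurable
        (Eventually.of_forall fun θ => ?_)
      rw [norm_norm, norm_mul]
      exact mul_le_mul (ft_norm_le h'.sM _) (ft_norm_le h.sM _) (norm_nonneg _)
        (tsum_nonneg fun _ => abs_nonneg _)
    · refine Integrable.of_bound (C := |C * C'| * ((∑' n, |b n|) * ∑' x, |P x|))
        c2.aestronglyMeasurable (Eventually.of_forall fun θ => ?_)
      rw [norm_mul (C * C'), norm_mul (ft b θ).re, Real.norm_eq_abs (C * C')]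
      refine mul_le_mul_of_nonneg_left ?_ (abs_nonneg _)
      refine mul_le_mul ?_ ?_ (norm_nonneg _) (tsum_nonneg fun _ => abs_nonneg _)
      · exact (Complex.abs_re_le_norm _).trans (ft_norm_le h'.sP _)
      · exact (Complex.abs_re_le_norm _).trans (ft_norm_le h.sP _)
    · simp only
      rw [norm_mul]
      have i1 := h'.le θ
      have i2 := h.le (φ - tr D θ)
      calc ‖ft a θ‖ * ‖ft M (φ - tr D θ)‖ ≤ (C' * (ft b θ).re) * (C * (ft P (φ - tr D θ)).re) :=
            mul_le_mul i1 i2 (norm_nonneg _) ((norm_nonneg _).trans i1)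
        _ = _ := by ring

end Vale.Agent.P159.H513
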