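import Vale.Agent.P159.H513.Dom

/-!
Instances of the domination of Fourier transforms: shifted Gaussian masses, Gaussian factors, and
tilted sums over a group of currents (complex two replica inequality).
-/

open MeasureTheory Filter Topology

namespace Vale.Agent.P159.H513

open Vale.Agent.P159 Vale.Agent.P159.H353 Vale.Agent.P159.R2.H254
open Vale.Agent.P159.TM.H129 (circ circ_exp ip ip_neg tr ip_tr tor gauss_cos summable_gauss)
open Vale.Agent.P159.T1.H934 Vale.Agent.P159.T1.H731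

variable {A E : Type} [Fintype A] [Fintype E]

/-- one dimensional shifted Gaussian -/
lemma gauss_shift_summable {m : ℝ} (hm : 0 < m) (w : ℝ) :
    Summable fun n : ℤ => Real.exp (-(m / 2) * ((n : ℝ) - w) ^ 2) := by
  have h1 := summable_gauss (m := m / 2) (half_pos hm)
  refine Summable.of_nonneg_of_le (fun n => (Real.exp_pos _).le) (fun n => ?_)
    (h1.mul_left (Real.exp (m / 2 * w ^ 2)))
  rw [← Real.exp_add]
  refine Real.exp_le_exp.2 ?_
  nlinarith [sq_nonneg ((n : ℝ) / 2 - w), mul_nonneg hm.le (sq_nonneg ((n : ℝ) - 2 * w))]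

lemma gauss_shift {m : ℝ} (hm : 0 < m) (w φ : ℝ) :
    ‖∑' n : ℤ, ((Real.exp (-(m / 2) * ((n : ℝ) - w) ^ 2) : ℝ) : ℂ) *
      Complex.exp (Complex.I * ((φ * n : ℝ) : ℂ))‖ ≤
    (∑' n : ℤ, ((Real.exp (-(m / 2) * (n : ℝ) ^ 2) : ℝ) : ℂ) *
      Complex.exp (Complex.I * ((φ * n : ℝ) : ℂ))).re := by
  have hpi := Real.pi_pos
  have hpc : (Real.pi : ℂ) ≠ 0 := by exact_mod_cast hpi.ne'
  set a : ℝ := m / (2 * Real.pi) with ha
  have ha0 : 0 < a := by positivity
  have key : ∀ w : ℝ, ∑' n : ℤ, ((Real.exp (-(m / 2) * ((n : ℝ) - w) ^ 2) : ℝ) : ℂ) *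
      Complex.exp (Complex.I * ((φ * n : ℝ) : ℂ)) =
      ((1 / a ^ (1 / 2 : ℝ) : ℝ) : ℂ) * ∑' n : ℤ,
        ((Real.exp (-Real.pi / a * ((n : ℝ) - φ / (2 * Real.pi)) ^ 2) : ℝ) : ℂ) *
        Complex.exp (((-(2 * Real.pi * w * ((n : ℝ) - φ / (2 * Real.pi))) : ℝ) : ℂ) *
          Complex.I) := by
    intro w
    set b : ℂ := ((m * w / (2 * Real.pi) : ℝ) : ℂ) + Complex.I * ((φ / (2 * Real.pi) : ℝ) : ℂ)
      with hb
    have h1 := Complex.tsum_exp_neg_quadratic (a := (a : ℂ)) (by simpa using ha0) b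
    have e1 : ∀ n : ℤ, ((Real.exp (-(m / 2) * ((n : ℝ) - w) ^ 2) : ℝ) : ℂ) *
        Complex.exp (Complex.I * ((φ * n : ℝ) : ℂ)) =
        ((Real.exp (-(m / 2) * w ^ 2) : ℝ) : ℂ) *
          Complex.exp (-Real.pi * a * (n : ℂ) ^ 2 + 2 * Real.pi * b * n) := by
      intro n
      rw [Complex.ofReal_exp, Complex.ofReal_exp, ← Complex.exp_add, ← Complex.exp_add, ha, hb]
      congr 1
      push_cast
      field_simp
      ring
    have e2 : ∀ n : ℤ, Complex.exp (-Real.pi / a * ((n : ℂ) + Complex.I * b) ^ 2) =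
        ((Real.exp (m / 2 * w ^ 2) : ℝ) : ℂ) *
        (((Real.exp (-Real.pi / a * ((n : ℝ) - φ / (2 * Real.pi)) ^ 2) : ℝ) : ℂ) *
        Complex.exp (((-(2 * Real.pi * w * ((n : ℝ) - φ / (2 * Real.pi))) : ℝ) : ℂ) *
          Complex.I)) := by
      intro n
      rw [Complex.ofReal_exp, Complex.ofReal_exp, ← Complex.exp_add, ← Complex.exp_add, hb, ha]
      congr 1
      have hmc : (m : ℂ) ≠ 0 := by exact_mod_cast hm.ne'
      have hI := Complex.I_sq
      push_cast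
      rw [show (n : ℂ) + Complex.I * ((m : ℂ) * w / (2 * Real.pi) +
        Complex.I * (φ / (2 * Real.pi))) = (n - φ / (2 * Real.pi)) +
        Complex.I * (m * w / (2 * Real.pi)) by linear_combination ((φ : ℂ) / (2 * Real.pi)) * hI]
      field_simp
      linear_combination (-(w ^ 2 * m ^ 2 : ℂ)) * hI
    have e3 : (1 : ℂ) / (a : ℂ) ^ (1 / 2 : ℂ) = ((1 / a ^ (1 / 2 : ℝ) : ℝ) : ℂ) := by
      rw [Complex.ofReal_div 1, Complex.ofReal_cpow ha0.le]
      push_cast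
      rfl
    rw [tsum_congr e1, tsum_mul_left, h1, tsum_congr e2, tsum_mul_left, e3]
    have e4 : ((Real.exp (-(m / 2) * w ^ 2) : ℝ) : ℂ) * ((Real.exp (m / 2 * w ^ 2) : ℝ) : ℂ) = 1 := by
      rw [← Complex.ofReal_mul, ← Real.exp_add]
      simp
    linear_combination (((1 / a ^ (1 / 2 : ℝ) : ℝ) : ℂ) * ∑' n : ℤ,
        ((Real.exp (-Real.pi / a * ((n : ℝ) - φ / (2 * Real.pi)) ^ 2) : ℝ) : ℂ) *
        Complex.exp (((-(2 * Real.pi * w * ((n : ℝ) - φ / (2 * Real.pi))) : ℝ) : ℂ) *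
          Complex.I)) * e4
  have hS : Summable fun n : ℤ => Real.exp (-Real.pi / a * ((n : ℝ) - φ / (2 * Real.pi)) ^ 2) := by
    have h2 := gauss_shift_summable (m := 2 * Real.pi / a) (by positivity) (φ / (2 * Real.pi))
    refine h2.congr fun n => ?_
    congr 2
    ring
  have k0 := key 0
  simp only [sub_zero] at k0
  rw [k0, key w]
  have e5 : ∑' n : ℤ, ((Real.exp (-Real.pi / a * ((n : ℝ) - φ / (2 * Real.pi)) ^ 2) : ℝ) : ℂ) *
        Complex.exp (((-(2 * Real.pi * 0 * ((n : ℝ) - φ / (2 * Real.pi))) : ℝ) : ℂ) *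
          Complex.I) = ((∑' n : ℤ, Real.exp (-Real.pi / a * ((n : ℝ) - φ / (2 * Real.pi)) ^ 2) :
            ℝ) : ℂ) := by
    rw [Complex.ofReal_tsum]
    refine tsum_congr fun n => ?_
    simp
  rw [e5, ← Complex.ofReal_mul, Complex.ofReal_re, norm_mul, Complex.norm_real, Real.norm_eq_abs,
    abs_of_nonneg (by positivity : (0 : ℝ) ≤ 1 / a ^ (1 / 2 : ℝ))]
  refine mul_le_mul_of_nonneg_left ?_ (by positivity)
  refine tsum_of_norm_bounded hS.hasSum fun n => ?_
  rw [norm_mul, Complex.norm_exp_ofReal_mul_I, mul_one, Complex.norm_real, Real.norm_eq_abs,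
    abs_of_pos (Real.exp_pos _)]

/-- the shifted diagonal mass -/
noncomputable def gm (m w : A → ℝ) (h : A → ℤ) : ℝ :=
  ∏ x, Real.exp (-(m x / 2) * ((h x : ℝ) - w x) ^ 2)

/-- **shifted diagonal masses are dominated by the unshifted ones** -/
theorem Dom.mass {m : A → ℝ} (hm : ∀ x, 0 < m x) (w : A → ℝ) : Dom 1 (gm m w) (gm m 0) := by
  have hs : ∀ w : A → ℝ, Summable fun h => |gm m w h| := fun w => by
    have h := (prod_real (a := fun x (n : ℤ) => Real.exp (-(m x / 2) * ((n : ℝ) - w x) ^ 2))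
      (fun x => (gauss_shift_summable (hm x) (w x)).congr fun n => by
        rw [abs_of_pos (Real.exp_pos _)])).1
    exact h
  have hf : ∀ w φ : A → ℝ, ft (gm m w) φ = ∏ x, ∑' n : ℤ,
      ((Real.exp (-(m x / 2) * ((n : ℝ) - w x) ^ 2) : ℝ) : ℂ) *
      Complex.exp (Complex.I * ((φ x * n : ℝ) : ℂ)) := by
    intro w φ
    rw [← (prod_tsum_all ℤ A (fun x n => ((Real.exp (-(m x / 2) * ((n : ℝ) - w x) ^ 2) : ℝ) : ℂ) *
      Complex.exp (Complex.I * ((φ x * n : ℝ) : ℂ))) fun x => ?_).2]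
    · unfold ft
      refine tsum_congr fun h => ?_
      rw [Finset.prod_mul_distrib, ← Complex.exp_sum]
      unfold gm ph ip
      push_cast
      rw [Finset.mul_sum]
    · refine (gauss_shift_summable (hm x) (w x)).congr fun n => ?_
      rw [norm_mul, mul_comm Complex.I, Complex.norm_exp_ofReal_mul_I, mul_one, Complex.norm_real,
        Real.norm_eq_abs, abs_of_pos (Real.exp_pos _)]
  have hev : ∀ h, gm m 0 (-h) = gm m 0 h := fun h => by
    unfold gm
    refine Finset.prod_congr rfl fun x _ => ?_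
    simp
  refine ⟨hs w, hs 0, hev, fun φ => ?_⟩
  rw [one_mul, hf w, norm_prod]
  have h1 : ∀ x, ‖∑' n : ℤ, ((Real.exp (-(m x / 2) * ((n : ℝ) - w x) ^ 2) : ℝ) : ℂ) *
      Complex.exp (Complex.I * ((φ x * n : ℝ) : ℂ))‖ ≤ (∑' n : ℤ,
      ((Real.exp (-(m x / 2) * ((n : ℝ) - (0 : A → ℝ) x) ^ 2) : ℝ) : ℂ) *
      Complex.exp (Complex.I * ((φ x * n : ℝ) : ℂ))).re := fun x => by
    simpa using gauss_shift (hm x) (w x) (φ x)
  refine (Finset.prod_le_prod (fun x _ => norm_nonneg _) fun x _ => h1 x).trans (le_of_eq ?_)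
  have him : ∀ x, (∑' n : ℤ, ((Real.exp (-(m x / 2) * ((n : ℝ) - (0 : A → ℝ) x) ^ 2) : ℝ) : ℂ) *
      Complex.exp (Complex.I * ((φ x * n : ℝ) : ℂ))) = (((∑' n : ℤ,
      ((Real.exp (-(m x / 2) * ((n : ℝ) - (0 : A → ℝ) x) ^ 2) : ℝ) : ℂ) *
      Complex.exp (Complex.I * ((φ x * n : ℝ) : ℂ))).re : ℝ) : ℂ) := by
    intro x
    have h2 := ft_eq_re (A := Unit) (P := fun h => Real.exp (-(m x / 2) * ((h () : ℝ)) ^ 2))
      (by
        have h3 := gauss_shift_summable (hm x) 0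
        have h4 := (Equiv.funUnique Unit ℤ).summable_iff.2 h3
        refine h4.congr fun h => ?_
        rw [abs_of_pos (Real.exp_pos _)]
        simp) (fun h => by simp) (fun _ => φ x)
    have h5 : ft (A := Unit) (fun h => Real.exp (-(m x / 2) * ((h () : ℝ)) ^ 2)) (fun _ => φ x) =
        ∑' n : ℤ, ((Real.exp (-(m x / 2) * ((n : ℝ) - (0 : A → ℝ) x) ^ 2) : ℝ) : ℂ) *
          Complex.exp (Complex.I * ((φ x * n : ℝ) : ℂ)) := by
      unfold ft
      rw [← (Equiv.funUnique Unit ℤ).symm.tsum_eq]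
      refine tsum_congr fun n => ?_
      unfold ph ip
      simp
    rw [h5] at h2
    exact h2
  rw [hf 0, Finset.prod_congr rfl fun x _ => him x, ← Complex.ofReal_prod, Complex.ofReal_re]

end Vale.Agent.P159.H513
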