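import Vale.Agent.P159.H513.Dom2

/-!
The complex two replica inequality: for a group `Γ` of currents the Fourier transform of the tilted
weight is dominated by the ratio of the partition functions times the one of the weight.
Then: the general block domination.
-/

open MeasureTheory Filter Topology

namespace Vale.Agent.P159.H513

open Vale.Agent.P159 Vale.Agent.P159.H353 Vale.Agent.P159.R2.H254
open Vale.Agent.P159.TM.H129 (circ circ_exp ip ip_neg tr ip_tr tor gauss_cos summable_gauss)
open Vale.Agent.P159.T1.H934 Vale.Agent.P159.T1.H731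


variable {A E : Type} [Fintype A] [Fintype E]

/-- **complex two replica inequality** -/
theorem two_cos {H : Type} [AddCommGroup H] {D : H →+ (E → ℤ)} (hD : Function.Injective D)
    {J : E → ℝ} (hJ : ∀ e, 0 ≤ J e) (c θ : E → ℝ) (γ : ℝ) :
    (∑' h, W D J h * (Real.exp (ln D c h) * Real.cos (ln D θ h + γ))) * ∑' h, W D J h ≤
      (∑' h, W D J h * Real.exp (ln D c h)) * ∑' h, W D J h * Real.cos (ln D θ h) := by
  have b1 : ∀ h : H, |Real.exp (ln D c h)| ≤ 1 * Real.exp |ln D c h| := fun h => by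
    rw [abs_of_pos (Real.exp_pos _), one_mul]
    exact Real.exp_le_exp.2 (le_abs_self _)
  have b2 : ∀ h : H, |Real.exp (ln D c h) * Real.cos (ln D θ h + γ)| ≤
      1 * Real.exp |ln D c h| := fun h => by
    rw [abs_mul]
    exact (mul_le_of_le_one_right (abs_nonneg _) (Real.abs_cos_le_one _)).trans (b1 h)
  have aW : Summable fun h => |W D J h| := (W_summable (D := D) hD hJ).abs
  have aWe := summable_growth (D := D) hD hJ c b1
  have aWc := summable_growth (D := D) hD hJ c b2
  have aW0 : Summable fun h => |W D J h * Real.cos (ln D θ h)| :=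
    Summable.of_nonneg_of_le (fun _ => abs_nonneg _) (fun h => by
      rw [abs_mul]; exact mul_le_of_le_one_right (abs_nonneg _) (Real.abs_cos_le_one _)) aW
  have gb : ∀ h : H, |Real.exp (ln D c h / 2) * Real.sin (ln D θ h / 2 + γ / 2)| ≤
      1 * Real.exp |ln D c h| := fun h => by
    rw [abs_mul, abs_of_pos (Real.exp_pos _), one_mul]
    refine (mul_le_of_le_one_right (Real.exp_pos _).le (Real.abs_sin_le_one _)).trans
      (Real.exp_le_exp.2 ?_)
    have := le_abs_self (ln D c h)
    have := abs_nonneg (ln D c h)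
    linarith
  have h0 := dup_gen (D := D) hD hJ (K := 0) (fun _ => le_rfl)
    (g := fun h => Real.exp (ln D c h / 2) * Real.sin (ln D θ h / 2 + γ / 2)) (C := 1)
    (one_le_rho c) (growth zero_le_one gb) 0 (by simp)
  rw [add_zero] at h0
  have h1 := ((hasSum_mul_pair aWe aW0).sub (hasSum_mul_pair aWc aW)).mul_left (1 / 2)
  have e : ∀ x : H × H, (W D J x.1 * W D J x.2 + 0 * (W D J x.1 * W D J x.2)) *
      (Real.exp (ln D c (x.1 + x.2) / 2) * Real.sin (ln D θ (x.1 + x.2) / 2 + γ / 2) *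
        (Real.exp (ln D c (x.1 - x.2) / 2) * Real.sin (ln D θ (x.1 - x.2) / 2 + γ / 2))) =
      1 / 2 * (W D J x.1 * Real.exp (ln D c x.1) * (W D J x.2 * Real.cos (ln D θ x.2)) -
        W D J x.1 * (Real.exp (ln D c x.1) * Real.cos (ln D θ x.1 + γ)) * W D J x.2) := by
    intro x
    have e1 : Real.exp (ln D c (x.1 + x.2) / 2) * Real.exp (ln D c (x.1 - x.2) / 2) =
        Real.exp (ln D c x.1) := by
      rw [← Real.exp_add, ln_add, ln_sub]
      congr 1
      ring
    have e2 : Real.sin (ln D θ (x.1 + x.2) / 2 + γ / 2) *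
        Real.sin (ln D θ (x.1 - x.2) / 2 + γ / 2) =
        (Real.cos (ln D θ x.2) - Real.cos (ln D θ x.1 + γ)) / 2 := by
      rw [ln_add, ln_sub]
      have e3 := Real.cos_add ((ln D θ x.1 + ln D θ x.2) / 2 + γ / 2)
        ((ln D θ x.1 - ln D θ x.2) / 2 + γ / 2)
      have e4 := Real.cos_sub ((ln D θ x.1 + ln D θ x.2) / 2 + γ / 2)
        ((ln D θ x.1 - ln D θ x.2) / 2 + γ / 2)
      rw [show (ln D θ x.1 + ln D θ x.2) / 2 + γ / 2 + ((ln D θ x.1 - ln D θ x.2) / 2 + γ / 2) =
        ln D θ x.1 + γ by ring] at e3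
      rw [show (ln D θ x.1 + ln D θ x.2) / 2 + γ / 2 - ((ln D θ x.1 - ln D θ x.2) / 2 + γ / 2) =
        ln D θ x.2 by ring] at e4
      linarith
    calc _ = W D J x.1 * W D J x.2 *
        ((Real.exp (ln D c (x.1 + x.2) / 2) * Real.exp (ln D c (x.1 - x.2) / 2)) *
        (Real.sin (ln D θ (x.1 + x.2) / 2 + γ / 2) *
        Real.sin (ln D θ (x.1 - x.2) / 2 + γ / 2))) := by ring
      _ = _ := by rw [e1, e2]; ring
  rw [tsum_congr e, h1.tsum_eq] at h0
  linarith

/-- the norm of a complex number is the real part of a rotation -/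
lemma norm_le_of_rot {z : ℂ} {B : ℝ}
    (h : ∀ γ : ℝ, (Complex.exp (Complex.I * (γ : ℝ)) * z).re ≤ B) : ‖z‖ ≤ B := by
  have h1 := h (-z.arg)
  have h2 : Complex.exp (Complex.I * ((-z.arg : ℝ) : ℂ)) * z = (‖z‖ : ℂ) := by
    have hz := Complex.norm_mul_exp_arg_mul_I z
    have h3 : Complex.exp (Complex.I * ((-z.arg : ℝ) : ℂ)) * Complex.exp ((z.arg : ℂ) * Complex.I) =
        1 := by
      rw [← Complex.exp_add, ← Complex.exp_zero]
      congr 1
      push_cast
      ring
    calc Complex.exp (Complex.I * ((-z.arg : ℝ) : ℂ)) * z =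
        Complex.exp (Complex.I * ((-z.arg : ℝ) : ℂ)) *
          ((‖z‖ : ℂ) * Complex.exp ((z.arg : ℂ) * Complex.I)) := by rw [hz]
      _ = (‖z‖ : ℂ) * (Complex.exp (Complex.I * ((-z.arg : ℝ) : ℂ)) *
          Complex.exp ((z.arg : ℂ) * Complex.I)) := by ring
      _ = (‖z‖ : ℂ) := by rw [h3, mul_one]
  rw [h2, Complex.ofReal_re] at h1
  exact h1

open Classical in
/-- the tilted weight of the currents in `Γ` -/
noncomputable def gw' (J : E → ℝ) (Γ : AddSubgroup (E → ℤ)) (c : E → ℝ) (n : E → ℤ) : ℝ :=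
  if n ∈ Γ then wt J c n else 0

lemma gw'_nonneg {J : E → ℝ} (hJ : ∀ e, 0 ≤ J e) (Γ : AddSubgroup (E → ℤ)) (c : E → ℝ)
    (n : E → ℤ) : 0 ≤ gw' J Γ c n := by
  unfold gw'
  split_ifs
  · exact wt_nonneg hJ c n
  · exact le_rfl

lemma gw'_summable {J : E → ℝ} (hJ : ∀ e, 0 ≤ J e) (Γ : AddSubgroup (E → ℤ)) (c : E → ℝ) :
    Summable (gw' J Γ c) := by
  classical
  refine Summable.of_nonneg_of_le (fun n => gw'_nonneg hJ Γ c n) (fun n => ?_) (wt_summable hJ c)
  unfold gw'
  split_ifs
  · exact le_rfl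
  · exact wt_nonneg hJ c n

lemma SG_eq (J : E → ℝ) (Γ : AddSubgroup (E → ℤ)) (c : E → ℝ) :
    SG J Γ c 0 = ∑' n, gw' J Γ c n := by
  classical
  unfold SG gw'
  refine tsum_congr fun n => ?_
  rw [sub_zero]

lemma tsum_gw' (J : E → ℝ) (Γ : AddSubgroup (E → ℤ)) (c : E → ℝ) (F : (E → ℤ) → ℝ) :
    ∑' n, gw' J Γ c n * F n = ∑' h : Γ, wt J c (h : E → ℤ) * F h := by
  classical
  have h1 := tsum_subtype (Γ : Set (E → ℤ)) (fun n => wt J c n * F n)
  refine Eq.trans (tsum_congr fun n => ?_) h1.symm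
  unfold gw' Set.indicator
  simp only [SetLike.mem_coe]
  split_ifs <;> simp

lemma SG_pos {J : E → ℝ} (hJ : ∀ e, 0 ≤ J e) (Γ : AddSubgroup (E → ℤ)) (c : E → ℝ) :
    0 < SG J Γ c 0 := by
  classical
  rw [SG_eq]
  refine (gw'_summable hJ Γ c).tsum_pos (fun n => gw'_nonneg hJ Γ c n) 0 ?_
  unfold gw'
  rw [if_pos Γ.zero_mem]
  unfold T1.H731.wt
  exact mul_pos (Finset.prod_pos fun e _ => by
    simpa using wI_zero_pos (hJ e)) (Real.exp_pos _)

/-- **the tilted currents in a group are dominated** -/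
theorem Dom.currents {J : E → ℝ} (hJ : ∀ e, 0 ≤ J e) (Γ : AddSubgroup (E → ℤ)) (c : E → ℝ) :
    Dom (SG J Γ c 0 / SG J Γ 0 0) (gw' J Γ c) (gw' J Γ 0) := by
  classical
  have hab : ∀ c : E → ℝ, Summable fun n => |gw' J Γ c n| := fun c => (gw'_summable hJ Γ c).abs
  have hev : ∀ n, gw' J Γ 0 (-n) = gw' J Γ 0 n := fun n => by
    unfold gw'
    have e2 : wt J 0 (-n) = wt J 0 n := by
      unfold T1.H731.wt
      simp [wI_neg]
    rw [neg_mem_iff, e2]
  refine ⟨hab c, hab 0, hev, fun θ => ?_⟩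
  set D : Γ →+ (E → ℤ) := Γ.subtype with hD
  have hDi : Function.Injective D := Subtype.val_injective
  have hW : ∀ h : Γ, W D J h = wt J 0 (h : E → ℤ) := fun h => by
    unfold W T1.H731.wt
    simp [hD]
  have hWc : ∀ h : Γ, W D J h * Real.exp (ln D c h) = wt J c (h : E → ℤ) := fun h => by
    unfold W T1.H731.wt ln
    simp [hD]
  have hln : ∀ h : Γ, ln D θ h = ip θ (h : E → ℤ) := fun h => rfl
  refine norm_le_of_rot fun γ => ?_
  have e1 : (Complex.exp (Complex.I * (γ : ℝ)) * ft (gw' J Γ c) θ).re =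
      ∑' n, gw' J Γ c n * Real.cos (ip θ n + γ) := by
    unfold ft
    rw [← tsum_mul_left, Complex.re_tsum ((summ_term (hab c) θ).mul_left _)]
    refine tsum_congr fun n => ?_
    have e2 : Complex.exp (Complex.I * (γ : ℝ)) * ((gw' J Γ c n : ℂ) * ph θ n) =
        (gw' J Γ c n : ℂ) * Complex.exp (((ip θ n + γ : ℝ) : ℂ) * Complex.I) := by
      unfold ph
      rw [mul_left_comm, ← Complex.exp_add]
      congr 2
      push_cast
      ring
    rw [e2, Complex.re_ofReal_mul, Complex.exp_ofReal_mul_I_re]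
  have e3 : ∑' n, gw' J Γ c n * Real.cos (ip θ n + γ) =
      ∑' h : Γ, W D J h * (Real.exp (ln D c h) * Real.cos (ln D θ h + γ)) := by
    rw [tsum_gw']
    refine tsum_congr fun h => ?_
    rw [← hWc, hln, mul_assoc]
  have e4 : SG J Γ c 0 = ∑' h : Γ, W D J h * Real.exp (ln D c h) := by
    have := tsum_gw' J Γ c fun _ => 1
    simp only [mul_one] at this
    rw [SG_eq, this]
    exact tsum_congr fun h => (hWc h).symm
  have e5 : SG J Γ 0 0 = ∑' h : Γ, W D J h := by
    have := tsum_gw' J Γ 0 fun _ => 1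
    simp only [mul_one] at this
    rw [SG_eq, this]
    exact tsum_congr fun h => (hW h).symm
  have e6 : (ft (gw' J Γ 0) θ).re = ∑' h : Γ, W D J h * Real.cos (ln D θ h) := by
    rw [ft_re (hab 0), tsum_gw']
    exact tsum_congr fun h => by rw [hW, hln]
  have h0 := SG_pos hJ Γ 0
  rw [e1, e3, div_mul_eq_mul_div, le_div_iff₀ h0, e4, e5, e6]
  exact two_cos hDi hJ c θ γ

/-- **Gaussian factors** -/
theorem Dom.gauss {C : ℝ} {M P : (A → ℤ) → ℝ} (h : Dom C M P) (ρ : A → ℝ) {v : ℝ} (hv : 0 ≤ v)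
    (a : ℝ) : Dom C (fun h => M h * Real.exp (-(v / 2) * (ip ρ h - a) ^ 2))
      (fun h => P h * Real.exp (-(v / 2) * ip ρ h ^ 2)) := by
  have hsum : ∀ {Q : (A → ℤ) → ℝ} (a : ℝ), (Summable fun h => |Q h|) →
      Summable fun h => |Q h * Real.exp (-(v / 2) * (ip ρ h - a) ^ 2)| := by
    intro Q a hQ
    refine Summable.of_nonneg_of_le (fun _ => abs_nonneg _) (fun x => ?_) hQ
    rw [abs_mul, abs_of_pos (Real.exp_pos _)]
    exact mul_le_of_le_one_right (abs_nonneg _) (Real.exp_le_one_iff.2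
      (by nlinarith [sq_nonneg (ip ρ x - a)]))
  set γ := ProbabilityTheory.gaussianReal 0 (Real.toNNReal v) with hγ
  -- the formula for the transform
  have key : ∀ {Q : (A → ℤ) → ℝ} (a : ℝ), (Summable fun h => |Q h|) → ∀ φ : A → ℝ,
      ft (fun h => Q h * Real.exp (-(v / 2) * (ip ρ h - a) ^ 2)) φ =
        ∫ t, Complex.exp (-(Complex.I * ((t * a : ℝ) : ℂ))) * ft Q (φ + t • ρ) ∂γ := by
    intro Q a hQ φ
    set F : (A → ℤ) → ℝ → ℂ := fun x t => Complex.exp (-(Complex.I * ((t * a : ℝ) : ℂ))) *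
      ((Q x : ℂ) * ph (φ + t • ρ) x) with hF
    have hexp : ∀ t : ℝ, ‖Complex.exp (-(Complex.I * ((t * a : ℝ) : ℂ)))‖ = 1 := fun t => by
      rw [show -(Complex.I * ((t * a : ℝ) : ℂ)) = ((-(t * a) : ℝ) : ℂ) * Complex.I by
        push_cast; ring, Complex.norm_exp_ofReal_mul_I]
    have hFn : ∀ x t, ‖F x t‖ = |Q x| := fun x t => by
      rw [hF]
      simp only
      rw [norm_mul, hexp, one_mul, term_norm']
    have hFc : ∀ x, Continuous (F x) := fun x => by
      have h1 : Continuous fun t : ℝ => φ + t • ρ := by fun_prop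
      refine Continuous.mul (by fun_prop) (continuous_const.mul ((ph_cont x).comp h1))
    have hFi : ∀ x, Integrable (F x) γ := fun x =>
      Integrable.of_bound (C := |Q x|) (hFc x).aestronglyMeasurable
        (Eventually.of_forall fun t => (hFn x t).le)
    have hs := hasSum_integral_of_summable_integral_norm hFi (by
      simp only [hFn]
      simpa using hQ)
    have e1 : ∀ x, ∫ t, F x t ∂γ =
        ((Q x * Real.exp (-(v / 2) * (ip ρ x - a) ^ 2) : ℝ) : ℂ) * ph φ x := by
      intro x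
      have e2 : ∀ t, F x t = ((Q x : ℂ) * ph φ x) *
          Complex.exp ((((ip ρ x - a) * t : ℝ) : ℂ) * Complex.I) := by
        intro t
        rw [hF]
        simp only
        rw [ph_add]
        have e3 : Complex.exp (-(Complex.I * ((t * a : ℝ) : ℂ))) * ph (t • ρ) x =
            Complex.exp ((((ip ρ x - a) * t : ℝ) : ℂ) * Complex.I) := by
          unfold ph
          rw [← Complex.exp_add, ip_smul_left]
          congr 1
          push_cast
          ring
        rw [← e3]
        ring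
      simp only [e2]
      rw [integral_const_mul]
      have h1 := ProbabilityTheory.charFun_gaussianReal (μ := 0) (v := Real.toNNReal v)
        (ip ρ x - a)
      rw [charFun_apply_real] at h1
      have e4 : ∫ t : ℝ, Complex.exp ((((ip ρ x - a) * t : ℝ) : ℂ) * Complex.I) ∂γ =
          ((Real.exp (-(v / 2) * (ip ρ x - a) ^ 2) : ℝ) : ℂ) := by
        have e5 : ∫ t : ℝ, Complex.exp ((((ip ρ x - a) * t : ℝ) : ℂ) * Complex.I) ∂γ =
            ∫ t : ℝ, Complex.exp (((ip ρ x - a : ℝ) : ℂ) * t * Complex.I) ∂γ := by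
          refine integral_congr_ae (Eventually.of_forall fun t => ?_)
          simp only
          push_cast
          rfl
        rw [e5, h1, Complex.ofReal_exp, Real.coe_toNNReal v hv]
        congr 1
        push_cast
        ring
      rw [e4]
      push_cast
      ring
    have e6 : ∀ t, ∑' x, F x t =
        Complex.exp (-(Complex.I * ((t * a : ℝ) : ℂ))) * ft Q (φ + t • ρ) := by
      intro t
      rw [hF]
      simp only
      rw [tsum_mul_left]
      rfl
    simp only [e1, e6] at hs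
    exact hs.tsum_eq
  refine ⟨hsum a h.sM, ?_, fun x => ?_, fun φ => ?_⟩
  · have := hsum 0 h.sP
    simpa only [sub_zero] using this
  · rw [h.even, ip_neg, neg_sq]
  · have k0 := key 0 h.sP φ
    simp only [sub_zero, mul_zero, Complex.ofReal_zero, neg_zero, Complex.exp_zero,
      one_mul] at k0
    rw [key a h.sM φ, k0]
    have e1 : ∀ t : ℝ, ft P (φ + t • ρ) = (((ft P (φ + t • ρ)).re : ℝ) : ℂ) := fun t =>
      ft_eq_re h.sP h.even _
    have hc : Continuous fun t : ℝ => φ + t • ρ := by fun_prop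
    rw [integral_congr_ae (Eventually.of_forall e1), integral_complex_ofReal, Complex.ofReal_re,
      ← integral_const_mul]
    refine (norm_integral_le_integral_norm _).trans ?_
    refine integral_mono ?_ ?_ fun t => ?_
    · refine Integrable.of_bound (C := ∑' x, |M x|) ?_ (Eventually.of_forall fun t => ?_)
      · refine Continuous.aestronglyMeasurable ?_
        exact (Continuous.mul (by fun_prop) ((ft_cont h.sM).comp hc)).norm
      · rw [norm_norm, norm_mul, show -(Complex.I * ((t * a : ℝ) : ℂ)) =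
          ((-(t * a) : ℝ) : ℂ) * Complex.I by push_cast; ring, Complex.norm_exp_ofReal_mul_I,
          one_mul]
        exact ft_norm_le h.sM _
    · refine Integrable.of_bound (C := |C| * ∑' x, |P x|) ?_ (Eventually.of_forall fun t => ?_)
      · exact (continuous_const.mul (Complex.continuous_re.comp
          ((ft_cont h.sP).comp hc))).aestronglyMeasurable
      · rw [norm_mul, Real.norm_eq_abs]
        exact mul_le_mul_of_nonneg_left ((Complex.abs_re_le_norm _).trans (ft_norm_le h.sP _))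
          (abs_nonneg _)
    · simp only
      rw [norm_mul, show -(Complex.I * ((t * a : ℝ) : ℂ)) =
          ((-(t * a) : ℝ) : ℂ) * Complex.I by push_cast; ring, Complex.norm_exp_ofReal_mul_I,
          one_mul]
      exact h.le _

end Vale.Agent.P159.H513
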