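import Vale.Agent.P159.H513.Dom3
import Vale.Agent.P159.TM.H104.Mass

/-!
The general block domination: massive heights, gradient weights split into blocks of edges, a real
background `F` with `m (F - w) = div c`. The partition function is at most the one of the zero
background times `exp (- ∑ m (F² - w²) / 2)` times the product over the blocks of the ratios of the
tilted partition functions of free currents.
-/

open MeasureTheory Filter Topology

namespace Vale.Agent.P159.H513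

open Vale.Agent.P159 Vale.Agent.P159.H353 Vale.Agent.P159.R2.H254
open Vale.Agent.P159.TM.H129 (circ circ_exp ip ip_neg tr ip_tr tor gauss_cos summable_gauss)
open Vale.Agent.P159.T1.H934 Vale.Agent.P159.T1.H731
open Vale.Agent.P159.TM.H870 (gr Zr)


variable {A : Type} [Fintype A]

/-- ratio of the tilted partition functions of the currents in `Γ` -/
noncomputable def rat {E : Type} [Fintype E] (J : E → ℝ) (Γ : AddSubgroup (E → ℤ))
    (c : E → ℝ) : ℝ := SG J Γ c 0 / SG J Γ 0 0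

lemma rat_pos {E : Type} [Fintype E] {J : E → ℝ} (hJ : ∀ e, 0 ≤ J e) (Γ : AddSubgroup (E → ℤ))
    (c : E → ℝ) : 0 < rat J Γ c := div_pos (SG_pos hJ Γ c) (SG_pos hJ Γ 0)

variable {ι : Type} {Eb : ι → Type} [∀ i, Fintype (Eb i)]

/-- **many blocks** -/
theorem Dom.blocks (D : ∀ i, Eb i → A → ℤ) {J : ∀ i, Eb i → ℝ} (hJ : ∀ i e, 0 ≤ J i e)
    (Γ : ∀ i, AddSubgroup (Eb i → ℤ)) (c : ∀ i, Eb i → ℝ) {C : ℝ} {M P : (A → ℤ) → ℝ}
    (h : Dom C M P) (s : Finset ι) :
    Dom (C * ∏ i ∈ s, rat (J i) (Γ i) (c i))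
      (fun x => M x * ∏ i ∈ s, gw' (J i) (Γ i) (c i) (TM.H129.nn (D i) x))
      (fun x => P x * ∏ i ∈ s, gw' (J i) (Γ i) 0 (TM.H129.nn (D i) x)) := by
  classical
  induction s using Finset.induction_on with
  | empty => simpa using h
  | insert a s ha ih =>
    have h1 := ih.mul (D a) (Dom.currents (hJ a) (Γ a) (c a))
    have e1 : C * ∏ i ∈ insert a s, rat (J i) (Γ i) (c i) =
        C * (∏ i ∈ s, rat (J i) (Γ i) (c i)) * (SG (J a) (Γ a) (c a) 0 / SG (J a) (Γ a) 0 0) := by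
      rw [Finset.prod_insert ha]
      unfold rat
      ring
    have e2 : ∀ c : ∀ i, Eb i → ℝ, ∀ Q : (A → ℤ) → ℝ,
        (fun x => Q x * ∏ i ∈ insert a s, gw' (J i) (Γ i) (c i) (TM.H129.nn (D i) x)) =
        fun x => Q x * (∏ i ∈ s, gw' (J i) (Γ i) (c i) (TM.H129.nn (D i) x)) *
          gw' (J a) (Γ a) (c a) (TM.H129.nn (D a) x) := by
      intro c Q
      funext x
      rw [Finset.prod_insert ha]
      ring
    rw [e1, e2 c M, e2 (fun _ => 0) P]
    exact h1

/-- the weight of the heights -/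
noncomputable def wB [Fintype ι] (D : ∀ i, Eb i → A → ℤ) (J : ∀ i, Eb i → ℝ) (h : A → ℤ) : ℝ :=
  ∏ i, ∏ e, wI (J i e) (TM.H129.nn (D i) h e)

/-- **BLOCK DOMINATION** -/
theorem block_dom [Fintype ι] (D : ∀ i, Eb i → A → ℤ) {J : ∀ i, Eb i → ℝ}
    (hJ : ∀ i e, 0 ≤ J i e) (Γ : ∀ i, AddSubgroup (Eb i → ℤ))
    (hΓ : ∀ i h, TM.H129.nn (D i) h ∈ Γ i) (c : ∀ i, Eb i → ℝ) {m : A → ℝ} (hm : ∀ x, 0 < m x)
    (F w : A → ℝ) (hdiv : ∀ x, m x * (F x - w x) = ∑ i, ∑ e, c i e * D i e x) :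
    Zr (wB D J) m F ≤ Real.exp (-(∑ x, m x / 2 * (F x ^ 2 - w x ^ 2))) *
      (∏ i, rat (J i) (Γ i) (c i)) * Zr (wB D J) m 0 := by
  classical
  have h1 := (Dom.blocks D hJ Γ c (Dom.mass hm w) Finset.univ).total
  rw [one_mul] at h1
  have e0 : ∀ h : A → ℤ, ∀ i, gw' (J i) (Γ i) (c i) (TM.H129.nn (D i) h) =
      (∏ e, wI (J i e) (TM.H129.nn (D i) h e)) * Real.exp (∑ e, c i e * (TM.H129.nn (D i) h e : ℝ)) := by
    intro h i
    unfold gw' T1.H731.wt
    rw [if_pos (hΓ i h)]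
  have e0' : ∀ h : A → ℤ, ∀ i, gw' (J i) (Γ i) 0 (TM.H129.nn (D i) h) =
      (∏ e, wI (J i e) (TM.H129.nn (D i) h e)) := by
    intro h i
    unfold gw' T1.H731.wt
    rw [if_pos (hΓ i h)]
    simp
  have e1 : ∀ h : A → ℤ, gm m w h = gr m h w := by
    intro h
    unfold gm gr
    rw [← Real.exp_sum, ← Finset.sum_neg_distrib]
    congr 1
    exact Finset.sum_congr rfl fun x _ => by ring
  have e1' : ∀ h : A → ℤ, gm m 0 h = gr m h 0 := by
    intro h
    unfold gm gr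
    rw [← Real.exp_sum, ← Finset.sum_neg_distrib]
    congr 1
    exact Finset.sum_congr rfl fun x _ => by ring
  have e2 : ∀ h : A → ℤ, ∑ i, ∑ e, c i e * (TM.H129.nn (D i) h e : ℝ) =
      ∑ x, m x * (F x - w x) * (h x : ℝ) := by
    intro h
    simp only [hdiv]
    unfold Vale.Agent.P159.TM.H129.nn
    push_cast
    simp only [Finset.mul_sum, Finset.sum_mul]
    have e3 : ∀ i, ∑ e, ∑ x, c i e * ((D i e x : ℝ) * (h x : ℝ)) =
        ∑ x, ∑ e, c i e * (D i e x : ℝ) * (h x : ℝ) := fun i => by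
      rw [Finset.sum_comm]
      exact Finset.sum_congr rfl fun x _ => Finset.sum_congr rfl fun e _ => by ring
    rw [Finset.sum_congr rfl fun i _ => e3 i, Finset.sum_comm]
  have e3 : ∀ h : A → ℤ, gr m h F = gr m h w * Real.exp (∑ x, m x * (F x - w x) * (h x : ℝ)) *
      Real.exp (-(∑ x, m x / 2 * (F x ^ 2 - w x ^ 2))) := by
    intro h
    unfold gr
    rw [← Real.exp_add, ← Real.exp_add]
    congr 1
    rw [← Finset.sum_neg_distrib, ← Finset.sum_neg_distrib, ← Finset.sum_neg_distrib,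
      ← Finset.sum_add_distrib, ← Finset.sum_add_distrib]
    exact Finset.sum_congr rfl fun x _ => by ring
  have e4 : ∀ h : A → ℤ, wB D J h * gr m h F =
      Real.exp (-(∑ x, m x / 2 * (F x ^ 2 - w x ^ 2))) *
        (gm m w h * ∏ i, gw' (J i) (Γ i) (c i) (TM.H129.nn (D i) h)) := by
    intro h
    rw [e3, e1, ← e2, Real.exp_sum]
    simp only [e0]
    rw [Finset.prod_mul_distrib]
    unfold wB
    ring
  have e5 : ∀ h : A → ℤ, gm m 0 h * ∏ i, gw' (J i) (Γ i) 0 (TM.H129.nn (D i) h) =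
      wB D J h * gr m h 0 := by
    intro h
    rw [e1']
    simp only [e0']
    unfold wB
    ring
  have e6 : Zr (wB D J) m F = Real.exp (-(∑ x, m x / 2 * (F x ^ 2 - w x ^ 2))) *
      ∑' h, gm m w h * ∏ i, gw' (J i) (Γ i) (c i) (TM.H129.nn (D i) h) := by
    unfold Zr
    rw [← tsum_mul_left]
    exact tsum_congr e4
  have e7 : Zr (wB D J) m 0 = ∑' h, gm m 0 h * ∏ i, gw' (J i) (Γ i) 0 (TM.H129.nn (D i) h) := by
    unfold Zr
    exact tsum_congr fun h => (e5 h).symm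
  rw [e6, e7, mul_assoc]
  exact mul_le_mul_of_nonneg_left h1 (Real.exp_pos _).le

end Vale.Agent.P159.H513
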