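import Vale.Agent.P159.H513.TorG
import Vale.Agent.P159.H789.Tor

/-!
**E2 on the torus.** `N = n l`, any coercive symmetric mass form `M`, any source `J = M w + div c`:
`log Z(J) - log Z(0) ≤ <w, M w> / 2 + (1 + η) / 2 * stiff l b * |c|² + errors`.
-/

set_option linter.all false

open MeasureTheory Filter Topology Matrix

namespace Vale.Agent.P159.H513

open Vale.Agent.P159 Vale.Agent.P159.H353 Vale.Agent.P159.R2.H254 Vale.Agent.P159.H950
open Vale.Agent.P159.T1.H934 Vale.Agent.P159.T1.H731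
open Vale.Agent.P159.H37 (qf bf re wM ZM Zs)
open Vale.Agent.P159.TM.SpecC (Tor wT)
open Vale.Agent.P159.TM.H104 (Lg)

/-- squared norm of an edge field -/
noncomputable def nC {N : ℕ} [NeZero N] (c : Tor N → Bool → ℝ) : ℝ :=
  ∑ x, (c x true ^ 2 + c x false ^ 2)

/-- squared norm in the block `k` -/
noncomputable def nK (N l n : ℕ) (c : Tor N → Bool → ℝ) (k : Fin n × Fin n) : ℝ :=
  ∑ p : ↥(blk (0, 0) l), (c (st N l n k p) true ^ 2 + c (st N l n k p) false ^ 2)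

/-- mean in the block `k` -/
noncomputable def mK (N l n : ℕ) (c : Tor N → Bool → ℝ) (k : Fin n × Fin n) (t : Bool) : ℝ :=
  (∑ p : ↥(blk (0, 0) l), c (st N l n k p) t) / (l : ℝ) ^ 2

/-- oscillation in the block `k` -/
noncomputable def oK (N l n : ℕ) (c : Tor N → Bool → ℝ) (k : Fin n × Fin n) : ℝ :=
  ∑ p : ↥(blk (0, 0) l), ((c (st N l n k p) true - mK N l n c k true) ^ 2 +
    (c (st N l n k p) false - mK N l n c k false) ^ 2)

lemma nK_nonneg (N l n : ℕ) (c : Tor N → Bool → ℝ) (k : Fin n × Fin n) : 0 ≤ nK N l n c k :=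
  Finset.sum_nonneg fun p _ => by positivity

lemma oK_nonneg (N l n : ℕ) (c : Tor N → Bool → ℝ) (k : Fin n × Fin n) : 0 ≤ oK N l n c k :=
  Finset.sum_nonneg fun p _ => by positivity

lemma nC_nonneg {N : ℕ} [NeZero N] (c : Tor N → Bool → ℝ) : 0 ≤ nC c :=
  Finset.sum_nonneg fun p _ => by positivity

lemma sum_nK {N l n : ℕ} [NeZero N] (hN : N = n * l) (c : Tor N → Bool → ℝ) :
    ∑ k, nK N l n c k = nC c := by
  unfold nK nC
  rw [sum_st hN]

lemma cK_sq (N l n : ℕ) (c : Tor N → Bool → ℝ) (k : Fin n × Fin n) :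
    ∑ e, cK N l n c k e ^ 2 = nK N l n c k := by
  unfold nK
  rw [Fintype.sum_prod_type]
  refine Finset.sum_congr rfl fun p _ => ?_
  rw [Fintype.sum_bool]
  unfold cK
  simp

lemma oB_cK (N l n : ℕ) (c : Tor N → Bool → ℝ) (k : Fin n × Fin n) :
    oB (cK N l n c k) = oK N l n c k := by
  unfold oB oK
  rw [Fintype.sum_prod_type]
  refine Finset.sum_congr rfl fun p _ => ?_
  rw [Fintype.sum_bool]
  have e1 : mB (cK N l n c k) true = mK N l n c k true := by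
    unfold mB mK cK
    simp
  have e2 : mB (cK N l n c k) false = -mK N l n c k false := by
    unfold mB mK cK
    simp only [Bool.false_eq_true, if_false, Finset.sum_neg_distrib, neg_div]
  rw [e1, e2]
  unfold cK
  simp only [if_true, Bool.false_eq_true, if_false]
  ring

/-- the error exponent of E2 -/
noncomputable def eE2 (N l n : ℕ) [NeZero N] (b η : ℝ) (c : Tor N → Bool → ℝ) : ℝ :=
  (1 + η) / 2 * (stiff l b * nC c) + (1 + 1 / η) / 2 * (b * ∑ k, oK N l n c k) +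
    3 * max b 1 ^ 2 * ∑ k, nK N l n c k ^ 2

variable {N l n : ℕ} [NeZero N] {b : ℝ}

/-- the product of the ratios of the blocks -/
lemma prod_rat_le (hN : N = n * l) (hb : 0 ≤ b) (hl : 1 ≤ l) (c : Tor N → Bool → ℝ)
    (hc : ∀ x t, |c x t| ≤ 1) {η : ℝ} (hη : 0 < η) :
    ∏ k, rat (fun _ : EB l => b) (GX (chB l)) (cK N l n c k) ≤ Real.exp (eE2 N l n b η c) := by
  have hs : 0 ≤ stiff l b := by
    rcases hb.eq_or_lt with h | h
    · have h1 := QB_le (b := b) hb hl (fun _ => (1 : ℝ)) (η := 1) one_pos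
      have h2 := QB_const b l hl 1 0
      have h3 := Qform_nonneg muInf (fun _ : EB l => b) (chB l) G_div2 (fun _ => hb)
        (fun e => if e.2 then 0 else 1)
      rw [h2] at h3
      have hl0 : (0 : ℝ) < (l : ℝ) ^ 2 := by
        have : (0 : ℝ) < l := by exact_mod_cast hl
        positivity
      nlinarith
    · exact UJ.h3_stiff_nonneg h hl
  have h1 : ∀ k, rat (fun _ : EB l => b) (GX (chB l)) (cK N l n c k) ≤
      Real.exp ((1 + η) / 2 * (stiff l b * nK N l n c k) + (1 + 1 / η) / 2 * (b * oK N l n c k) +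
        3 * max b 1 ^ 2 * nK N l n c k ^ 2) := by
    intro k
    have h2 := rat_block hb hl (cK N l n c k) (fun e => by
      unfold cK
      split_ifs
      · exact hc _ _
      · rw [abs_neg]; exact hc _ _) hη
    rw [cK_sq, oB_cK] at h2
    refine h2.trans (Real.exp_le_exp.2 ?_)
    have h3 : stiff l b * (nK N l n c k - oK N l n c k) ≤ stiff l b * nK N l n c k :=
      mul_le_mul_of_nonneg_left (by linarith [oK_nonneg N l n c k]) hs
    have h4 := mul_le_mul_of_nonneg_left h3 (show 0 ≤ (1 + η) / 2 by linarith)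
    have e5 : 3 * (max b 1 * nK N l n c k) ^ 2 = 3 * max b 1 ^ 2 * nK N l n c k ^ 2 := by ring
    linarith
  refine (Finset.prod_le_prod (fun k _ => (rat_pos (fun _ => hb) _ _).le) fun k _ => h1 k).trans ?_
  rw [← Real.exp_sum]
  refine Real.exp_le_exp.2 (le_of_eq ?_)
  unfold eE2
  rw [Finset.sum_add_distrib, Finset.sum_add_distrib, ← Finset.mul_sum, ← Finset.mul_sum,
    ← Finset.mul_sum, ← Finset.mul_sum, ← Finset.mul_sum, sum_nK hN]

/-- **E2, all Fourier modes** -/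
theorem e2_Dom (hN : N = n * l) (hb : 0 ≤ b) (hl : 1 ≤ l) {M : Matrix (Tor N) (Tor N) ℝ}
    (hMs : Mᵀ = M) {m0 : ℝ} (hm0 : 0 < m0) (hM : ∀ u : Tor N → ℝ, m0 * ∑ x, u x ^ 2 ≤ qf M u)
    (J w : Tor N → ℝ) (c : Tor N → Bool → ℝ) (hc : ∀ x t, |c x t| ≤ 1)
    (hJ : ∀ x, J x = (M *ᵥ w) x + dvT c x) {η : ℝ} (hη : 0 < η) :
    Dom (Real.exp (qf M w / 2 + eE2 N l n b η c))
      (fun h => wM (wT b N) M h * Real.exp (∑ x, J x * (h x : ℝ))) (wM (wT b N) M) := by
  have h := src_Dom (Dk N l n) (K := fun _ _ => b) (fun _ _ => hb) (fun _ => GX (chB l))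
    (fun k h => by rw [nn_Dk]; exact cur_mem _) (cK N l n c) hMs hm0 hM J w (fun x => by
      rw [hJ x, sum_Dk hN])
  rw [← wT_blocks hN b] at h
  refine ⟨h.sM, h.sP, h.even, fun φ => (h.le φ).trans ?_⟩
  have h0 : 0 ≤ (ft (wM (wT b N) M) φ).re := by
    have h1 := h.le φ
    have h2 : 0 < Real.exp (qf M w / 2) *
        ∏ k, rat (fun _ : EB l => b) (GX (chB l)) (cK N l n c k) :=
      mul_pos (Real.exp_pos _) (Finset.prod_pos fun k _ => rat_pos (fun _ => hb) _ _)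
    have h3 := (norm_nonneg _).trans h1
    exact nonneg_of_mul_nonneg_right h3 h2
  refine mul_le_mul_of_nonneg_right ?_ h0
  rw [Real.exp_add]
  exact mul_le_mul_of_nonneg_left (prod_rat_le hN hb hl c hc hη) (Real.exp_pos _).le

/-- **E2** -/
theorem e2 (hN : N = n * l) (hb : 0 ≤ b) (hl : 1 ≤ l) {M : Matrix (Tor N) (Tor N) ℝ}
    (hMs : Mᵀ = M) {m0 : ℝ} (hm0 : 0 < m0) (hM : ∀ u : Tor N → ℝ, m0 * ∑ x, u x ^ 2 ≤ qf M u)
    (J w : Tor N → ℝ) (c : Tor N → Bool → ℝ) (hc : ∀ x t, |c x t| ≤ 1)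
    (hJ : ∀ x, J x = (M *ᵥ w) x + dvT c x) {η : ℝ} (hη : 0 < η) :
    Zs (wM (wT b N) M) J ≤ Real.exp (qf M w / 2 + eE2 N l n b η c) * Zs (wM (wT b N) M) 0 := by
  have h := (e2_Dom hN hb hl hMs hm0 hM J w c hc hJ hη).total
  have e : ∀ J : Tor N → ℝ, Zs (wM (wT b N) M) J =
      ∑' h, wM (wT b N) M h * Real.exp (∑ x, J x * (h x : ℝ)) := by
    intro J
    unfold H37.Zs TM.H104.T TM.H104.li
    exact tsum_congr fun h => by ring
  rw [e J, e 0]
  simpa using h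

/-- **E2, logarithmic form** -/
theorem e2_Lg (hN : N = n * l) (hb : 0 ≤ b) (hl : 1 ≤ l) {M : Matrix (Tor N) (Tor N) ℝ}
    (hMs : Mᵀ = M) {m0 : ℝ} (hm0 : 0 < m0) (hM : ∀ u : Tor N → ℝ, m0 * ∑ x, u x ^ 2 ≤ qf M u)
    (J w : Tor N → ℝ) (c : Tor N → Bool → ℝ) (hc : ∀ x t, |c x t| ≤ 1)
    (hJ : ∀ x, J x = (M *ᵥ w) x + dvT c x) {η : ℝ} (hη : 0 < η) :
    Lg (wM (wT b N) M) J - Lg (wM (wT b N) M) 0 ≤ qf M w / 2 + eE2 N l n b η c := by
  have hE := H789.em_wM_wT hb hm0 hM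
  have h := e2 hN hb hl hMs hm0 hM J w c hc hJ hη
  have h1 := H37.Zs_pos hE J
  have h0 := H37.Zs_pos hE 0
  have h2 := Real.log_le_log h1 h
  rw [Real.log_mul (Real.exp_pos _).ne' h0.ne', Real.log_exp] at h2
  unfold Lg
  unfold H37.Zs at h2
  linarith

/-- **E2 for a real background**: `M (F - w) = div c` -/
theorem e2_ZM (hN : N = n * l) (hb : 0 ≤ b) (hl : 1 ≤ l) {M : Matrix (Tor N) (Tor N) ℝ}
    (hMs : Mᵀ = M) {m0 : ℝ} (hm0 : 0 < m0) (hM : ∀ u : Tor N → ℝ, m0 * ∑ x, u x ^ 2 ≤ qf M u)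
    (F w : Tor N → ℝ) (c : Tor N → Bool → ℝ) (hc : ∀ x t, |c x t| ≤ 1)
    (hJ : ∀ x, (M *ᵥ F) x = (M *ᵥ w) x + dvT c x) {η : ℝ} (hη : 0 < η) :
    ZM (wT b N) M F ≤ Real.exp (-((qf M F - qf M w) / 2) + eE2 N l n b η c) *
      ZM (wT b N) M 0 := by
  have h := e2 hN hb hl hMs hm0 hM (M *ᵥ F) w c hc hJ hη
  rw [H37.ZM_eq _ hMs, H37.ZM_eq _ hMs]
  have e0 : Real.exp (-(qf M 0 / 2)) = 1 := by
    rw [H37.qf_zero_vec]; simp
  rw [e0, one_mul, Matrix.mulVec_zero]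
  have h2 := mul_le_mul_of_nonneg_left h (Real.exp_pos (-(qf M F / 2))).le
  refine h2.trans (le_of_eq ?_)
  rw [← mul_assoc, ← Real.exp_add]
  congr 2
  ring

/-- crude form of the fourth order error -/
lemma sum_nK_sq (hN : N = n * l) (c : Tor N → Bool → ℝ) {δ : ℝ} (hδ : ∀ x t, |c x t| ≤ δ) :
    ∑ k, nK N l n c k ^ 2 ≤ 2 * (l * δ) ^ 2 * nC c := by
  have hc : (Fintype.card ↥(blk (0, 0) l) : ℝ) = (l : ℝ) ^ 2 := by
    rw [Fintype.card_coe, card_blk]
    push_cast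
    rfl
  have h1 : ∀ k, nK N l n c k ≤ 2 * (l * δ) ^ 2 := by
    intro k
    have h2 : nK N l n c k ≤ ∑ _p : ↥(blk (0, 0) l), 2 * δ ^ 2 := by
      refine Finset.sum_le_sum fun p _ => ?_
      have h3 : ∀ x t, c x t ^ 2 ≤ δ ^ 2 := fun x t => by
        rw [← sq_abs]
        exact pow_le_pow_left₀ (abs_nonneg _) (hδ x t) 2
      linarith [h3 (st N l n k p) true, h3 (st N l n k p) false]
    refine h2.trans (le_of_eq ?_)
    rw [Finset.sum_const, Finset.card_univ, nsmul_eq_mul, hc]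
    ring
  rw [← sum_nK hN, Finset.mul_sum]
  refine Finset.sum_le_sum fun k _ => ?_
  rw [pow_two]
  exact mul_le_mul_of_nonneg_right (h1 k) (nK_nonneg N l n c k)

/-- the oscillation is at most the squared norm -/
lemma oK_le (hl : 1 ≤ l) (c : Tor N → Bool → ℝ) (k : Fin n × Fin n) :
    oK N l n c k ≤ nK N l n c k := by
  rw [← oB_cK, ← cK_sq, oB_eq hl]
  have : 0 ≤ (l : ℝ) ^ 2 * (mB (cK N l n c k) false ^ 2 + mB (cK N l n c k) true ^ 2) := by
    positivity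
  linarith

/-- bound of the oscillation by any reference constants -/
lemma oK_le_ref (hl : 1 ≤ l) (c : Tor N → Bool → ℝ) (k : Fin n × Fin n) (a : Bool → ℝ) :
    oK N l n c k ≤ ∑ p : ↥(blk (0, 0) l), ((c (st N l n k p) true - a true) ^ 2 +
      (c (st N l n k p) false - a false) ^ 2) := by
  have hl0 : (0 : ℝ) < (l : ℝ) ^ 2 := by
    have : (0 : ℝ) < l := by exact_mod_cast hl
    positivity
  have hc : (Fintype.card ↥(blk (0, 0) l) : ℝ) = (l : ℝ) ^ 2 := by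
    rw [Fintype.card_coe, card_blk]
    push_cast
    rfl
  unfold oK
  rw [Finset.sum_add_distrib, Finset.sum_add_distrib]
  have key : ∀ t, ∑ p : ↥(blk (0, 0) l), (c (st N l n k p) t - mK N l n c k t) ^ 2 ≤
      ∑ p : ↥(blk (0, 0) l), (c (st N l n k p) t - a t) ^ 2 := by
    intro t
    have e1 : ∑ p : ↥(blk (0, 0) l), c (st N l n k p) t = (l : ℝ) ^ 2 * mK N l n c k t := by
      unfold mK
      field_simp
    have e2 : ∀ r : ℝ, ∑ p : ↥(blk (0, 0) l), (c (st N l n k p) t - r) ^ 2 =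
        ∑ p : ↥(blk (0, 0) l), c (st N l n k p) t ^ 2 - 2 * r * ((l : ℝ) ^ 2 * mK N l n c k t) +
          (l : ℝ) ^ 2 * r ^ 2 := by
      intro r
      have e3 : ∀ p : ↥(blk (0, 0) l), (c (st N l n k p) t - r) ^ 2 =
          c (st N l n k p) t ^ 2 - 2 * r * c (st N l n k p) t + r ^ 2 := fun p => by ring
      simp only [e3, Finset.sum_add_distrib, Finset.sum_sub_distrib, ← Finset.mul_sum, e1,
        Finset.sum_const, Finset.card_univ, nsmul_eq_mul, hc]
    rw [e2, e2]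
    nlinarith [mul_nonneg hl0.le (sq_nonneg (a t - mK N l n c k t))]
  exact add_le_add (key true) (key false)

end Vale.Agent.P159.H513
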