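import Vale.Agent.P159.H513.MassF

/-!
Dislocations. The sum over a class of currents modulo `Γ`, with any real tilt, is dominated by the
sum over `Γ` itself; then the block domination of the weights with a dislocation by the weights
without.
-/

set_option linter.all false

open MeasureTheory Filter Topology Matrix

namespace Vale.Agent.P159.H513

open Vale.Agent.P159 Vale.Agent.P159.H353 Vale.Agent.P159.R2.H254
open Vale.Agent.P159.TM.H129 (circ circ_exp ip ip_neg tr ip_tr tor gauss_cos summable_gauss)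
open Vale.Agent.P159.T1.H934 Vale.Agent.P159.T1.H731
open Vale.Agent.P159.H37 (qf bf re wM ZM qf_eq qf_sub_vec qf_add_mat qf_smul_one)

variable {A E : Type} [Fintype A] [Fintype E]

open Classical in
/-- the tilted weight of the currents which are `≡ m` modulo `Γ` -/
noncomputable def gx (J : E → ℝ) (Γ : AddSubgroup (E → ℤ)) (c : E → ℝ) (m n : E → ℤ) : ℝ :=
  if n - m ∈ Γ then wt J c n else 0

lemma gx_nonneg {J : E → ℝ} (hJ : ∀ e, 0 ≤ J e) (Γ : AddSubgroup (E → ℤ)) (c : E → ℝ)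
    (m n : E → ℤ) : 0 ≤ gx J Γ c m n := by
  unfold gx
  split_ifs
  · exact wt_nonneg hJ c n
  · exact le_rfl

lemma gx_summable {J : E → ℝ} (hJ : ∀ e, 0 ≤ J e) (Γ : AddSubgroup (E → ℤ)) (c : E → ℝ)
    (m : E → ℤ) : Summable (gx J Γ c m) := SG_summable hJ Γ c m

lemma SG_eq_gx (J : E → ℝ) (Γ : AddSubgroup (E → ℤ)) (c : E → ℝ) (m : E → ℤ) :
    SG J Γ c m = ∑' n, gx J Γ c m n := rfl

lemma gx_zero (J : E → ℝ) (Γ : AddSubgroup (E → ℤ)) (c : E → ℝ) : gx J Γ c 0 = gw' J Γ c := by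
  funext n
  unfold gx gw'
  rw [sub_zero]

/-- a class of `Γ` depends only on the class -/
lemma SG_mem (J : E → ℝ) (Γ : AddSubgroup (E → ℤ)) (c : E → ℝ) {m : E → ℤ} (hm : m ∈ Γ) :
    SG J Γ c m = SG J Γ c 0 := by
  classical
  unfold SG
  refine tsum_congr fun n => ?_
  have : n - m ∈ Γ ↔ n - 0 ∈ Γ := by
    rw [sub_zero]
    constructor
    · intro h
      simpa using Γ.add_mem h hm
    · intro h
      exact Γ.sub_mem h hm
  simp only [this]

/-- **complex two replica inequality for classes** -/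
theorem two_cos_class {J : E → ℝ} (hJ : ∀ e, 0 ≤ J e) (Γ : AddSubgroup (E → ℤ))
    (h2 : ∀ n, n + n ∈ Γ → n ∈ Γ) (c θ : E → ℝ) (m : E → ℤ) (γ : ℝ) :
    (∑' n, gx J Γ c m n * Real.cos (ip θ n + γ)) * SG J Γ 0 0 ≤
      SG J Γ c m * ∑' n, gw' J Γ 0 n * Real.cos (ip θ n) := by
  classical
  set D : (E → ℤ) →+ (E → ℤ) := AddMonoidHom.id (E → ℤ) with hD
  have hDi : Function.Injective D := Function.injective_id
  set g : (E → ℤ) → ℝ := fun h => (if h - m ∈ Γ then 1 else 0) *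
    (Real.exp (1 / 2 * ∑ e, c e * (h e : ℝ)) * Real.sin (ip θ h / 2 + γ / 2)) with hg
  have hgb : ∀ h, |g h| ≤ 1 * gw (Real.exp (∑ e, |c e|)) (D h) := by
    intro h
    have h1 : |(if h - m ∈ Γ then (1 : ℝ) else 0)| ≤ 1 := by
      split_ifs <;> norm_num
    have h3 := exp_ln_le D c h
    have h4 : Real.exp (1 / 2 * ∑ e, c e * (h e : ℝ)) ≤ Real.exp |ln D c h| := by
      apply Real.exp_le_exp.2
      have h5 : ln D c h = ∑ e, c e * (h e : ℝ) := rfl
      rw [h5]
      have h6 := le_abs_self (∑ e, c e * (h e : ℝ))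
      have h7 := abs_nonneg (∑ e, c e * (h e : ℝ))
      linarith
    have h5 : |Real.exp (1 / 2 * ∑ e, c e * (h e : ℝ)) * Real.sin (ip θ h / 2 + γ / 2)| ≤
        gw (Real.exp (∑ e, |c e|)) (D h) := by
      rw [abs_mul, abs_of_pos (Real.exp_pos _)]
      exact (mul_le_of_le_one_right (Real.exp_pos _).le (Real.abs_sin_le_one _)).trans
        (h4.trans h3)
    simp only [hg]
    rw [abs_mul]
    exact mul_le_mul h1 h5 (abs_nonneg _) zero_le_one
  have h0 := dup_gen (D := D) hDi hJ (K := 0) (fun _ => le_rfl) (one_le_rho c) hgb 0 (by simp)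
  have sA : Summable fun n : E → ℤ => |gx J Γ c m n| := (gx_summable hJ Γ c m).abs
  have sB : Summable fun n : E → ℤ => |gx J Γ c m n * Real.cos (ip θ n + γ)| :=
    Summable.of_nonneg_of_le (fun _ => abs_nonneg _) (fun n => by
      rw [abs_mul]; exact mul_le_of_le_one_right (abs_nonneg _) (Real.abs_cos_le_one _)) sA
  have sC : Summable fun n : E → ℤ => |gw' J Γ 0 n| := (gw'_summable hJ Γ 0).abs
  have sD : Summable fun n : E → ℤ => |gw' J Γ 0 n * Real.cos (ip θ n)| :=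
    Summable.of_nonneg_of_le (fun _ => abs_nonneg _) (fun n => by
      rw [abs_mul]; exact mul_le_of_le_one_right (abs_nonneg _) (Real.abs_cos_le_one _)) sC
  have hs := ((hasSum_mul_pair sA sD).sub (hasSum_mul_pair sB sC)).mul_left (1 / 2)
  have e : ∀ x : (E → ℤ) × (E → ℤ), (W D (J + 0) x.1 * W D J x.2 +
      0 * (W D J x.1 * W D (J + 0) x.2)) * (g (x.1 + x.2) * g (x.1 - x.2)) =
      1 / 2 * (gx J Γ c m x.1 * (gw' J Γ 0 x.2 * Real.cos (ip θ x.2)) -
        gx J Γ c m x.1 * Real.cos (ip θ x.1 + γ) * gw' J Γ 0 x.2) := by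
    rintro ⟨x, y⟩
    simp only
    have w1 : W D (J + 0) x = ∏ e, wI (J e) (x e) := by
      unfold W
      simp [hD]
    have w2 : W D J y = ∏ e, wI (J e) (y e) := rfl
    have hexp : Real.exp (1 / 2 * ∑ e, c e * ((x + y) e : ℝ)) *
        Real.exp (1 / 2 * ∑ e, c e * ((x - y) e : ℝ)) = Real.exp (∑ e, c e * (x e : ℝ)) := by
      rw [← Real.exp_add, ← mul_add, ← Finset.sum_add_distrib]
      congr 1
      rw [Finset.mul_sum]
      refine Finset.sum_congr rfl fun e _ => ?_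
      simp only [Pi.add_apply, Pi.sub_apply]
      push_cast
      ring
    have hsin : Real.sin (ip θ (x + y) / 2 + γ / 2) * Real.sin (ip θ (x - y) / 2 + γ / 2) =
        (Real.cos (ip θ y) - Real.cos (ip θ x + γ)) / 2 := by
      have i1 : ip θ (x + y) = ip θ x + ip θ y := by
        unfold ip
        rw [← Finset.sum_add_distrib]
        exact Finset.sum_congr rfl fun e _ => by rw [Pi.add_apply]; push_cast; ring
      have i2 : ip θ (x - y) = ip θ x - ip θ y := by
        unfold ip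
        rw [← Finset.sum_sub_distrib]
        exact Finset.sum_congr rfl fun e _ => by rw [Pi.sub_apply]; push_cast; ring
      rw [i1, i2]
      have e3 := Real.cos_add ((ip θ x + ip θ y) / 2 + γ / 2) ((ip θ x - ip θ y) / 2 + γ / 2)
      have e4 := Real.cos_sub ((ip θ x + ip θ y) / 2 + γ / 2) ((ip θ x - ip θ y) / 2 + γ / 2)
      rw [show (ip θ x + ip θ y) / 2 + γ / 2 + ((ip θ x - ip θ y) / 2 + γ / 2) =
        ip θ x + γ by ring] at e3
      rw [show (ip θ x + ip θ y) / 2 + γ / 2 - ((ip θ x - ip θ y) / 2 + γ / 2) =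
        ip θ y by ring] at e4
      linarith
    have key : (if x + y - m ∈ Γ then (1 : ℝ) else 0) * (if x - y - m ∈ Γ then 1 else 0) =
        (if x - m ∈ Γ then (1 : ℝ) else 0) * (if y ∈ Γ then 1 else 0) := by
      have p1 : (x + y - m ∈ Γ ∧ x - y - m ∈ Γ) ↔ (x - m ∈ Γ ∧ y ∈ Γ) := by
        constructor
        · rintro ⟨h3, h4⟩
          have h5 : y ∈ Γ := h2 y (by
            have := Γ.sub_mem h3 h4
            have e5 : x + y - m - (x - y - m) = y + y := by abel
            rwa [e5] at this)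
          refine ⟨?_, h5⟩
          have := Γ.sub_mem h3 h5
          have e5 : x + y - m - y = x - m := by abel
          rwa [e5] at this
        · rintro ⟨h3, h4⟩
          constructor
          · have := Γ.add_mem h3 h4
            have e5 : x - m + y = x + y - m := by abel
            rwa [e5] at this
          · have := Γ.sub_mem h3 h4
            have e5 : x - m - y = x - y - m := by abel
            rwa [e5] at this
      have im : ∀ (P Q : Prop), (if P then (1 : ℝ) else 0) * (if Q then 1 else 0) =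
          if P ∧ Q then 1 else 0 := by
        intro P Q
        by_cases hP : P <;> by_cases hQ : Q <;> simp [hP, hQ]
      rw [im, im]
      simp only [p1]
    have a1 : gx J Γ c m x = (if x - m ∈ Γ then (1 : ℝ) else 0) *
        ((∏ e, wI (J e) (x e)) * Real.exp (∑ e, c e * (x e : ℝ))) := by
      unfold gx T1.H731.wt
      by_cases h : x - m ∈ Γ <;> simp [h]
    have a2 : gw' J Γ 0 y = (if y ∈ Γ then (1 : ℝ) else 0) * ∏ e, wI (J e) (y e) := by
      unfold gw' T1.H731.wt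
      by_cases h : y ∈ Γ <;> simp [h]
    have a3 : g (x + y) * g (x - y) = ((if x + y - m ∈ Γ then (1 : ℝ) else 0) *
        (if x - y - m ∈ Γ then 1 else 0)) * ((Real.exp (1 / 2 * ∑ e, c e * ((x + y) e : ℝ)) *
        Real.exp (1 / 2 * ∑ e, c e * ((x - y) e : ℝ))) *
        (Real.sin (ip θ (x + y) / 2 + γ / 2) * Real.sin (ip θ (x - y) / 2 + γ / 2))) := by
      simp only [hg]
      ring
    rw [a3, key, hexp, hsin, a1, a2, w1, w2]
    ring
  rw [tsum_congr e, hs.tsum_eq] at h0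
  rw [SG_eq_gx J Γ c m, SG_eq J Γ 0]
  linarith

/-- ratio of the tilted partition function of the class of `m` and the one of `Γ` -/
noncomputable def rtx (J : E → ℝ) (Γ : AddSubgroup (E → ℤ)) (c : E → ℝ) (m : E → ℤ) : ℝ :=
  SG J Γ c m / SG J Γ 0 0

lemma rtx_nonneg {J : E → ℝ} (hJ : ∀ e, 0 ≤ J e) (Γ : AddSubgroup (E → ℤ)) (c : E → ℝ)
    (m : E → ℤ) : 0 ≤ rtx J Γ c m := div_nonneg (SG_nonneg hJ Γ c m) (SG_nonneg hJ Γ 0 0)

lemma rtx_mem (J : E → ℝ) (Γ : AddSubgroup (E → ℤ)) (c : E → ℝ) {m : E → ℤ} (hm : m ∈ Γ) :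
    rtx J Γ c m = rat J Γ c := by
  unfold rtx rat
  rw [SG_mem J Γ c hm]

/-- **the tilted currents of a class are dominated by the currents of the group** -/
theorem Dom.cls {J : E → ℝ} (hJ : ∀ e, 0 ≤ J e) (Γ : AddSubgroup (E → ℤ))
    (h2 : ∀ n, n + n ∈ Γ → n ∈ Γ) (c : E → ℝ) (m : E → ℤ) :
    Dom (rtx J Γ c m) (gx J Γ c m) (gw' J Γ 0) := by
  classical
  have hab : Summable fun n => |gx J Γ c m n| := (gx_summable hJ Γ c m).abs
  have hd := Dom.currents hJ Γ 0
  refine ⟨hab, hd.sP, hd.even, fun θ => ?_⟩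
  refine norm_le_of_rot fun γ => ?_
  have e1 : (Complex.exp (Complex.I * (γ : ℝ)) * ft (gx J Γ c m) θ).re =
      ∑' n, gx J Γ c m n * Real.cos (ip θ n + γ) := by
    unfold ft
    rw [← tsum_mul_left, Complex.re_tsum ((summ_term hab θ).mul_left _)]
    refine tsum_congr fun n => ?_
    have e2 : Complex.exp (Complex.I * (γ : ℝ)) * ((gx J Γ c m n : ℂ) * ph θ n) =
        (gx J Γ c m n : ℂ) * Complex.exp (((ip θ n + γ : ℝ) : ℂ) * Complex.I) := by
      unfold ph
      rw [mul_left_comm, ← Complex.exp_add]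
      congr 2
      push_cast
      ring
    rw [e2, Complex.re_ofReal_mul, Complex.exp_ofReal_mul_I_re]
  have h0 := SG_pos hJ Γ 0
  unfold rtx
  rw [e1, div_mul_eq_mul_div, le_div_iff₀ h0, ft_re hd.sP]
  exact two_cos_class hJ Γ h2 c θ m γ

/-- a shift of the currents -/
theorem Dom.shift {C : ℝ} {a b : (E → ℤ) → ℝ} (h : Dom C a b) (m : E → ℤ) :
    Dom C (fun n => a (n + m)) b := by
  have hs : Summable fun n => |a (n + m)| := (Equiv.addRight m).summable_iff.2 h.sM
  refine ⟨hs, h.sP, h.even, fun θ => ?_⟩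
  have e1 : ft (fun n => a (n + m)) θ = ph θ (-m) * ft a θ := by
    unfold ft
    rw [← tsum_mul_left, ← (Equiv.addRight m).tsum_eq (fun n => ph θ (-m) * ((a n : ℂ) * ph θ n))]
    refine tsum_congr fun n => ?_
    simp only [Equiv.coe_addRight]
    have e2 : ph θ (-m) * ph θ (n + m) = ph θ n := by
      unfold ph
      rw [← Complex.exp_add]
      congr 1
      have : ip θ n = ip θ (-m) + ip θ (n + m) := by
        unfold ip
        rw [← Finset.sum_add_distrib]
        refine Finset.sum_congr rfl fun e _ => ?_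
        rw [Pi.neg_apply, Pi.add_apply]
        push_cast
        ring
      rw [this]
      push_cast
      ring
    rw [← e2]
    ring
  rw [e1, norm_mul, norm_ph, one_mul]
  exact h.le θ

variable {ι : Type} {Eb : ι → Type} [∀ i, Fintype (Eb i)]

/-- **many blocks, with dislocations** -/
theorem Dom.blocksD (D : ∀ i, Eb i → A → ℤ) {J : ∀ i, Eb i → ℝ} (hJ : ∀ i e, 0 ≤ J i e)
    (Γ : ∀ i, AddSubgroup (Eb i → ℤ)) (h2 : ∀ i n, n + n ∈ Γ i → n ∈ Γ i)
    (c : ∀ i, Eb i → ℝ) (η : ∀ i, Eb i → ℤ) {C : ℝ} {M P : (A → ℤ) → ℝ}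
    (h : Dom C M P) (s : Finset ι) :
    Dom (C * ∏ i ∈ s, rtx (J i) (Γ i) (c i) (η i))
      (fun x => M x * ∏ i ∈ s, gx (J i) (Γ i) (c i) (η i) (TM.H129.nn (D i) x + η i))
      (fun x => P x * ∏ i ∈ s, gw' (J i) (Γ i) 0 (TM.H129.nn (D i) x)) := by
  classical
  induction s using Finset.induction_on with
  | empty => simpa using h
  | insert a s ha ih =>
    have h1 := ih.mul (D a) ((Dom.cls (hJ a) (Γ a) (h2 a) (c a) (η a)).shift (η a))
    have e1 : C * ∏ i ∈ insert a s, rtx (J i) (Γ i) (c i) (η i) =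
        C * (∏ i ∈ s, rtx (J i) (Γ i) (c i) (η i)) * rtx (J a) (Γ a) (c a) (η a) := by
      rw [Finset.prod_insert ha]
      ring
    have e2 : (fun x => M x * ∏ i ∈ insert a s,
        gx (J i) (Γ i) (c i) (η i) (TM.H129.nn (D i) x + η i)) =
        fun x => M x * (∏ i ∈ s, gx (J i) (Γ i) (c i) (η i) (TM.H129.nn (D i) x + η i)) *
          gx (J a) (Γ a) (c a) (η a) (TM.H129.nn (D a) x + η a) := by
      funext x
      rw [Finset.prod_insert ha]
      ring
    have e3 : (fun x => P x * ∏ i ∈ insert a s, gw' (J i) (Γ i) 0 (TM.H129.nn (D i) x)) =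
        fun x => P x * (∏ i ∈ s, gw' (J i) (Γ i) 0 (TM.H129.nn (D i) x)) *
          gw' (J a) (Γ a) 0 (TM.H129.nn (D a) x) := by
      funext x
      rw [Finset.prod_insert ha]
      ring
    rw [e1, e2, e3]
    exact h1

/-- the weight of the heights with the dislocation `η` -/
noncomputable def wBD [Fintype ι] (D : ∀ i, Eb i → A → ℤ) (J : ∀ i, Eb i → ℝ)
    (η : ∀ i, Eb i → ℤ) (h : A → ℤ) : ℝ :=
  ∏ i, ∏ e, wI (J i e) (TM.H129.nn (D i) h e + η i e)

lemma wBD_zero [Fintype ι] (D : ∀ i, Eb i → A → ℤ) (J : ∀ i, Eb i → ℝ) :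
    wBD D J (fun _ _ => 0) = wB D J := by
  funext h
  unfold wBD wB
  simp

variable [DecidableEq A]

/-- **block domination with a dislocation, any coercive mass form, all Fourier modes**: if
`J = M w + div c` then `|Z^η(J + i φ)| ≤ exp (<w, M w> / 2 - <c, η>) ∏ rtx * Z(i φ)` -/
theorem srcD_Dom [Fintype ι] (D : ∀ i, Eb i → A → ℤ) {K : ∀ i, Eb i → ℝ}
    (hK : ∀ i e, 0 ≤ K i e) (Γ : ∀ i, AddSubgroup (Eb i → ℤ))
    (h2 : ∀ i n, n + n ∈ Γ i → n ∈ Γ i)
    (hΓ : ∀ i h, TM.H129.nn (D i) h ∈ Γ i) (c : ∀ i, Eb i → ℝ) (η : ∀ i, Eb i → ℤ)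
    {M : Matrix A A ℝ} (hMs : Mᵀ = M)
    {m0 : ℝ} (hm0 : 0 < m0) (hM : ∀ u : A → ℝ, m0 * ∑ x, u x ^ 2 ≤ qf M u)
    (J w : A → ℝ) (hdiv : ∀ x, J x = (M *ᵥ w) x + ∑ i, ∑ e, c i e * D i e x) :
    Dom (Real.exp (qf M w / 2 - ∑ i, ∑ e, c i e * η i e) * ∏ i, rtx (K i) (Γ i) (c i) (η i))
      (fun h => wM (wBD D K η) M h * Real.exp (∑ x, J x * (h x : ℝ))) (wM (wB D K) M) := by
  classical
  have h1 := Dom.blocksD D hK Γ h2 c η (Dom.form hMs hm0 hM w) Finset.univ
  have e0 : ∀ h : A → ℤ, ∀ i, gx (K i) (Γ i) (c i) (η i) (TM.H129.nn (D i) h + η i) =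
      (∏ e, wI (K i e) (TM.H129.nn (D i) h e + η i e)) *
        Real.exp (∑ e, c i e * (TM.H129.nn (D i) h e : ℝ) + ∑ e, c i e * η i e) := by
    intro h i
    unfold gx T1.H731.wt
    rw [if_pos (by rw [add_sub_cancel_right]; exact hΓ i h)]
    congr 2
    rw [← Finset.sum_add_distrib]
    refine Finset.sum_congr rfl fun e _ => ?_
    rw [Pi.add_apply]
    push_cast
    ring
  have e0' : ∀ h : A → ℤ, ∀ i, gw' (K i) (Γ i) 0 (TM.H129.nn (D i) h) =
      (∏ e, wI (K i e) (TM.H129.nn (D i) h e)) := by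
    intro h i
    unfold gw' T1.H731.wt
    rw [if_pos (hΓ i h)]
    simp
  have e2 : ∀ h : A → ℤ, ∑ i, ∑ e, c i e * (TM.H129.nn (D i) h e : ℝ) =
      ∑ x, (J x - (M *ᵥ w) x) * (h x : ℝ) := by
    intro h
    have : ∀ x, J x - (M *ᵥ w) x = ∑ i, ∑ e, c i e * D i e x := fun x => by rw [hdiv x]; ring
    simp only [this]
    unfold Vale.Agent.P159.TM.H129.nn
    push_cast
    simp only [Finset.mul_sum, Finset.sum_mul]
    have e3 : ∀ i, ∑ e, ∑ x, c i e * ((D i e x : ℝ) * (h x : ℝ)) =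
        ∑ x, ∑ e, c i e * (D i e x : ℝ) * (h x : ℝ) := fun i => by
      rw [Finset.sum_comm]
      exact Finset.sum_congr rfl fun x _ => Finset.sum_congr rfl fun e _ => by ring
    rw [Finset.sum_congr rfl fun i _ => e3 i, Finset.sum_comm]
  have e3 : ∀ h : A → ℤ, qf M (re h - w) = qf M (re h) + qf M w -
      2 * ∑ x, (M *ᵥ w) x * (h x : ℝ) := by
    intro h
    have h2 := qf_sub_vec hMs (re h) w
    have h3 := H37.li_mass hMs w h
    unfold TM.H104.li at h3
    rw [h3]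
    linarith
  have e4 : ∀ h : A → ℤ, Real.exp (qf M w / 2 - ∑ i, ∑ e, c i e * η i e) *
      (Real.exp (-(qf M (re h - w) / 2)) *
      ∏ i, gx (K i) (Γ i) (c i) (η i) (TM.H129.nn (D i) h + η i)) =
      wM (wBD D K η) M h * Real.exp (∑ x, J x * (h x : ℝ)) := by
    intro h
    simp only [e0]
    rw [Finset.prod_mul_distrib, ← Real.exp_sum, Finset.sum_add_distrib, e2, e3]
    unfold wM wBD
    generalize (∏ i, ∏ e, wI (K i e) (TM.H129.nn (D i) h e + η i e)) = pr
    generalize (∑ i, ∑ e, c i e * (η i e : ℝ)) = ce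
    have e5 : ∑ x, J x * (h x : ℝ) = ∑ x, (J x - (M *ᵥ w) x) * (h x : ℝ) +
        ∑ x, (M *ᵥ w) x * (h x : ℝ) := by
      rw [← Finset.sum_add_distrib]
      exact Finset.sum_congr rfl fun x _ => by ring
    rw [e5]
    generalize (∑ x, (J x - (M *ᵥ w) x) * (h x : ℝ)) = s1
    generalize (∑ x, (M *ᵥ w) x * (h x : ℝ)) = s2
    generalize qf M w = q1
    generalize qf M (re h) = q2
    have e6 : Real.exp (q1 / 2 - ce) * (Real.exp (-((q2 + q1 - 2 * s2) / 2)) *
        (pr * Real.exp (s1 + ce))) = pr * (Real.exp (q1 / 2 - ce) *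
        Real.exp (-((q2 + q1 - 2 * s2) / 2)) * Real.exp (s1 + ce)) := by ring
    have e7 : pr * Real.exp (-(q2 / 2)) * Real.exp (s1 + s2) =
        pr * (Real.exp (-(q2 / 2)) * Real.exp (s1 + s2)) := by ring
    rw [e6, e7, ← Real.exp_add, ← Real.exp_add, ← Real.exp_add]
    congr 2
    ring
  have e8 : ∀ h : A → ℤ, Real.exp (-(qf M (re h) / 2)) *
      ∏ i, gw' (K i) (Γ i) 0 (TM.H129.nn (D i) h) = wM (wB D K) M h := by
    intro h
    simp only [e0']
    unfold wM wB
    ring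
  have h3 := h1.cmul (Real.exp_pos (qf M w / 2 - ∑ i, ∑ e, c i e * η i e)).le
  simp only [e4, e8] at h3
  rw [one_mul] at h3
  exact h3

end Vale.Agent.P159.H513
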