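import Vale.Agent.P159.H513.Eta9
import Vale.Agent.P159.H817.Ang7

/-!
Several cores: distance to a finite set of cores, sums over the levels of the graded tiling.
-/

set_option linter.all false

open MeasureTheory Filter Topology Matrix

namespace Vale.Agent.P159.H513

open Vale.Agent.P159 Vale.Agent.P159.H353 Vale.Agent.P159.R2.H254 Vale.Agent.P159.H950
open Vale.Agent.P159.T1.H934 Vale.Agent.P159.T1.H731
open Vale.Agent.P159.H37 (qf bf re wM ZM Zs Zn)
open Vale.Agent.P159.TM.SpecC (Tor wT)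
open Vale.Agent.P159.H770 (wTD)
open Vale.Agent.P159.H817 (sz gr dv cu rot cst cG CG nrm)

section cores

variable {N : ℕ} [NeZero N]

/-- a distance to finitely many cores, `K` their number -/
structure Cor (d : Tor N → ℕ) (K : ℝ) : Prop where
  K0 : 0 ≤ K
  lip : Lip1 d
  leN : ∀ x, d x ≤ N
  sum : ∀ g : ℕ → ℝ, (∀ k, 0 ≤ g k) → ∑ x, g (d x) ≤ K * ∑ x : Tor N, g (sz x)

/-- distance to a finite set -/
def dP (P : Finset (Tor N)) (hP : P.Nonempty) (x : Tor N) : ℕ := P.inf' hP fun p => sz (x - p)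

lemma dP_le {P : Finset (Tor N)} (hP : P.Nonempty) {p : Tor N} (hp : p ∈ P) (x : Tor N) :
    dP P hP x ≤ sz (x - p) := Finset.inf'_le _ hp

lemma dP_eq {P : Finset (Tor N)} (hP : P.Nonempty) (x : Tor N) :
    ∃ p ∈ P, dP P hP x = sz (x - p) := Finset.exists_mem_eq_inf' hP _

lemma dP_zero {P : Finset (Tor N)} (hP : P.Nonempty) {x : Tor N} (hx : 0 < dP P hP x) : x ∉ P := by
  intro h
  have := dP_le hP h x
  rw [sub_self, H817.sz_zero] at this
  omega

lemma dP_lip {P : Finset (Tor N)} (hP : P.Nonempty) : Lip1 (dP P hP) := by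
  have s1 : ∀ (x p : Tor N), x + (1, 0) - p = x - p + H817.e1 := fun x p => by
    unfold H817.e1; abel
  have s2 : ∀ (x p : Tor N), x + (0, 1) - p = x - p + H817.e2 := fun x p => by
    unfold H817.e2; abel
  refine ⟨fun x => ?_, fun x => ?_, fun x => ?_, fun x => ?_⟩
  · obtain ⟨p, hp, h1⟩ := dP_eq hP x
    have h2 := dP_le hP hp (x + (1, 0))
    rw [s1] at h2
    have := (H817.sz_e1 (x - p)).2
    omega
  · obtain ⟨p, hp, h1⟩ := dP_eq hP (x + (1, 0))
    have h2 := dP_le hP hp x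
    rw [s1] at h1
    have := (H817.sz_e1 (x - p)).1
    omega
  · obtain ⟨p, hp, h1⟩ := dP_eq hP x
    have h2 := dP_le hP hp (x + (0, 1))
    rw [s2] at h2
    have := (H817.sz_e2 (x - p)).2
    omega
  · obtain ⟨p, hp, h1⟩ := dP_eq hP (x + (0, 1))
    have h2 := dP_le hP hp x
    rw [s2] at h1
    have := (H817.sz_e2 (x - p)).1
    omega

theorem cor_dP {P : Finset (Tor N)} (hP : P.Nonempty) : Cor (dP P hP) P.card where
  K0 := Nat.cast_nonneg _
  lip := dP_lip hP
  leN x := by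
    obtain ⟨p, _, h⟩ := dP_eq hP x
    rw [h]
    exact H817.sz_le_N _
  sum g hg := by
    have h1 : ∀ x, g (dP P hP x) ≤ ∑ p ∈ P, g (sz (x - p)) := by
      intro x
      obtain ⟨p, hp, h⟩ := dP_eq hP x
      rw [h]
      exact Finset.single_le_sum (f := fun p => g (sz (x - p))) (fun p _ => hg _) hp
    refine (Finset.sum_le_sum fun x _ => h1 x).trans (le_of_eq ?_)
    rw [Finset.sum_comm]
    rw [Finset.sum_congr rfl fun p _ => H817.sum_shift_sub (fun x => g (sz x)) p,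
      Finset.sum_const, nsmul_eq_mul]

variable {d : Tor N → ℕ} {K : ℝ}

lemma Cor.sum4 (h : Cor d K) (r : ℕ) :
    ∑ x ∈ Finset.univ.filter (fun x => r ≤ d x), 1 / (1 + (d x : ℝ)) ^ 4 ≤
      16 * K / (1 + (r : ℝ)) ^ 2 := by
  have h1 := h.sum (fun k => if r ≤ k then 1 / (1 + (k : ℝ)) ^ 4 else 0)
    (fun k => by split_ifs <;> positivity)
  rw [Finset.sum_filter]
  refine h1.trans ?_
  rw [← Finset.sum_filter]
  have h2 := H817.sum_inv4 (N := N) r
  have e : 16 * K / (1 + (r : ℝ)) ^ 2 = K * (16 / (1 + (r : ℝ)) ^ 2) := by ring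
  rw [e]
  exact mul_le_mul_of_nonneg_left h2 h.K0

lemma Cor.sum2 (h : Cor d K) {r s : ℕ} (hrs : r ≤ s) :
    ∑ x ∈ Finset.univ.filter (fun x => r ≤ d x ∧ d x ≤ s), 1 / (1 + (d x : ℝ)) ^ 2 ≤
      8 * K * (1 + Real.log ((1 + s) / (1 + r))) := by
  classical
  have h1 := h.sum (fun k => if r ≤ k ∧ k ≤ s then 1 / (1 + (k : ℝ)) ^ 2 else 0)
    (fun k => by split_ifs <;> positivity)
  rw [Finset.sum_filter]
  refine h1.trans ?_
  have h2 := H817.sum_sz_le (N := N) (g := fun k => if k ≤ s then 1 / (1 + (k : ℝ)) ^ 2 else 0)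
    (fun k => by split_ifs <;> positivity) r
  have h3 : ∑ k ∈ (Finset.range (N + 1)).filter (fun k => r ≤ k), 8 * ((k : ℝ) + 1) *
      (if k ≤ s then 1 / (1 + (k : ℝ)) ^ 2 else 0) ≤ ∑ k ∈ Finset.Icc r s, 8 * (1 / (1 + (k : ℝ))) := by
    have e2 : ∀ k : ℕ, 8 * ((k : ℝ) + 1) * (if k ≤ s then 1 / (1 + (k : ℝ)) ^ 2 else 0) =
        if k ≤ s then 8 * (1 / (1 + (k : ℝ))) else 0 := by
      intro k
      split_ifs
      · field_simp
        ring
      · ring
    simp_rw [e2]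
    rw [← Finset.sum_filter, Finset.filter_filter]
    refine Finset.sum_le_sum_of_subset_of_nonneg ?_ fun k _ _ => by positivity
    intro k hk
    rw [Finset.mem_filter] at hk
    rw [Finset.mem_Icc]
    exact hk.2
  rw [← Finset.mul_sum] at h3
  have h4 := harm_sum r s hrs
  have e1 : ∑ x : Tor N, (if r ≤ sz x ∧ sz x ≤ s then 1 / (1 + (sz x : ℝ)) ^ 2 else 0) =
      ∑ x ∈ Finset.univ.filter (fun x : Tor N => r ≤ sz x),
        (if sz x ≤ s then 1 / (1 + (sz x : ℝ)) ^ 2 else 0) := by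
    rw [Finset.sum_filter]
    refine Finset.sum_congr rfl fun x _ => ?_
    by_cases a : r ≤ sz x <;> by_cases b : sz x ≤ s <;> simp [a, b]
  rw [e1]
  have h5 : ∑ x ∈ Finset.univ.filter (fun x : Tor N => r ≤ sz x),
        (if sz x ≤ s then 1 / (1 + (sz x : ℝ)) ^ 2 else 0) ≤
      8 * (1 + Real.log ((1 + s) / (1 + r))) := by linarith
  calc _ ≤ K * (8 * (1 + Real.log ((1 + s) / (1 + r)))) := mul_le_mul_of_nonneg_left h5 h.K0
    _ = _ := by ring

lemma Cor.card (h : Cor d K) (s : ℕ) :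
    ∑ _x ∈ Finset.univ.filter (fun x => d x ≤ s), (1 : ℝ) ≤ 8 * K * (1 + (s : ℝ)) ^ 2 := by
  classical
  have h1 := h.sum (fun k => if k ≤ s then 1 else 0) (fun k => by split_ifs <;> norm_num)
  rw [Finset.sum_filter]
  refine h1.trans ?_
  have h2 := H817.sum_sz_le (N := N) (g := fun k => if k ≤ s then 1 else 0)
    (fun k => by split_ifs <;> norm_num) 0
  have h3 : ∑ k ∈ (Finset.range (N + 1)).filter (fun k => 0 ≤ k), 8 * ((k : ℝ) + 1) *
      (if k ≤ s then 1 else 0) ≤ ∑ _k ∈ Finset.range (s + 1), 8 * ((s : ℝ) + 1) := by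
    have e2 : ∀ k : ℕ, 8 * ((k : ℝ) + 1) * (if k ≤ s then 1 else 0) =
        if k ≤ s then 8 * ((k : ℝ) + 1) else 0 := by
      intro k
      split_ifs <;> ring
    simp_rw [e2]
    rw [← Finset.sum_filter, Finset.filter_filter]
    refine (Finset.sum_le_sum_of_subset_of_nonneg (t := Finset.range (s + 1)) ?_
      fun k _ _ => by positivity).trans (Finset.sum_le_sum fun k hk => ?_)
    · intro k hk
      rw [Finset.mem_filter] at hk
      rw [Finset.mem_range]
      omega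
    · rw [Finset.mem_range] at hk
      have : (k : ℝ) ≤ s := by exact_mod_cast Nat.lt_succ_iff.1 hk
      linarith
  rw [Finset.sum_const, Finset.card_range, nsmul_eq_mul] at h3
  push_cast at h3
  have e5 : ((s : ℝ) + 1) * (8 * ((s : ℝ) + 1)) = 8 * (1 + (s : ℝ)) ^ 2 := by ring
  rw [e5] at h3
  have e6 : ∑ x ∈ Finset.univ.filter (fun x : Tor N => 0 ≤ sz x), (if sz x ≤ s then (1 : ℝ) else 0) =
      ∑ x : Tor N, (if sz x ≤ s then (1 : ℝ) else 0) := by
    refine Finset.sum_congr ?_ fun _ _ => rfl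
    ext x
    simp
  rw [e6] at h2
  have h5 : ∑ x : Tor N, (if sz x ≤ s then (1 : ℝ) else 0) ≤ 8 * (1 + (s : ℝ)) ^ 2 := by linarith
  calc _ ≤ K * (8 * (1 + (s : ℝ)) ^ 2) := mul_le_mul_of_nonneg_left h5 h.K0
    _ = _ := by ring

variable {R : ℕ → ℕ} {m n : ℕ}

/-- sum over the levels of a decreasing profile -/
theorem Cor.lev2 (h : Cor d K) (hR0 : R 0 = 0) (hRmo : Monotone R)
    (hR : ∀ k, 1 ≤ k → 4 * 2 ^ k ≤ R k)
    {s : ℕ → ℝ} (hs : ∀ k, 0 ≤ s k) {ρ : ℝ} (hρ : ∀ k < m, 2 * (1 + (R (k + 1) : ℝ)) ≤ ρ * (1 + R k))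
    {ρ' : ℝ} (hρ' : 1 + (N : ℝ) ≤ ρ' * (1 + R m)) (hρ1 : 1 ≤ ρ') (hρ0 : 1 ≤ ρ)
    (hRm : R m ≤ N) :
    ∑ x, s (lev R d m x) * (1 / (1 + (d x : ℝ)) ^ 2) ≤
      8 * K * (1 + Real.log ρ) * ∑ k ∈ Finset.range m, s k + 8 * K * (1 + Real.log ρ') * s m := by
  classical
  have hK := h.K0
  have h1 : ∀ x, s (lev R d m x) * (1 / (1 + (d x : ℝ)) ^ 2) ≤
      ∑ k ∈ Finset.range m, s k * (if R k ≤ d x ∧ d x ≤ 2 * R (k + 1) then
        1 / (1 + (d x : ℝ)) ^ 2 else 0) +
      s m * (if R m ≤ d x ∧ d x ≤ N then 1 / (1 + (d x : ℝ)) ^ 2 else 0) := by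
    intro x
    have hl := lev_dist (R := R) (m := m) (d := d) hR0 x
    have n1 : ∀ k, 0 ≤ s k * (if R k ≤ d x ∧ d x ≤ 2 * R (k + 1) then
        1 / (1 + (d x : ℝ)) ^ 2 else 0) := fun k => by
      refine mul_nonneg (hs k) ?_
      split_ifs
      · positivity
      · exact le_rfl
    have n2 : 0 ≤ s m * (if R m ≤ d x ∧ d x ≤ N then
        1 / (1 + (d x : ℝ)) ^ 2 else 0) := by
      refine mul_nonneg (hs m) ?_
      split_ifs
      · positivity
      · exact le_rfl
    rcases (lev_le (R := R) (d := d) (m := m) x).lt_or_eq with h' | h'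
    · have ht := lev_top h.lip x h'
      have h4 := hR (lev R d m x + 1) (Nat.le_add_left _ _)
      rw [pow_succ] at h4
      have hmem : lev R d m x ∈ Finset.range m := Finset.mem_range.2 h'
      have h5 := Finset.single_le_sum (f := fun k => s k *
        (if R k ≤ d x ∧ d x ≤ 2 * R (k + 1) then
        1 / (1 + (d x : ℝ)) ^ 2 else 0)) (fun k _ => n1 k) hmem
      rw [if_pos ⟨hl, by omega⟩] at h5
      linarith
    · rw [h'] at hl
      rw [h', if_pos ⟨hl, h.leN x⟩]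
      have := Finset.sum_nonneg fun k (_ : k ∈ Finset.range m) => n1 k
      linarith
  refine (Finset.sum_le_sum fun x _ => h1 x).trans ?_
  rw [Finset.sum_add_distrib, Finset.sum_comm, ← Finset.mul_sum, ← Finset.sum_filter,
    Finset.mul_sum (Finset.range m)]
  refine add_le_add (Finset.sum_le_sum fun k hk => ?_) ?_
  · rw [← Finset.mul_sum, ← Finset.sum_filter]
    rw [Finset.mem_range] at hk
    have hRk : R k ≤ 2 * R (k + 1) := by
      have h9 : R k ≤ R (k + 1) := hRmo (Nat.le_succ k)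
      omega
    have h6 := h.sum2 hRk
    have h7 : Real.log ((1 + ((2 * R (k + 1) : ℕ) : ℝ)) / (1 + (R k : ℝ))) ≤ Real.log ρ := by
      refine Real.log_le_log (by positivity) ?_
      rw [div_le_iff₀ (by positivity)]
      have := hρ k hk
      push_cast
      linarith
    have h8 := mul_le_mul_of_nonneg_left h7 (show 0 ≤ 8 * K by positivity)
    calc s k * _ ≤ s k * (8 * K * (1 + Real.log ρ)) := by
          refine mul_le_mul_of_nonneg_left (h6.trans ?_) (hs k)
          linarith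
      _ = _ := by ring
  · have h6 := h.sum2 hRm
    have h7 : Real.log ((1 + (N : ℝ)) / (1 + (R m : ℝ))) ≤ Real.log ρ' := by
      refine Real.log_le_log (by positivity) ?_
      rw [div_le_iff₀ (by positivity)]
      exact hρ'
    have h8 := mul_le_mul_of_nonneg_left h7 (show 0 ≤ 8 * K by positivity)
    calc s m * _ ≤ s m * (8 * K * (1 + Real.log ρ')) := by
          refine mul_le_mul_of_nonneg_left (h6.trans ?_) (hs m)
          linarith
      _ = _ := by ring

/-- number of sites of a level -/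
lemma Cor.lev0 (h : Cor d K) {ρ ρ' G : ℝ} {τ : ℕ → ℝ} (hg : Grd N m n R τ ρ ρ' G) {s : ℕ → ℝ}
    (hs : ∀ k, 0 ≤ s k) :
    ∑ x, s (lev R d m x) ≤ N ^ 2 * s m +
      ∑ k ∈ Finset.range m, s k * (32 * K * (1 + R (k + 1)) ^ 2) := by
  classical
  have hK := h.K0
  have h1 : ∀ x, s (lev R d m x) ≤ s m +
      ∑ k ∈ Finset.range m, s k * (if d x ≤ 2 * R (k + 1) then 1 else 0) := by
    intro x
    have n1 : ∀ k, 0 ≤ s k * (if d x ≤ 2 * R (k + 1) then (1 : ℝ) else 0) := fun k => by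
      refine mul_nonneg (hs k) ?_
      split_ifs <;> norm_num
    rcases (lev_le (R := R) (d := d) (m := m) x).lt_or_eq with h' | h'
    · have ht := lev_top h.lip x h'
      have h4 := hg.hR (lev R d m x + 1) (Nat.le_add_left _ _)
      rw [pow_succ] at h4
      have hmem : lev R d m x ∈ Finset.range m := Finset.mem_range.2 h'
      have h5 := Finset.single_le_sum (f := fun k => s k *
        (if d x ≤ 2 * R (k + 1) then (1 : ℝ) else 0)) (fun k _ => n1 k) hmem
      rw [if_pos (by omega), mul_one] at h5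
      linarith [hs m]
    · rw [h']
      have := Finset.sum_nonneg fun k (_ : k ∈ Finset.range m) => n1 k
      linarith
  refine (Finset.sum_le_sum fun x _ => h1 x).trans ?_
  rw [Finset.sum_add_distrib, Finset.sum_comm]
  refine add_le_add (le_of_eq ?_) (Finset.sum_le_sum fun k hk => ?_)
  · rw [Finset.sum_const, Finset.card_univ, Fintype.card_prod, ZMod.card, nsmul_eq_mul]
    push_cast
    ring
  · rw [← Finset.mul_sum, ← Finset.sum_filter]
    refine mul_le_mul_of_nonneg_left ?_ (hs k)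
    refine (h.card _).trans ?_
    push_cast
    have h0 : (0 : ℝ) ≤ R (k + 1) := Nat.cast_nonneg _
    have h9 : (1 + 2 * (R (k + 1) : ℝ)) ^ 2 ≤ 4 * (1 + (R (k + 1) : ℝ)) ^ 2 := by nlinarith
    have h10 := mul_le_mul_of_nonneg_left h9 (show 0 ≤ 8 * K by positivity)
    linarith

/-- the excess term -/
theorem Cor.exc (h : Cor d K) {ρ ρ' G : ℝ} {τ : ℕ → ℝ} (hg : Grd N m n R τ ρ ρ' G)
    {c : Tor N × Bool → ℝ} {A B B' Λ : ℝ} (hc : FldB R d c A B B' Λ) (b S : ℝ) :
    ∑ x, exS b S τ (lev R d m x) / 2 * nx c x ≤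
      2 * A ^ 2 * (8 * K * (1 + Real.log ρ) * ∑ k ∈ Finset.range m, exS b S τ k +
        8 * K * (1 + Real.log ρ') * exS b S τ m) +
      2 * B ^ 2 * (N ^ 2 * exS b S τ m +
        ∑ k ∈ Finset.range m, exS b S τ k * (32 * K * (1 + R (k + 1)) ^ 2)) := by
  have h1 : ∀ x, exS b S τ (lev R d m x) / 2 * nx c x ≤
      2 * A ^ 2 * (exS b S τ (lev R d m x) * (1 / (1 + (d x : ℝ)) ^ 2)) +
        2 * B ^ 2 * exS b S τ (lev R d m x) := by
    intro x
    have hn : nx c x ≤ 4 * (A ^ 2 * (1 / (1 + (d x : ℝ)) ^ 2) + B ^ 2) := by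
      have b3 := pow_le_pow_left₀ (abs_nonneg _) (hc.b0 x false) 2
      have b4 := pow_le_pow_left₀ (abs_nonneg _) (hc.b0 x true) 2
      rw [sq_abs] at b3 b4
      unfold nx
      have e1 : A ^ 2 * (1 / (1 + (d x : ℝ)) ^ 2) = (A / (1 + (d x : ℝ))) ^ 2 := by
        rw [div_pow]; ring
      rw [e1]
      nlinarith [sq_nonneg (A / (1 + (d x : ℝ)) - B)]
    have h2 := mul_le_mul_of_nonneg_left hn
      (show 0 ≤ exS b S τ (lev R d m x) / 2 by have := exS_nonneg b S τ (lev R d m x); positivity)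
    linarith
  refine (Finset.sum_le_sum fun x _ => h1 x).trans ?_
  rw [Finset.sum_add_distrib, ← Finset.mul_sum, ← Finset.mul_sum]
  refine add_le_add (mul_le_mul_of_nonneg_left ?_ (by positivity))
    (mul_le_mul_of_nonneg_left ?_ (by positivity))
  · exact h.lev2 hg.hR0 hg.mono hg.hR (exS_nonneg b S τ) hg.hρ hg.hρ' hg.hρ1' hg.hρ1 hg.hRm
  · exact h.lev0 hg (exS_nonneg b S τ)

end cores

end Vale.Agent.P159.H513
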