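import Vale.Agent.P159.H513.Eta10

/-!
The divergence free field of any neutral charge distribution on the torus and the domination
bound of the dislocated partition function in any real background.
-/

set_option linter.all false

open MeasureTheory Filter Topology Matrix

namespace Vale.Agent.P159.H513

open Vale.Agent.P159 Vale.Agent.P159.H353 Vale.Agent.P159.R2.H254 Vale.Agent.P159.H950
open Vale.Agent.P159.T1.H934 Vale.Agent.P159.T1.H731
open Vale.Agent.P159.H37 (qf bf re wM ZM Zs Zn)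
open Vale.Agent.P159.TM.SpecC (Tor wT)
open Vale.Agent.P159.H770 (wTD)
open Vale.Agent.P159.H817 (sz gr dv cu rot cst cG CG nrm lp mnj G0 aN)

section fld

variable {N : ℕ} [NeZero N]

/-- the divergence free field of the charges `ch` with the means `a`, `c` -/
noncomputable def jR (ch : Tor N → ℝ) (a c : ℝ) (e : Tor N × Bool) : ℝ :=
  rot (fun x => -cG ch x) e + cst a c e

/-- the energy of the charges `ch` -/
noncomputable def enR (ch : Tor N → ℝ) : ℝ := ∑ x, ch x * cG ch x

lemma dv_jR (ch : Tor N → ℝ) (a c : ℝ) (x : Tor N) : dv (jR ch a c) x = 0 := by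
  unfold jR
  rw [H817.dv_add, H817.dv_rot, H817.dv_cst, add_zero]

lemma lp_neg_cG {ch : Tor N → ℝ} (h : ∑ x, ch x = 0) (x : Tor N) :
    lp (fun x => -cG ch x) x = ch x := by
  have h1 := H817.lp_cG h x
  have h2 : lp (fun x => -cG ch x) x = -lp (cG ch) x := by
    unfold H817.lp
    ring
  rw [h2, h1, neg_neg]

lemma cu_jR {ch : Tor N → ℝ} (h : ∑ x, ch x = 0) (a c : ℝ) (x : Tor N) :
    cu (jR ch a c) x = ch x := by
  unfold jR
  rw [H817.cu_add, H817.cu_rot, H817.cu_cst, add_zero, lp_neg_cG h]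

lemma nrm_rotR {ch : Tor N → ℝ} (h : ∑ x, ch x = 0) :
    ∑ e, rot (fun x => -cG ch x) e ^ 2 = enR ch := by
  have h1 := H817.nrm_rot (fun x => -cG ch x)
  unfold H817.nrm at h1
  rw [h1]
  simp_rw [lp_neg_cG h]
  unfold enR
  rw [← Finset.sum_neg_distrib]
  exact Finset.sum_congr rfl fun x _ => by ring

lemma sum_rot_cst (φ : Tor N → ℝ) (a c : ℝ) : ∑ e, rot φ e * cst a c e = 0 := by
  rw [H817.sum_edges]
  simp only [H817.cst_false, H817.cst_true]
  rw [← Finset.sum_mul, ← Finset.sum_mul, H817.sum_rot, H817.sum_rot]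
  ring

lemma sum_cst_cst (a c a' c' : ℝ) :
    ∑ e : Tor N × Bool, cst a c e * cst a' c' e = (N : ℝ) ^ 2 * (a * a' + c * c') := by
  rw [H817.sum_edges]
  simp only [H817.cst_false, H817.cst_true]
  rw [Finset.sum_const, Finset.sum_const, nsmul_eq_mul, nsmul_eq_mul, Finset.card_univ,
    H817.card_VN]
  ring

/-- scalar products of the fields -/
lemma sum_jR_jR {ch : Tor N → ℝ} (h : ∑ x, ch x = 0) (a c a' c' : ℝ) :
    ∑ e, jR ch a c e * jR ch a' c' e = enR ch + (N : ℝ) ^ 2 * (a * a' + c * c') := by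
  have e1 : ∀ e, jR ch a c e * jR ch a' c' e = rot (fun x => -cG ch x) e ^ 2 +
      rot (fun x => -cG ch x) e * cst a' c' e + rot (fun x => -cG ch x) e * cst a c e +
      cst a c e * cst a' c' e := fun e => by
    unfold jR; ring
  simp_rw [e1]
  rw [Finset.sum_add_distrib, Finset.sum_add_distrib, Finset.sum_add_distrib, nrm_rotR h,
    sum_rot_cst, sum_rot_cst, sum_cst_cst]
  ring

lemma nrm_jR {ch : Tor N → ℝ} (h : ∑ x, ch x = 0) (a c : ℝ) :
    nrm (jR ch a c) = enR ch + (N : ℝ) ^ 2 * (a ^ 2 + c ^ 2) := by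
  have h1 := sum_jR_jR h a c a c
  unfold H817.nrm
  rw [Finset.sum_congr rfl fun e _ => pow_two (jR ch a c e), h1]
  ring

lemma enR_nonneg {ch : Tor N → ℝ} (h : ∑ x, ch x = 0) : 0 ≤ enR ch := by
  rw [← nrm_rotR h]
  exact Finset.sum_nonneg fun _ _ => sq_nonneg _

/-- the energy in terms of the potential kernel -/
lemma enR_aN {ch : Tor N → ℝ} (h : ∑ x, ch x = 0) :
    enR ch = -∑ x, ∑ y, ch x * ch y * aN (x - y) := by
  unfold enR cG
  have e1 : ∀ x y : Tor N, ch x * ch y * aN (x - y) =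
      ch x * ch y * G0 (0 : Tor N) - ch x * (G0 (x - y) * ch y) := fun x y => by
    unfold H817.aN; ring
  simp_rw [e1, Finset.sum_sub_distrib, ← Finset.mul_sum]
  have e2 : ∑ x, ∑ y, ch x * ch y * G0 (0 : Tor N) = 0 := by
    simp_rw [← Finset.sum_mul, ← Finset.mul_sum]
    rw [h]
    simp
  rw [e2]
  ring

lemma sum_jR_gr (ch : Tor N → ℝ) (a c : ℝ) (g : Tor N → ℝ) : ∑ e, jR ch a c e * gr g e = 0 := by
  rw [H817.parts]
  simp [dv_jR]

/-- **Hodge decomposition** for any circulation -/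
theorem hodgeR {ch : Tor N → ℝ} (hch : ∑ x, ch x = 0) {η : Tor N × Bool → ℝ}
    (hη : ∀ x, cu η x = ch x) :
    ∃ f : Tor N → ℝ, ∀ e, η e + gr f e = jR ch (mnj η false) (mnj η true) e := by
  have hN : (0 : ℝ) < (N : ℝ) ^ 2 := H864.N_pos
  refine ⟨fun x => -cG (dv η) x, ?_⟩
  set f : Tor N → ℝ := fun x => -cG (dv η) x with hf
  have hlp : ∀ x, lp f x = dv η x := by
    intro x
    rw [hf]
    exact lp_neg_cG (H817.sum_dv η) x
  have hd : ∀ x, dv (fun e => (η e + gr f e) - jR ch (mnj η false) (mnj η true) e) x = 0 := by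
    intro x
    rw [H817.dv_sub (fun e => η e + gr f e), H817.dv_add, H817.dv_gr, dv_jR, hlp]
    ring
  have hc : ∀ x, cu (fun e => (η e + gr f e) - jR ch (mnj η false) (mnj η true) e) x = 0 := by
    intro x
    rw [H817.cu_sub (fun e => η e + gr f e), H817.cu_add, H817.cu_gr, cu_jR hch, hη]
    ring
  have hcst := H817.cst_of_dc hd hc
  have hz : ∀ b : Bool, (η ((0 : Tor N), b) + gr f (0, b)) -
      jR ch (mnj η false) (mnj η true) (0, b) = 0 := by
    intro b
    have h1 : ∀ x : Tor N, (η (x, b) + gr f (x, b)) - jR ch (mnj η false) (mnj η true) (x, b) =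
        (η ((0 : Tor N), b) + gr f (0, b)) - jR ch (mnj η false) (mnj η true) (0, b) := by
      intro x
      have h2 := congrFun hcst (x, b)
      cases b
      · rw [H817.cst_false] at h2
        exact h2
      · rw [H817.cst_true] at h2
        exact h2
    have h2 : ∑ x : Tor N, ((η (x, b) + gr f (x, b)) -
        jR ch (mnj η false) (mnj η true) (x, b)) = 0 := by
      unfold jR
      rw [Finset.sum_sub_distrib, Finset.sum_add_distrib, Finset.sum_add_distrib, H817.sum_gr,
        H817.sum_rot]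
      have h3 : ∑ x : Tor N, cst (mnj η false) (mnj η true) (x, b) = ∑ x : Tor N, η (x, b) := by
        cases b
        · simp only [H817.cst_false]
          rw [Finset.sum_const, nsmul_eq_mul, Finset.card_univ, H817.card_VN]
          unfold H817.mnj
          rw [mul_div_assoc', mul_div_cancel_left₀ _ hN.ne']
        · simp only [H817.cst_true]
          rw [Finset.sum_const, nsmul_eq_mul, Finset.card_univ, H817.card_VN]
          unfold H817.mnj
          rw [mul_div_assoc', mul_div_cancel_left₀ _ hN.ne']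
      rw [h3]
      ring
    rw [Finset.sum_congr rfl fun x _ => h1 x, Finset.sum_const, nsmul_eq_mul, Finset.card_univ,
      H817.card_VN] at h2
    rcases mul_eq_zero.1 h2 with h | h
    · exact absurd h hN.ne'
    · exact h
  rintro ⟨x, b⟩
  have h2 := congrFun hcst (x, b)
  cases b
  · rw [H817.cst_false, hz false] at h2
    linarith
  · rw [H817.cst_true, hz true] at h2
    linarith

/-! ### bounds of the field -/

lemma jR_false (ch : Tor N → ℝ) (a c : ℝ) (x : Tor N) :
    jR ch a c (x, false) = ∑ y, H817.D H817.e2 (G0 (N := N)) (x - H817.e2 - y) * ch y + a := by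
  unfold jR
  rw [H817.rot_false, H817.cst_false]
  unfold cG H817.D
  have e1 : ∀ y : Tor N, x - H817.e2 - y + H817.e2 = x - y := fun y => by abel
  simp_rw [e1, sub_mul, Finset.sum_sub_distrib]
  ring

lemma jR_true (ch : Tor N → ℝ) (a c : ℝ) (x : Tor N) :
    jR ch a c (x, true) = -∑ y, H817.D H817.e1 (G0 (N := N)) (x - H817.e1 - y) * ch y + c := by
  unfold jR
  rw [H817.rot_true, H817.cst_true]
  unfold cG H817.D
  have e1 : ∀ y : Tor N, x - H817.e1 - y + H817.e1 = x - y := fun y => by abel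
  simp_rw [e1, sub_mul, Finset.sum_sub_distrib]
  ring

variable {d : Tor N → ℕ}

/-- `d` is at most the distance to every charge -/
def Near (d : Tor N → ℕ) (ch : Tor N → ℝ) : Prop := ∀ x y, ch y ≠ 0 → d x ≤ sz (x - y)

/-- total charge in absolute value -/
noncomputable def qa (ch : Tor N → ℝ) : ℝ := ∑ y, |ch y|

lemma qa_nonneg (ch : Tor N → ℝ) : 0 ≤ qa ch := Finset.sum_nonneg fun _ _ => abs_nonneg _

lemma conv_bound {ch : Tor N → ℝ} (hd : Near d ch) {H : Tor N → ℝ} {p : ℕ}
    (hH : H817.BD CG p H) {e : Tor N} (he : e = H817.e1 ∨ e = H817.e2) (x : Tor N) :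
    |∑ y, H (x - e - y) * ch y| ≤ 2 ^ p * CG * qa ch / (1 + (d x : ℝ)) ^ p := by
  have hC := H817.CG_pos
  refine (Finset.abs_sum_le_sum_abs _ _).trans ?_
  have e1 : 2 ^ p * CG * qa ch / (1 + (d x : ℝ)) ^ p =
      ∑ y, 2 ^ p * CG / (1 + (d x : ℝ)) ^ p * |ch y| := by
    unfold qa
    rw [← Finset.mul_sum]
    ring
  rw [e1]
  refine Finset.sum_le_sum fun y _ => ?_
  rw [abs_mul]
  by_cases hy : ch y = 0
  · rw [hy, abs_zero, mul_zero, mul_zero]
  refine mul_le_mul_of_nonneg_right ?_ (abs_nonneg _)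
  refine (hH _).trans ?_
  have h1 := H817.inv_shift p (H817.sz_unit he) x y
  have h2 := mul_le_mul_of_nonneg_left h1 hC.le
  have h3 : (2 : ℝ) ^ p / (1 + (sz (x - y) : ℝ)) ^ p ≤ 2 ^ p / (1 + (d x : ℝ)) ^ p := by
    refine div_le_div_of_nonneg_left (by positivity) (by positivity)
      (pow_le_pow_left₀ (by positivity) ?_ p)
    have : (d x : ℝ) ≤ sz (x - y) := by exact_mod_cast hd x y hy
    linarith
  have h4 := mul_le_mul_of_nonneg_left h3 hC.le
  calc CG / (1 + (sz (x - e - y) : ℝ)) ^ p = CG * (1 / (1 + (sz (x - e - y) : ℝ)) ^ p) := by ring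
    _ ≤ _ := h2
    _ ≤ _ := h4
    _ = _ := by ring

lemma jR_bound {ch : Tor N → ℝ} (hd : Near d ch) (a c : ℝ) (x : Tor N) (t : Bool) :
    |jR ch a c (x, t)| ≤ 2 * CG * qa ch / (1 + (d x : ℝ)) + (|a| + |c|) := by
  cases t
  · rw [jR_false]
    refine (abs_add_le _ _).trans ?_
    have h := conv_bound hd (H817.grad_G0 (e := H817.e2) (Or.inr rfl)) (Or.inr rfl) x
    simp only [pow_one] at h
    linarith [abs_nonneg c]
  · rw [jR_true]
    refine (abs_add_le _ _).trans ?_
    rw [abs_neg]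
    have h := conv_bound hd (H817.grad_G0 (e := H817.e1) (Or.inl rfl)) (Or.inl rfl) x
    simp only [pow_one] at h
    linarith [abs_nonneg a]

lemma DjR_bound {ch : Tor N → ℝ} (hd : Near d ch) (a c : ℝ) (x : Tor N) (t : Bool)
    {u : Tor N} (hu : u = H817.e1 ∨ u = H817.e2) :
    |jR ch a c (x + u, t) - jR ch a c (x, t)| ≤ 4 * CG * qa ch / (1 + (d x : ℝ)) ^ 2 := by
  have key : ∀ e e' : Tor N, (e = H817.e1 ∨ e = H817.e2) → (e' = H817.e1 ∨ e' = H817.e2) →
      |∑ y, H817.D e' (G0 (N := N)) (x + u - e - y) * ch y -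
        ∑ y, H817.D e' (G0 (N := N)) (x - e - y) * ch y| ≤
      4 * CG * qa ch / (1 + (d x : ℝ)) ^ 2 := by
    intro e e' he he'
    have h := conv_bound hd (H817.grad2_G0 hu he') he x
    have e1 : ∑ y, H817.D u (H817.D e' (G0 (N := N))) (x - e - y) * ch y =
        ∑ y, H817.D e' (G0 (N := N)) (x + u - e - y) * ch y -
        ∑ y, H817.D e' (G0 (N := N)) (x - e - y) * ch y := by
      rw [← Finset.sum_sub_distrib]
      refine Finset.sum_congr rfl fun y _ => ?_
      have e2 : x + u - e - y = x - e - y + u := by abel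
      rw [e2, ← sub_mul]
      rfl
    rw [e1] at h
    refine h.trans (le_of_eq ?_)
    norm_num
  cases t
  · rw [jR_false, jR_false]
    have := key H817.e2 H817.e2 (Or.inr rfl) (Or.inr rfl)
    refine le_trans (le_of_eq ?_) this
    congr 1
    ring
  · rw [jR_true, jR_true]
    have := key H817.e1 H817.e1 (Or.inl rfl) (Or.inl rfl)
    refine le_trans (le_of_eq ?_) this
    rw [← abs_neg]
    congr 1
    ring

/-- the tilt -/
noncomputable def cR (ch : Tor N → ℝ) (α β s : ℝ) (g : Tor N → ℝ) (e : Tor N × Bool) : ℝ :=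
  s * jR ch α β e + gr g e

lemma dv_cR (ch : Tor N → ℝ) (α β s : ℝ) (g : Tor N → ℝ) (x : Tor N) :
    dv (cR ch α β s g) x = dv (gr g) x := by
  unfold cR
  rw [H817.dv_add (fun e => s * jR ch α β e)]
  have : dv (fun e => s * jR ch α β e) x = s * dv (jR ch α β) x := by
    unfold H817.dv; ring
  rw [this, dv_jR, mul_zero, zero_add]

lemma nrm_cR (ch : Tor N → ℝ) (α β s : ℝ) (g : Tor N → ℝ) :
    nrm (cR ch α β s g) = s ^ 2 * nrm (jR ch α β) + nrm (gr g) := by
  unfold H817.nrm cR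
  have e1 : ∀ e, (s * jR ch α β e + gr g e) ^ 2 =
      s ^ 2 * jR ch α β e ^ 2 + gr g e ^ 2 + 2 * s * (jR ch α β e * gr g e) := fun e => by ring
  simp_rw [e1]
  rw [Finset.sum_add_distrib, Finset.sum_add_distrib, ← Finset.mul_sum, ← Finset.mul_sum,
    sum_jR_gr, mul_zero, add_zero]

variable {R : ℕ → ℕ}

/-- the bounds of the tilt -/
theorem cR_bounds {ch : Tor N → ℝ} (hd : Near d ch) (α β s : ℝ) (g : Tor N → ℝ) {B₁ B' : ℝ}
    (hB₁ : 0 ≤ B₁) (hB' : 0 ≤ B') (h0 : ∀ e, |gr g e| ≤ B₁)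
    (h1 : ∀ x t, |gr g (x + (1, 0), t) - gr g (x, t)| ≤ B')
    (h2 : ∀ x t, |gr g (x + (0, 1), t) - gr g (x, t)| ≤ B')
    (hone : 4 * CG * qa ch * |s| / (1 + (R 1 : ℝ)) + (|s| * (|α| + |β|) + B₁) ≤ 1) :
    FldB R d (cR ch α β s g) (4 * CG * qa ch * |s|) (|s| * (|α| + |β|) + B₁) B'
      (1 + 4 * CG * qa ch * |s| + (|s| * (|α| + |β|) + B₁)) := by
  have hC := H817.CG_pos
  have hq := qa_nonneg ch
  have hs := abs_nonneg s
  have b0 : ∀ x t, |cR ch α β s g (x, t)| ≤ 4 * CG * qa ch * |s| / (1 + (d x : ℝ)) +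
      (|s| * (|α| + |β|) + B₁) := by
    intro x t
    unfold cR
    refine (abs_add_le _ _).trans ?_
    rw [abs_mul]
    have j3 := mul_le_mul_of_nonneg_left (jR_bound hd α β x t) hs
    have e : |s| * (2 * CG * qa ch / (1 + (d x : ℝ)) + (|α| + |β|)) =
        2 * CG * qa ch * |s| / (1 + (d x : ℝ)) + |s| * (|α| + |β|) := by ring
    rw [e] at j3
    have j4 : 2 * CG * qa ch * |s| / (1 + (d x : ℝ)) ≤ 4 * CG * qa ch * |s| / (1 + (d x : ℝ)) := by
      refine div_le_div_of_nonneg_right ?_ (by positivity)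
      nlinarith [mul_nonneg (mul_nonneg hC.le hq) hs]
    linarith [h0 (x, t)]
  have key : ∀ (u : Tor N), (u = H817.e1 ∨ u = H817.e2) →
      (∀ x t, |gr g (x + u, t) - gr g (x, t)| ≤ B') → ∀ x t,
      |cR ch α β s g (x + u, t) - cR ch α β s g (x, t)| ≤
        4 * CG * qa ch * |s| / (1 + (d x : ℝ)) ^ 2 + B' := by
    intro u hu hg x t
    have e1 : cR ch α β s g (x + u, t) - cR ch α β s g (x, t) =
        s * (jR ch α β (x + u, t) - jR ch α β (x, t)) + (gr g (x + u, t) - gr g (x, t)) := by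
      unfold cR; ring
    rw [e1]
    refine (abs_add_le _ _).trans ?_
    rw [abs_mul]
    have j3 := mul_le_mul_of_nonneg_left (DjR_bound hd α β x t hu) hs
    have e : |s| * (4 * CG * qa ch / (1 + (d x : ℝ)) ^ 2) =
        4 * CG * qa ch * |s| / (1 + (d x : ℝ)) ^ 2 := by ring
    rw [e] at j3
    linarith [hg x t]
  refine ⟨by positivity, by positivity, hB', ?_, b0, key (1, 0) (Or.inl rfl) h1,
    key (0, 1) (Or.inr rfl) h2, ?_, ?_⟩
  · have : 0 ≤ 4 * CG * qa ch * |s| + (|s| * (|α| + |β|) + B₁) := by positivity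
    linarith
  · rintro ⟨x, t⟩
    refine (b0 x t).trans ?_
    have : 4 * CG * qa ch * |s| / (1 + (d x : ℝ)) ≤ 4 * CG * qa ch * |s| := by
      refine div_le_self (by positivity) ?_
      linarith [(Nat.cast_nonneg (d x) : (0 : ℝ) ≤ d x)]
    linarith
  · intro x t hx
    refine (b0 x t).trans (le_trans ?_ hone)
    refine add_le_add ?_ le_rfl
    have hx' : (R 1 : ℝ) ≤ d x := by exact_mod_cast hx
    exact div_le_div_of_nonneg_left (by positivity) (by positivity) (by linarith)

end fld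

end Vale.Agent.P159.H513
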