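import Vale.Agent.P159.H513.Eta11

/-!
**SL5 for any neutral charge distribution**: domination of the dislocated partition function.
-/

set_option linter.all false

open MeasureTheory Filter Topology Matrix

namespace Vale.Agent.P159.H513

open Vale.Agent.P159 Vale.Agent.P159.H353 Vale.Agent.P159.R2.H254 Vale.Agent.P159.H950
open Vale.Agent.P159.T1.H934 Vale.Agent.P159.T1.H731
open Vale.Agent.P159.H37 (qf bf re wM ZM Zs Zn)
open Vale.Agent.P159.TM.SpecC (Tor wT)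
open Vale.Agent.P159.H770 (wTD)
open Vale.Agent.P159.H817 (sz gr dv cu rot cst cG CG nrm lp mnj G0 aN)

section mul

variable {N : ℕ} [NeZero N] {d : Tor N → ℕ} {K : ℝ} {R : ℕ → ℕ} {m n : ℕ}

/-- the error with `K` cores -/
noncomputable def ePK (N m : ℕ) (R : ℕ → ℕ) (τ : ℕ → ℝ) (b S A B B' Λ ρ ρ' G K : ℝ) : ℝ :=
  2 * A ^ 2 * (8 * K * (1 + Real.log ρ) * ∑ k ∈ Finset.range m, exS b S τ k +
    8 * K * (1 + Real.log ρ') * exS b S τ m) +
  2 * B ^ 2 * (N ^ 2 * exS b S τ m + ∑ k ∈ Finset.range m, exS b S τ k * (32 * K * (1 + R (k + 1)) ^ 2)) +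
  eW6 N m R τ b (K4c b Λ) A B B' (16 * K) G

lemma cuZ_zeroR {ch : Tor N → ℝ} (hch : ∑ x, ch x = 0) {η : Tor N × Bool → ℤ} {α β : ℝ}
    {f : Tor N → ℝ} (hf : ∀ e, (η e : ℝ) + gr f e = jR ch α β e) {x : Tor N} (hx : ch x = 0) :
    cuZ η x = 0 := by
  have h1 : cu (fun e => (η e : ℝ) + gr f e) x = cu (jR ch α β) x := by
    have : (fun e => (η e : ℝ) + gr f e) = fun e => jR ch α β e := funext hf
    rw [this]
  rw [H817.cu_add (fun e => (η e : ℝ)), H817.cu_gr, add_zero, cu_jR hch, hx] at h1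
  have h2 : ((cuZ η x : ℤ) : ℝ) = cu (fun e => (η e : ℝ)) x := by
    unfold cuZ H817.cu H817.e1 H817.e2
    push_cast
    rfl
  rw [h1] at h2
  exact_mod_cast h2

lemma near_zero {ch : Tor N → ℝ} (hd : Near d ch) {x : Tor N} (hx : 0 < d x) : ch x = 0 := by
  by_contra h
  have := hd x x h
  rw [sub_self, H817.sz_zero] at this
  omega

lemma ZM_nonneg {b : ℝ} (hb : 0 ≤ b) (M : Matrix (Tor N) (Tor N) ℝ) : 0 ≤ ZM (wT b N) M 0 := by
  unfold ZM
  refine tsum_nonneg fun h => ?_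
  refine mul_nonneg ?_ (Real.exp_pos _).le
  unfold wT
  exact Finset.prod_nonneg fun x _ => mul_nonneg (wI_nonneg hb _) (wI_nonneg hb _)

/-- **SL5 for any neutral charge distribution**, graded tiling -/
theorem multi_up {τ : ℕ → ℝ} {ρ ρ' G : ℝ} (hg : Grd N m n R τ ρ ρ' G) {b : ℝ} (hb : 0 ≤ b)
    (hdK : Cor d K) {ch : Tor N → ℝ} (hch : ∑ x, ch x = 0) (hd : Near d ch)
    {α β α' β' : ℝ} {η : Tor N × Bool → ℤ} {f : Tor N → ℝ}
    (hf : ∀ e, (η e : ℝ) + gr f e = jR ch α β e)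
    {M : Matrix (Tor N) (Tor N) ℝ} (hMs : Mᵀ = M) {m0 : ℝ} (hm0 : 0 < m0)
    (hM : ∀ u : Tor N → ℝ, m0 * ∑ x, u x ^ 2 ≤ qf M u)
    {S : ℝ} (hS : 0 < S) (F w g : Tor N → ℝ)
    (hJ : ∀ x, (M *ᵥ F) x = (M *ᵥ w) x + dv (gr g) x)
    {A B B' Λ : ℝ} (hc : FldB R d (cR ch α' β' (1 / S) g) A B B' Λ) :
    ZM (wTD N b η) M (f + F) ≤
      Real.exp (-((qf M F - qf M w) / 2) + S / 2 * nrm (gr g) -
        1 / (2 * S) * (enR ch + (N : ℝ) ^ 2 * (2 * (α * α' + β * β') - (α' ^ 2 + β' ^ 2))) +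
        ePK N m R τ b S A B B' Λ ρ ρ' G K) * ZM (wT b N) M 0 := by
  have h := whi_up hg.hN hg.hR0 hg.mono hg.hR hdK.lip hb η
    (fun x hx => cuZ_zeroR hch hf (near_zero hd hx)) hMs hm0 hM (f + F) (f + w)
    (cR ch α' β' (1 / S) g)
    (fun x => by
      rw [Matrix.mulVec_add, Matrix.mulVec_add, Pi.add_apply, Pi.add_apply, hJ x, dv_cR]
      ring) hg.hτ hc (Cd := 16 * K) hg.hG hdK.sum4
  refine h.trans (mul_le_mul_of_nonneg_right (Real.exp_le_exp.2 ?_) (ZM_nonneg hb M))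
  -- the quadratic forms
  have q1 : qf M (f + F) - qf M (f + w) = qf M F - qf M w + 2 * ∑ x, f x * dv (gr g) x := by
    have e1 : ∀ u : Tor N → ℝ, qf M (f + u) = qf M f + qf M u + 2 * ∑ x, f x * (M *ᵥ u) x := by
      intro u
      have h1 := H37.qf_sub_vec hMs f (-u)
      rw [sub_neg_eq_add] at h1
      have h2 : qf M (-u) = qf M u := by
        rw [H37.qf_eq, H37.qf_eq, Matrix.mulVec_neg, neg_dotProduct, dotProduct_neg, neg_neg]
      have h3 : bf M f (-u) = -∑ x, f x * (M *ᵥ u) x := by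
        have : bf M f (-u) = f ⬝ᵥ (M *ᵥ (-u)) := by
          first
            | rfl
            | exact H37.bf_eq M f (-u)
        rw [this, Matrix.mulVec_neg, dotProduct_neg]
        rfl
      rw [h1, h2, h3]
      ring
    rw [e1, e1]
    have e2 : ∑ x, f x * (M *ᵥ F) x = ∑ x, f x * (M *ᵥ w) x + ∑ x, f x * dv (gr g) x := by
      rw [← Finset.sum_add_distrib]
      exact Finset.sum_congr rfl fun x _ => by rw [hJ x]; ring
    rw [e2]
    ring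
  have q2 : ∑ x, f x * dv (gr g) x = ∑ e, gr g e * gr f e := (H817.parts (gr g) f).symm
  have q3 : ∑ e, cR ch α' β' (1 / S) g e * (η e : ℝ) =
      1 / S * (enR ch + (N : ℝ) ^ 2 * (α' * α + β' * β)) - ∑ e, gr g e * gr f e := by
    have e1 : ∀ e, cR ch α' β' (1 / S) g e * (η e : ℝ) =
        1 / S * (jR ch α' β' e * jR ch α β e) -
        1 / S * (jR ch α' β' e * gr f e) + jR ch α β e * gr g e - gr g e * gr f e := by
      intro e
      have : (η e : ℝ) = jR ch α β e - gr f e := by linarith [hf e]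
      rw [this]
      unfold cR
      ring
    rw [Finset.sum_congr rfl fun e _ => e1 e, Finset.sum_sub_distrib, Finset.sum_add_distrib,
      Finset.sum_sub_distrib, ← Finset.mul_sum, ← Finset.mul_sum, sum_jR_gr, sum_jR_gr,
      sum_jR_jR hch]
    ring
  have q4 : ∑ x, (1 + τ (lev R d m x)) / 2 * stiff (2 ^ lev R d m x) b *
      nx (cR ch α' β' (1 / S) g) x ≤
      S / 2 * ((1 / S) ^ 2 * (enR ch + (N : ℝ) ^ 2 * (α' ^ 2 + β' ^ 2)) + nrm (gr g)) +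
      ∑ x, exS b S τ (lev R d m x) / 2 * nx (cR ch α' β' (1 / S) g) x := by
    have e1 := nrm_cR ch α' β' (1 / S) g
    rw [nrm_jR hch] at e1
    rw [← e1, ← sum_nx, Finset.mul_sum, ← Finset.sum_add_distrib]
    refine Finset.sum_le_sum fun x _ => ?_
    have h2 : (1 + τ (lev R d m x)) * stiff (2 ^ lev R d m x) b - S ≤
        exS b S τ (lev R d m x) := le_max_right _ _
    have h3 := mul_le_mul_of_nonneg_right h2 (nx_nonneg (cR ch α' β' (1 / S) g) x)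
    nlinarith
  have q5 := hdK.exc hg hc b S
  have q6 : S / 2 * ((1 / S) ^ 2 * (enR ch + (N : ℝ) ^ 2 * (α' ^ 2 + β' ^ 2)) + nrm (gr g)) -
      1 / S * (enR ch + (N : ℝ) ^ 2 * (α' * α + β' * β)) =
      S / 2 * nrm (gr g) -
        1 / (2 * S) * (enR ch + (N : ℝ) ^ 2 * (2 * (α * α' + β * β') - (α' ^ 2 + β' ^ 2))) := by
    field_simp
    ring
  unfold ePK
  linarith

/-! ### explicit parameters -/

lemma eW6_leK {κ : ℕ → ℕ} {r : ℕ} {b K₁ A B B' G Cd : ℝ} (hb : 0 ≤ b) (hK : 0 ≤ K₁)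
    (hCd : 0 ≤ Cd) :
    eW6 N m (Rk κ r) (tk κ) b K₁ A B B' Cd G ≤
      2 ^ 12 * Cd * (b * A ^ 2 + 4 * (K₁ * A ^ 4)) *
        (2 ^ κ 0 + ∑ k ∈ Finset.range (m + 1), 1 / 2 ^ κ k) +
      (8 * (b * B' ^ 2) + 32 * (K₁ * B ^ 4)) * (N ^ 2 * G) := by
  unfold eW6
  refine add_le_add ?_ le_rfl
  have key : ∑ k ∈ Finset.range (m + 1), gk (tk κ) k * (Cd / (1 + (Rk κ r k : ℝ)) ^ 2) ≤
      2 * Cd * (2 ^ κ 0 + ∑ k ∈ Finset.range (m + 1), 1 / 2 ^ κ k) := by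
    rw [Finset.sum_range_succ']
    have e0 : gk (tk κ) 0 * (Cd / (1 + (Rk κ r 0 : ℝ)) ^ 2) ≤ 2 * Cd * 2 ^ κ 0 := by
      have := gk_tk κ 0
      simp only [pow_zero, mul_one] at this
      simp only [Rk, if_true, Nat.cast_zero, add_zero, one_pow, div_one]
      have h := mul_le_mul_of_nonneg_right this hCd
      linarith
    have e1 : ∀ k ∈ Finset.range m, gk (tk κ) (k + 1) * (Cd / (1 + (Rk κ r (k + 1) : ℝ)) ^ 2) ≤
        2 * Cd * (1 / 2 ^ κ (k + 1)) := by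
      intro k _
      have h1 := gk_tk κ (k + 1)
      have h2 : (4 : ℝ) ^ (k + 1) * (2 ^ κ (k + 1)) ^ 2 ≤ (1 + (Rk κ r (k + 1) : ℝ)) ^ 2 := by
        have h3 : (2 : ℝ) ^ (k + 1) * 2 ^ κ (k + 1) ≤ 1 + (Rk κ r (k + 1) : ℝ) := by
          unfold Rk
          rw [if_neg (by omega)]
          push_cast
          rw [← pow_add]
          have : (2 : ℝ) ^ (k + 1 + κ (k + 1)) ≤ 2 ^ (k + 1 + κ (k + 1) + r) :=
            pow_le_pow_right₀ (by norm_num) (by omega)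
          linarith
        have h4 := pow_le_pow_left₀ (by positivity) h3 2
        refine le_trans (le_of_eq ?_) h4
        have e9 : ((2 : ℝ) ^ (k + 1)) ^ 2 = 4 ^ (k + 1) := by
          rw [← pow_mul, mul_comm (k + 1) 2, pow_mul]
          norm_num
        rw [mul_pow, e9]
      have hpos : (0 : ℝ) < (1 + (Rk κ r (k + 1) : ℝ)) ^ 2 := by positivity
      rw [mul_div_assoc', div_le_iff₀ hpos]
      have h5 : 2 * Cd * (1 / 2 ^ κ (k + 1)) * ((4 : ℝ) ^ (k + 1) * (2 ^ κ (k + 1)) ^ 2) =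
          (2 * 4 ^ (k + 1) * 2 ^ κ (k + 1)) * Cd := by
        field_simp
      have h6 := mul_le_mul_of_nonneg_left h2
        (show (0 : ℝ) ≤ 2 * Cd * (1 / 2 ^ κ (k + 1)) by positivity)
      rw [h5] at h6
      have h7 := mul_le_mul_of_nonneg_right h1 hCd
      linarith
    have e2 := Finset.sum_le_sum e1
    rw [← Finset.mul_sum] at e2
    have e3 : ∑ k ∈ Finset.range m, (1 : ℝ) / 2 ^ κ (k + 1) ≤
        ∑ k ∈ Finset.range (m + 1), 1 / 2 ^ κ k := by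
      rw [Finset.sum_range_succ' (fun k => (1 : ℝ) / 2 ^ κ k)]
      have : (0 : ℝ) ≤ 1 / 2 ^ κ 0 := by positivity
      linarith
    have e4 := mul_le_mul_of_nonneg_left e3 (show 0 ≤ 2 * Cd by positivity)
    rw [mul_add (2 * Cd)]
    linarith
  have h0 : 0 ≤ 2048 * (b * A ^ 2 + 4 * (K₁ * A ^ 4)) := by positivity
  have := mul_le_mul_of_nonneg_left key h0
  refine this.trans (le_of_eq ?_)
  ring

/-- the explicit error with `K` cores -/
noncomputable def eSK (N m n : ℕ) (κ : ℕ → ℕ) (r : ℕ) (b S A B B' Λ K : ℝ) : ℝ :=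
  32 * K * A ^ 2 * (1 + Real.log (2 * (1 + 2 ^ (1 + κ 1 + r)))) *
      ∑ k ∈ Finset.range m, (ek b S k + b / 2 ^ κ k) +
    32 * K * A ^ 2 * (1 + Real.log (1 + n)) * (ek b S m + b / 2 ^ κ m) +
    2 * B ^ 2 * (N ^ 2 * (ek b S m + b / 2 ^ κ m) + ∑ k ∈ Finset.range m,
      (ek b S k + b / 2 ^ κ k) * (32 * K * (1 + Rk κ r (k + 1)) ^ 2)) +
    2 ^ 16 * K * (b * A ^ 2 + 4 * (K4c b Λ * A ^ 4)) *
      (2 ^ κ 0 + ∑ k ∈ Finset.range (m + 1), 1 / 2 ^ κ k) +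
    (16 * (b * B' ^ 2) + 64 * (K4c b Λ * B ^ 4)) * (N ^ 2 * (4 ^ m * 2 ^ κ m))

lemma ePK_j1 {E F A K L : ℝ} (h : E ≤ F) (hF : 0 ≤ F) (hL : 0 ≤ L) (hK : 0 ≤ K) :
    2 * A ^ 2 * (8 * K * (1 + L) * E) ≤ 32 * K * A ^ 2 * (1 + L) * F := by
  have h2 := mul_le_mul_of_nonneg_left h (show 0 ≤ 16 * K * A ^ 2 * (1 + L) by positivity)
  have h4 : 0 ≤ 16 * K * A ^ 2 * (1 + L) * F := by positivity
  linarith

lemma ePK_j3 {E F E' F' B : ℝ} (hE : E ≤ F) (hE' : E' ≤ F') :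
    2 * B ^ 2 * ((N : ℝ) ^ 2 * E + E') ≤ 2 * B ^ 2 * ((N : ℝ) ^ 2 * F + F') :=
  mul_le_mul_of_nonneg_left (add_le_add (mul_le_mul_of_nonneg_left hE (by positivity)) hE')
    (by positivity)

lemma ePK_j4 {κ : ℕ → ℕ} {r : ℕ} {b A B B' Λ : ℝ} (hb : 0 ≤ b) (hK0 : 0 ≤ K) :
    eW6 N m (Rk κ r) (tk κ) b (K4c b Λ) A B B' (16 * K) (2 * 4 ^ m * 2 ^ κ m) ≤
      2 ^ 16 * K * (b * A ^ 2 + 4 * (K4c b Λ * A ^ 4)) *
      (2 ^ κ 0 + ∑ k ∈ Finset.range (m + 1), 1 / 2 ^ κ k) +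
    (16 * (b * B' ^ 2) + 64 * (K4c b Λ * B ^ 4)) * (N ^ 2 * (4 ^ m * 2 ^ κ m)) := by
  have hK : 0 ≤ K4c b Λ := by
    unfold K4c
    have := Real.cosh_pos Λ
    positivity
  have h1 := eW6_leK (N := N) (m := m) (κ := κ) (r := r) (A := A) (B := B) (B' := B')
    (G := 2 * 4 ^ m * 2 ^ κ m) (Cd := 16 * K) hb hK (by positivity)
  refine h1.trans (le_of_eq ?_)
  ring

lemma ePK_le {κ : ℕ → ℕ} {r : ℕ} {b S A B B' Λ : ℝ} (hb : 0 ≤ b) (hK0 : 0 ≤ K) :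
    ePK N m (Rk κ r) (tk κ) b S A B B' Λ (2 * (1 + 2 ^ (1 + κ 1 + r))) (1 + n)
      (2 * 4 ^ m * 2 ^ κ m) K ≤ eSK N m n κ r b S A B B' Λ K := by
  have hx := fun k => exS_tk hb S κ k
  have hL1 : 0 ≤ Real.log (2 * (1 + 2 ^ (1 + κ 1 + r))) := by
    refine Real.log_nonneg ?_
    have : (0 : ℝ) < 2 ^ (1 + κ 1 + r) := by positivity
    linarith
  have hL2 : 0 ≤ Real.log (1 + (n : ℝ)) := by
    refine Real.log_nonneg ?_
    have : (0 : ℝ) ≤ n := Nat.cast_nonneg n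
    linarith
  have s1 : ∑ k ∈ Finset.range m, exS b S (tk κ) k ≤
      ∑ k ∈ Finset.range m, (ek b S k + b / 2 ^ κ k) := Finset.sum_le_sum fun k _ => hx k
  have s2 : ∑ k ∈ Finset.range m, exS b S (tk κ) k * (32 * K * (1 + (Rk κ r (k + 1) : ℝ)) ^ 2) ≤
      ∑ k ∈ Finset.range m, (ek b S k + b / 2 ^ κ k) * (32 * K * (1 + (Rk κ r (k + 1) : ℝ)) ^ 2) :=
    Finset.sum_le_sum fun k _ => mul_le_mul_of_nonneg_right (hx k) (by positivity)
  have p1 : 0 ≤ ∑ k ∈ Finset.range m, (ek b S k + b / 2 ^ κ k) :=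
    Finset.sum_nonneg fun k _ => by have := ek_nonneg b S k; positivity
  have p2 : 0 ≤ ek b S m + b / 2 ^ κ m := by have := ek_nonneg b S m; positivity
  have j1 := ePK_j1 (A := A) s1 p1 hL1 hK0
  have j2 := ePK_j1 (A := A) (hx m) p2 hL2 hK0
  have j3 := ePK_j3 (N := N) (B := B) (hx m) s2
  have j4 := ePK_j4 (N := N) (m := m) (κ := κ) (r := r) (A := A) (B := B) (B' := B') (Λ := Λ)
    hb hK0
  unfold ePK eSK
  rw [mul_add (2 * A ^ 2)]
  exact add_le_add (add_le_add (add_le_add j1 j2) j3) j4 |>.trans (le_of_eq (by ring))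

/-- **SL5 for any neutral charge distribution, explicit form** -/
theorem sl5M {κ : ℕ → ℕ} (hκ : Monotone κ) (hκ1 : ∀ k, κ (k + 1) ≤ κ k + 1) {r : ℕ} (hr : 2 ≤ r)
    (hN : N = n * 2 ^ m) (hRm : Rk κ r m ≤ N) {b : ℝ} (hb : 0 ≤ b)
    (hdK : Cor d K) {ch : Tor N → ℝ} (hch : ∑ x, ch x = 0) (hd : Near d ch)
    {α β α' β' : ℝ} {η : Tor N × Bool → ℤ} {f : Tor N → ℝ}
    (hf : ∀ e, (η e : ℝ) + gr f e = jR ch α β e)
    {M : Matrix (Tor N) (Tor N) ℝ} (hMs : Mᵀ = M) {m0 : ℝ} (hm0 : 0 < m0)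
    (hM : ∀ u : Tor N → ℝ, m0 * ∑ x, u x ^ 2 ≤ qf M u)
    {S : ℝ} (hS : 0 < S) (F w g : Tor N → ℝ)
    (hJ : ∀ x, (M *ᵥ F) x = (M *ᵥ w) x + dv (gr g) x)
    {A B B' Λ : ℝ} (hc : FldB (Rk κ r) d (cR ch α' β' (1 / S) g) A B B' Λ) :
    ZM (wTD N b η) M (f + F) ≤
      Real.exp (-((qf M F - qf M w) / 2) + S / 2 * nrm (gr g) -
        1 / (2 * S) * (enR ch + (N : ℝ) ^ 2 * (2 * (α * α' + β * β') - (α' ^ 2 + β' ^ 2))) +
        eSK N m n κ r b S A B B' Λ K) * ZM (wT b N) M 0 := by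
  have h := multi_up (grd hκ hκ1 hr hN hRm) hb hdK hch hd hf hMs hm0 hM hS F w g hJ hc
  refine h.trans (mul_le_mul_of_nonneg_right (Real.exp_le_exp.2 ?_) (ZM_nonneg hb M))
  have := ePK_le (N := N) (m := m) (n := n) (κ := κ) (r := r) (S := S) (A := A) (B := B)
    (B' := B') (Λ := Λ) (K := K) hb hdK.K0
  linarith

/-- from all constant shifts to the neutral partition function -/
lemma Zn_le_of {b : ℝ} (hb : 0 ≤ b) {η : Tor N × Bool → ℤ} {M : Matrix (Tor N) (Tor N) ℝ}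
    {F : Tor N → ℝ} {E : ℝ} (h : ∀ c : ℝ, ZM (wTD N b η) M (fun x => F x + c) ≤ E) :
    Zn (wTD N b η) M F ≤ E := by
  have h0 : ∀ c : ℝ, 0 ≤ ZM (wTD N b η) M (fun x => F x + c) := by
    intro c
    unfold ZM
    refine tsum_nonneg fun h => ?_
    refine mul_nonneg ?_ (Real.exp_pos _).le
    rw [H770.wTD_eq]
    exact Finset.prod_nonneg fun x _ => mul_nonneg (wI_nonneg hb _) (wI_nonneg hb _)
  unfold Zn
  have h1 := intervalIntegral.norm_integral_le_of_norm_le_const (a := (0 : ℝ)) (b := 1) (C := E)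
    (f := fun c => ZM (wTD N b η) M (fun x => F x + c)) (fun c _ => by
      rw [Real.norm_eq_abs, abs_of_nonneg (h0 c)]
      exact h c)
  rw [sub_zero, abs_one, mul_one] at h1
  exact (le_abs_self _).trans h1

/-- **SL5 for any neutral charge distribution, neutral form** -/
theorem sl5M_Zn {κ : ℕ → ℕ} (hκ : Monotone κ) (hκ1 : ∀ k, κ (k + 1) ≤ κ k + 1) {r : ℕ}
    (hr : 2 ≤ r) (hN : N = n * 2 ^ m) (hRm : Rk κ r m ≤ N) {b : ℝ} (hb : 0 ≤ b)
    (hdK : Cor d K) {ch : Tor N → ℝ} (hch : ∑ x, ch x = 0) (hd : Near d ch)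
    {α β α' β' : ℝ} {η : Tor N × Bool → ℤ} {f : Tor N → ℝ}
    (hf : ∀ e, (η e : ℝ) + gr f e = jR ch α β e)
    {M : Matrix (Tor N) (Tor N) ℝ} (hMs : Mᵀ = M) {m0 : ℝ} (hm0 : 0 < m0)
    (hM : ∀ u : Tor N → ℝ, m0 * ∑ x, u x ^ 2 ≤ qf M u)
    {S : ℝ} (hS : 0 < S) (F w g : Tor N → ℝ)
    (hJ : ∀ x, (M *ᵥ F) x = (M *ᵥ w) x + dv (gr g) x)
    {A B B' Λ : ℝ} (hc : FldB (Rk κ r) d (cR ch α' β' (1 / S) g) A B B' Λ) :
    Zn (wTD N b η) M (f + F) ≤
      Real.exp (-((qf M F - qf M w) / 2) + S / 2 * nrm (gr g) -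
        1 / (2 * S) * (enR ch + (N : ℝ) ^ 2 * (2 * (α * α' + β * β') - (α' ^ 2 + β' ^ 2))) +
        eSK N m n κ r b S A B B' Λ K) * ZM (wT b N) M 0 := by
  refine Zn_le_of hb fun c => ?_
  have h := sl5M hκ hκ1 hr hN hRm hb hdK hch hd hf hMs hm0 hM hS (F + fun _ => c)
    (w + fun _ => c) g
    (fun x => by
      rw [Matrix.mulVec_add, Matrix.mulVec_add, Pi.add_apply, Pi.add_apply, hJ x]
      ring) hc
  have e1 : (fun x => (f + F) x + c) = f + (F + fun _ => c) := by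
    funext x
    simp only [Pi.add_apply]
    ring
  have e2 : qf M (F + fun _ => c) - qf M (w + fun _ => c) = qf M F - qf M w := by
    have a1 : ∀ u : Tor N → ℝ, qf M (u + fun _ => c) = qf M u + qf M (fun _ => c) +
        2 * ∑ x, c * (M *ᵥ u) x := by
      intro u
      have h1 := H37.qf_sub_vec hMs u (-fun _ => c)
      rw [sub_neg_eq_add] at h1
      have h2 : qf M (-fun _ => c) = qf M (fun _ => c) := H37.qf_neg _ _
      have h3 : bf M u (-fun _ => c) = -∑ x, c * (M *ᵥ u) x := by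
        rw [H37.bf_comm hMs, H37.bf_eq, neg_dotProduct]
        rfl
      rw [h1, h2, h3]
      ring
    rw [a1, a1, ← Finset.mul_sum, ← Finset.mul_sum]
    have a2 : ∑ x, (M *ᵥ F) x = ∑ x, (M *ᵥ w) x := by
      simp_rw [hJ]
      rw [Finset.sum_add_distrib, H817.sum_dv, add_zero]
    rw [a2]
    ring
  rw [e1]
  rw [e2] at h
  exact h

/-! ### no background: every real source -/

/-- **any integer field with the circulation `ch`, any real background, any harmonic part** -/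
theorem sl5A {κ : ℕ → ℕ} (hκ : Monotone κ) (hκ1 : ∀ k, κ (k + 1) ≤ κ k + 1) {r : ℕ} (hr : 2 ≤ r)
    (hN : N = n * 2 ^ m) (hRm : Rk κ r m ≤ N) {b : ℝ} (hb : 0 ≤ b)
    (hdK : Cor d K) {ch : Tor N → ℝ} (hch : ∑ x, ch x = 0) (hd : Near d ch)
    {η : Tor N × Bool → ℤ} (hη : ∀ x, ((cuZ η x : ℤ) : ℝ) = ch x)
    {M : Matrix (Tor N) (Tor N) ℝ} (hMs : Mᵀ = M) {m0 : ℝ} (hm0 : 0 < m0)
    (hM : ∀ u : Tor N → ℝ, m0 * ∑ x, u x ^ 2 ≤ qf M u) {S : ℝ} (hS : 0 < S)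
    (hone : 4 * CG * qa ch * (1 / S) ≤ 1 + (Rk κ r 1 : ℝ)) (F : Tor N → ℝ) :
    ZM (wTD N b η) M F ≤
      Real.exp (-(1 / (2 * S) * enR ch) +
        eSK N m n κ r b S (4 * CG * qa ch * (1 / S)) 0 0 (1 + 4 * CG * qa ch * (1 / S)) K) *
        ZM (wT b N) M 0 := by
  have hcu : ∀ x, cu (fun e => (η e : ℝ)) x = ch x := by
    intro x
    rw [← hη x]
    unfold cuZ H817.cu H817.e1 H817.e2
    push_cast
    rfl
  obtain ⟨f, hf⟩ := hodgeR hch hcu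
  have hS' : |1 / S| = 1 / S := abs_of_pos (by positivity)
  have g0 : ∀ e, gr (0 : Tor N → ℝ) e = 0 := by
    intro e
    unfold H817.gr
    split_ifs <;> simp
  have hB := cR_bounds (R := Rk κ r) hd 0 0 (1 / S) (0 : Tor N → ℝ) (B₁ := 0) (B' := 0) le_rfl
    le_rfl (fun e => by rw [g0, abs_zero]) (fun x t => by rw [g0, g0, sub_self, abs_zero])
    (fun x t => by rw [g0, g0, sub_self, abs_zero]) (by
      simp only [hS', abs_zero, add_zero, mul_zero]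
      rw [div_le_one (by positivity)]
      exact hone)
  simp only [hS', abs_zero, add_zero, mul_zero] at hB
  have h := sl5M hκ hκ1 hr hN hRm hb hdK hch hd hf hMs hm0 hM hS (F - f) (F - f) 0
    (fun x => by
      have : gr (0 : Tor N → ℝ) = fun _ => 0 := funext g0
      rw [this]
      unfold H817.dv
      ring) hB
  have e1 : f + (F - f) = F := by abel
  have e2 : nrm (gr (0 : Tor N → ℝ)) = 0 := by
    unfold H817.nrm
    simp [g0]
  rw [e1, e2] at h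
  refine h.trans (mul_le_mul_of_nonneg_right (Real.exp_le_exp.2 (le_of_eq ?_)) (ZM_nonneg hb M))
  ring

end mul

end Vale.Agent.P159.H513
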