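import Vale.Agent.P159.H513.Eta12

/-!
**SL5 for finitely many point charges**, and the quadrupole of a charge with its three mirror
images: a charge costs a quarter of the energy of the quadrupole.
-/

set_option linter.all false

open MeasureTheory Filter Topology Matrix

namespace Vale.Agent.P159.H513

open Vale.Agent.P159 Vale.Agent.P159.H353 Vale.Agent.P159.R2.H254 Vale.Agent.P159.H950
open Vale.Agent.P159.T1.H934 Vale.Agent.P159.T1.H731
open Vale.Agent.P159.H37 (qf bf re wM ZM Zs Zn)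
open Vale.Agent.P159.TM.SpecC (Tor wT)
open Vale.Agent.P159.H770 (wTD)
open Vale.Agent.P159.H817 (sz gr dv cu rot cst cG CG nrm lp mnj G0 aN)

section chf

variable {N : ℕ} [NeZero N] {ι : Type*} [Fintype ι]

/-- the point charges `q i` at `p i` -/
noncomputable def chF (p : ι → Tor N) (q : ι → ℝ) (x : Tor N) : ℝ :=
  ∑ i, if x = p i then q i else 0

lemma sum_chF_mul (p : ι → Tor N) (q : ι → ℝ) (u : Tor N → ℝ) :
    ∑ x, chF p q x * u x = ∑ i, q i * u (p i) := by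
  classical
  unfold chF
  simp_rw [Finset.sum_mul]
  rw [Finset.sum_comm]
  refine Finset.sum_congr rfl fun i _ => ?_
  simp_rw [ite_mul, zero_mul]
  rw [Finset.sum_ite_eq' Finset.univ (p i)]
  simp

lemma sum_chF (p : ι → Tor N) (q : ι → ℝ) : ∑ x, chF p q x = ∑ i, q i := by
  have := sum_chF_mul p q fun _ => 1
  simpa using this

lemma qa_chF (p : ι → Tor N) (q : ι → ℝ) : qa (chF p q) ≤ ∑ i, |q i| := by
  classical
  unfold qa chF
  refine (Finset.sum_le_sum fun x _ => Finset.abs_sum_le_sum_abs _ _).trans ?_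
  rw [Finset.sum_comm]
  refine Finset.sum_le_sum fun i _ => ?_
  have : ∀ x : Tor N, |if x = p i then q i else 0| = if x = p i then |q i| else 0 := by
    intro x
    split_ifs
    · rfl
    · exact abs_zero
  simp_rw [this]
  rw [Finset.sum_ite_eq' Finset.univ (p i)]
  simp

lemma chF_ne {p : ι → Tor N} {q : ι → ℝ} {x : Tor N} (h : chF p q x ≠ 0) : ∃ i, x = p i := by
  by_contra hc
  push Not at hc
  refine h ?_
  unfold chF
  exact Finset.sum_eq_zero fun i _ => if_neg (hc i)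

/-- the energy of point charges -/
lemma enR_chF (p : ι → Tor N) {q : ι → ℝ} (hq : ∑ i, q i = 0) :
    enR (chF p q) = -∑ i, ∑ j, q i * q j * aN (p i - p j) := by
  have h0 : ∑ x, chF p q x = 0 := by rw [sum_chF, hq]
  rw [enR_aN h0]
  congr 1
  have e1 : ∀ x : Tor N, ∑ y, chF p q x * chF p q y * aN (x - y) =
      chF p q x * ∑ j, q j * aN (x - p j) := by
    intro x
    rw [← sum_chF_mul p q fun y => aN (x - y), Finset.mul_sum]
    exact Finset.sum_congr rfl fun y _ => by ring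
  simp_rw [e1]
  rw [sum_chF_mul p q fun x => ∑ j, q j * aN (x - p j)]
  refine Finset.sum_congr rfl fun i _ => ?_
  rw [Finset.mul_sum]
  exact Finset.sum_congr rfl fun j _ => by ring

/-- the distance to the points `p` -/
noncomputable def dF [Nonempty ι] (p : ι → Tor N) : Tor N → ℕ :=
  dP (Finset.univ.image p) (Finset.univ_nonempty.image p)

lemma near_dF [Nonempty ι] (p : ι → Tor N) (q : ι → ℝ) : Near (dF p) (chF p q) := by
  intro x y hy
  obtain ⟨i, rfl⟩ := chF_ne hy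
  exact dP_le _ (Finset.mem_image_of_mem p (Finset.mem_univ i)) x

lemma Cor.mono {d : Tor N → ℕ} {K K' : ℝ} (h : Cor d K) (hK : K ≤ K') : Cor d K' where
  K0 := h.K0.trans hK
  lip := h.lip
  leN := h.leN
  sum g hg := (h.sum g hg).trans
    (mul_le_mul_of_nonneg_right hK (Finset.sum_nonneg fun x _ => hg _))

lemma cor_dF [Nonempty ι] (p : ι → Tor N) : Cor (dF p) (Fintype.card ι) := by
  refine (cor_dP (Finset.univ_nonempty.image p)).mono ?_
  have : (Finset.univ.image p).card ≤ Fintype.card ι := Finset.card_image_le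
  exact_mod_cast this

end chf

section num

variable {N : ℕ} [NeZero N] {m n : ℕ}

lemma FldB.monoA {R : ℕ → ℕ} {d : Tor N → ℕ} {c : Tor N × Bool → ℝ} {A B B' Λ A' Λ' : ℝ}
    (h : FldB R d c A B B' Λ) (hA : A ≤ A') (hΛ : Λ ≤ Λ') : FldB R d c A' B B' Λ' where
  hA := h.hA.trans hA
  hB := h.hB
  hB' := h.hB'
  hΛ := h.hΛ.trans hΛ
  b0 x t := (h.b0 x t).trans (add_le_add (div_le_div_of_nonneg_right hA (by positivity)) le_rfl)
  b1 x t := (h.b1 x t).trans (add_le_add (div_le_div_of_nonneg_right hA (by positivity)) le_rfl)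
  b2 x t := (h.b2 x t).trans (add_le_add (div_le_div_of_nonneg_right hA (by positivity)) le_rfl)
  bΛ e := (h.bΛ e).trans hΛ
  one := h.one

/-- the error of the core field (no background) -/
noncomputable def eQ (m n : ℕ) (κ : ℕ → ℕ) (r : ℕ) (b S A K : ℝ) : ℝ :=
  32 * K * A ^ 2 * (1 + Real.log (2 * (1 + 2 ^ (1 + κ 1 + r)))) *
      ∑ k ∈ Finset.range m, (ek b S k + b / 2 ^ κ k) +
    32 * K * A ^ 2 * (1 + Real.log (1 + n)) * (ek b S m + b / 2 ^ κ m) +
    2 ^ 16 * K * (b * A ^ 2 + 4 * (K4c b (1 + A) * A ^ 4)) *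
      (2 ^ κ 0 + ∑ k ∈ Finset.range (m + 1), 1 / 2 ^ κ k)

lemma eSK_zero {κ : ℕ → ℕ} {r : ℕ} {b S A K : ℝ} :
    eSK N m n κ r b S A 0 0 (1 + A) K = eQ m n κ r b S A K := by
  unfold eSK eQ
  ring

/-- **SL5 for a neutral charge distribution of total charge at most `Q`**: every integer field
with this circulation, every real background, every harmonic part -/
theorem sl5Q {κ : ℕ → ℕ} (hκ : Monotone κ) (hκ1 : ∀ k, κ (k + 1) ≤ κ k + 1) {r : ℕ} (hr : 2 ≤ r)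
    (hN : N = n * 2 ^ m) (hRm : Rk κ r m ≤ N) {b : ℝ} (hb : 0 ≤ b) {d : Tor N → ℕ} {K : ℝ}
    (hdK : Cor d K) {ch : Tor N → ℝ} (hch : ∑ x, ch x = 0) (hd : Near d ch)
    {η : Tor N × Bool → ℤ} (hη : ∀ x, ((cuZ η x : ℤ) : ℝ) = ch x)
    {M : Matrix (Tor N) (Tor N) ℝ} (hMs : Mᵀ = M) {m0 : ℝ} (hm0 : 0 < m0)
    (hM : ∀ u : Tor N → ℝ, m0 * ∑ x, u x ^ 2 ≤ qf M u) {S : ℝ} (hS : 0 < S) {Q : ℝ}
    (hQ : qa ch ≤ Q) (hone : 4 * CG * Q * (1 / S) ≤ 1 + (Rk κ r 1 : ℝ)) (F : Tor N → ℝ) :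
    ZM (wTD N b η) M F ≤
      Real.exp (-(1 / (2 * S) * enR ch) + eQ m n κ r b S (4 * CG * Q * (1 / S)) K) *
        ZM (wT b N) M 0 := by
  have hC := H817.CG_pos
  have hcu : ∀ x, cu (fun e => (η e : ℝ)) x = ch x := by
    intro x
    rw [← hη x]
    unfold cuZ H817.cu H817.e1 H817.e2
    push_cast
    rfl
  have hq1 : 4 * CG * qa ch * (1 / S) ≤ 4 * CG * Q * (1 / S) :=
    mul_le_mul_of_nonneg_right (mul_le_mul_of_nonneg_left hQ (by positivity)) (by positivity)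
  obtain ⟨f, hf⟩ := hodgeR hch hcu
  have hS' : |1 / S| = 1 / S := abs_of_pos (by positivity)
  have g0 : ∀ e, gr (0 : Tor N → ℝ) e = 0 := by
    intro e
    unfold H817.gr
    split_ifs <;> simp
  have hB := cR_bounds (R := Rk κ r) hd 0 0 (1 / S) (0 : Tor N → ℝ) (B₁ := 0) (B' := 0) le_rfl
    le_rfl (fun e => by rw [g0, abs_zero]) (fun x t => by rw [g0, g0, sub_self, abs_zero])
    (fun x t => by rw [g0, g0, sub_self, abs_zero]) (by
      simp only [hS', abs_zero, add_zero, mul_zero]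
      rw [div_le_one (by positivity)]
      exact hq1.trans hone)
  simp only [hS', abs_zero, add_zero, mul_zero] at hB
  have hB2 := FldB.monoA hB hq1 (add_le_add_right hq1 1)
  have h := sl5M hκ hκ1 hr hN hRm hb hdK hch hd hf hMs hm0 hM hS (F - f) (F - f) 0
    (fun x => by
      have : gr (0 : Tor N → ℝ) = fun _ => 0 := funext g0
      rw [this]
      unfold H817.dv
      ring) hB2
  have e1 : f + (F - f) = F := by abel
  have e2 : nrm (gr (0 : Tor N → ℝ)) = 0 := by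
    unfold H817.nrm
    simp [g0]
  rw [e1, e2, eSK_zero] at h
  refine h.trans (mul_le_mul_of_nonneg_right (Real.exp_le_exp.2 (le_of_eq ?_)) (ZM_nonneg hb M))
  ring

/-- neutral form -/
theorem sl5Q_Zn {κ : ℕ → ℕ} (hκ : Monotone κ) (hκ1 : ∀ k, κ (k + 1) ≤ κ k + 1) {r : ℕ}
    (hr : 2 ≤ r)
    (hN : N = n * 2 ^ m) (hRm : Rk κ r m ≤ N) {b : ℝ} (hb : 0 ≤ b) {d : Tor N → ℕ} {K : ℝ}
    (hdK : Cor d K) {ch : Tor N → ℝ} (hch : ∑ x, ch x = 0) (hd : Near d ch)
    {η : Tor N × Bool → ℤ} (hη : ∀ x, ((cuZ η x : ℤ) : ℝ) = ch x)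
    {M : Matrix (Tor N) (Tor N) ℝ} (hMs : Mᵀ = M) {m0 : ℝ} (hm0 : 0 < m0)
    (hM : ∀ u : Tor N → ℝ, m0 * ∑ x, u x ^ 2 ≤ qf M u) {S : ℝ} (hS : 0 < S) {Q : ℝ}
    (hQ : qa ch ≤ Q) (hone : 4 * CG * Q * (1 / S) ≤ 1 + (Rk κ r 1 : ℝ)) (F : Tor N → ℝ) :
    Zn (wTD N b η) M F ≤
      Real.exp (-(1 / (2 * S) * enR ch) + eQ m n κ r b S (4 * CG * Q * (1 / S)) K) *
        ZM (wT b N) M 0 :=
  Zn_le_of hb fun c => sl5Q hκ hκ1 hr hN hRm hb hdK hch hd hη hMs hm0 hM hS hQ hone _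

/-! ### the quadrupole -/

/-- charges of the quadrupole -/
def qq : Fin 4 → ℝ := ![1, -1, -1, 1]

lemma sum_qq : ∑ i, qq i = 0 := by
  simp [qq, Fin.sum_univ_four]

lemma abs_qq : ∑ i, |qq i| = 4 := by
  simp [qq, Fin.sum_univ_four]
  norm_num

lemma aN_zero : aN (0 : Tor N) = 0 := by
  unfold H817.aN
  exact sub_self _

lemma aN_neg (x : Tor N) : aN (-x) = aN x := by
  unfold H817.aN
  rw [H817.G0_neg]

/-- energy of the quadrupole: a charge and its three mirror images -/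
lemma enR_quad {p : Fin 4 → Tor N} {u v : ZMod N} (h01 : p 0 - p 1 = (u, 0))
    (h02 : p 0 - p 2 = (0, v)) (h03 : p 0 - p 3 = (u, v)) :
    enR (chF p qq) = 4 * aN ((u, 0) : Tor N) + 4 * aN ((0, v) : Tor N) -
      2 * aN ((u, v) : Tor N) - 2 * aN ((-u, v) : Tor N) := by
  rw [enR_chF p sum_qq]
  have h13 : p 1 - p 3 = (0, v) := by
    have : p 1 - p 3 = (p 0 - p 3) - (p 0 - p 1) := by abel
    rw [this, h03, h01]
    ext <;> simp
  have h23 : p 2 - p 3 = (u, 0) := by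
    have : p 2 - p 3 = (p 0 - p 3) - (p 0 - p 2) := by abel
    rw [this, h03, h02]
    ext <;> simp
  have h12 : p 1 - p 2 = (-u, v) := by
    have : p 1 - p 2 = (p 0 - p 2) - (p 0 - p 1) := by abel
    rw [this, h02, h01]
    ext <;> simp
  have r01 : aN (p 1 - p 0) = aN ((u, 0) : Tor N) := by rw [← aN_neg, neg_sub, h01]
  have r02 : aN (p 2 - p 0) = aN ((0, v) : Tor N) := by rw [← aN_neg, neg_sub, h02]
  have r03 : aN (p 3 - p 0) = aN ((u, v) : Tor N) := by rw [← aN_neg, neg_sub, h03]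
  have r13 : aN (p 3 - p 1) = aN ((0, v) : Tor N) := by rw [← aN_neg, neg_sub, h13]
  have r23 : aN (p 3 - p 2) = aN ((u, 0) : Tor N) := by rw [← aN_neg, neg_sub, h23]
  have r12 : aN (p 2 - p 1) = aN ((-u, v) : Tor N) := by rw [← aN_neg, neg_sub, h12]
  simp only [Fin.sum_univ_four, sub_self, aN_zero, r01, r02, r03, r13, r23, r12, h01, h02, h03,
    h13, h23, h12]
  simp [qq]
  ring

lemma sz_left (u : ZMod N) : sz ((u, 0) : Tor N) = u.valMinAbs.natAbs := by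
  unfold H817.sz
  simp

lemma sz_right (v : ZMod N) : sz ((0, v) : Tor N) = v.valMinAbs.natAbs := by
  unfold H817.sz
  simp

lemma sx_left (u : ZMod N) : H474.sx ((u, 0) : Tor N) = (u.valMinAbs.natAbs : ℝ) ^ 2 := by
  unfold H474.sx
  rw [Nat.cast_natAbs, Int.cast_abs, sq_abs]
  simp

lemma sx_right (v : ZMod N) : H474.sx ((0, v) : Tor N) = (v.valMinAbs.natAbs : ℝ) ^ 2 := by
  unfold H474.sx
  rw [Nat.cast_natAbs, Int.cast_abs, sq_abs]
  simp

lemma sx_both (u v : ZMod N) : H474.sx ((u, v) : Tor N) =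
    (u.valMinAbs.natAbs : ℝ) ^ 2 + (v.valMinAbs.natAbs : ℝ) ^ 2 := by
  unfold H474.sx
  rw [Nat.cast_natAbs, Int.cast_abs, sq_abs, Nat.cast_natAbs, Int.cast_abs, sq_abs]

/-- **energy of the quadrupole** -/
theorem enR_quad_ge : ∃ Cq : ℝ, 0 ≤ Cq ∧ ∀ (N : ℕ) [NeZero N] (p : Fin 4 → Tor N) (u v : ZMod N),
    p 0 - p 1 = (u, 0) → p 0 - p 2 = (0, v) → p 0 - p 3 = (u, v) →
    ∀ ℓ : ℝ, 1 ≤ ℓ → ℓ ≤ u.valMinAbs.natAbs → ℓ ≤ v.valMinAbs.natAbs →
    2 / Real.pi * Real.log ℓ - Cq ≤ enR (chF p qq) := by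
  obtain ⟨ca, hca⟩ := H817.aN_log
  have hpi := Real.pi_pos
  refine ⟨4 * |ca| + 12 * 720000 + Real.log 2 / Real.pi, by
    have := Real.log_nonneg (show (1 : ℝ) ≤ 2 by norm_num)
    positivity, ?_⟩
  intro N _ p u v h01 h02 h03 ℓ hℓ hu hv
  rw [enR_quad h01 h02 h03]
  have hU : (1 : ℝ) ≤ u.valMinAbs.natAbs := hℓ.trans hu
  have hV : (1 : ℝ) ≤ v.valMinAbs.natAbs := hℓ.trans hv
  have hneg : ((-u).valMinAbs.natAbs) = u.valMinAbs.natAbs := ZMod.natAbs_valMinAbs_neg u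
  have err : ∀ x : Tor N, (1 : ℝ) ≤ sz x → (20000 : ℝ) / sz x + 700000 * √(sz x / N) ≤ 720000 := by
    intro x hx
    have h1 : (20000 : ℝ) / sz x ≤ 20000 := div_le_self (by norm_num) hx
    have h2 : √((sz x : ℝ) / N) ≤ 1 := by
      rw [Real.sqrt_le_one]
      have hN : (0 : ℝ) < N := Nat.cast_pos.2 (NeZero.pos N)
      rw [div_le_one hN]
      exact_mod_cast H817.sz_le_N x
    linarith
  have ne : ∀ x : Tor N, (1 : ℝ) ≤ sz x → x ≠ 0 := by
    intro x hx h0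
    rw [h0, H817.sz_zero] at hx
    norm_num at hx
  have szle : ∀ a c : ZMod N, (1 : ℝ) ≤ a.valMinAbs.natAbs → (1 : ℝ) ≤ sz ((a, c) : Tor N) := by
    intro a c ha
    refine ha.trans ?_
    have : a.valMinAbs.natAbs ≤ sz ((a, c) : Tor N) := le_max_left _ _
    exact_mod_cast this
  have s1 : (1 : ℝ) ≤ sz ((u, 0) : Tor N) := szle u 0 hU
  have s2 : (1 : ℝ) ≤ sz ((0, v) : Tor N) := by rw [sz_right]; exact hV
  have s3 : (1 : ℝ) ≤ sz ((u, v) : Tor N) := szle u v hU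
  have s4 : (1 : ℝ) ≤ sz ((-u, v) : Tor N) := szle (-u) v (by rw [hneg]; exact hU)
  have a1 := (hca N (u, 0) (ne _ s1)).trans (err _ s1)
  have a2 := (hca N (0, v) (ne _ s2)).trans (err _ s2)
  have a3 := (hca N (u, v) (ne _ s3)).trans (err _ s3)
  have a4 := (hca N (-u, v) (ne _ s4)).trans (err _ s4)
  rw [sx_left, Real.log_pow] at a1
  rw [sx_right, Real.log_pow] at a2
  rw [sx_both] at a3 a4
  rw [hneg] at a4
  set U : ℝ := (u.valMinAbs.natAbs : ℝ) with hUd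
  set V : ℝ := (v.valMinAbs.natAbs : ℝ) with hVd
  have k1 : Real.log (U ^ 2 + V ^ 2) ≤ Real.log 2 + 2 * (Real.log U + Real.log V - Real.log ℓ) := by
    have h1 : U ^ 2 + V ^ 2 ≤ 2 * (U * V / ℓ) ^ 2 := by
      have e1 : U ≤ U * V / ℓ := by
        rw [le_div_iff₀ (by linarith)]
        exact mul_le_mul_of_nonneg_left hv (by linarith)
      have e2 : V ≤ U * V / ℓ := by
        rw [le_div_iff₀ (by linarith), mul_comm U V]
        exact mul_le_mul_of_nonneg_left hu (by linarith)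
      have e3 := pow_le_pow_left₀ (by linarith) e1 2
      have e4 := pow_le_pow_left₀ (by linarith) e2 2
      linarith
    have h2 := Real.log_le_log (by positivity) h1
    have hU0 : U ≠ 0 := by linarith
    have hV0 : V ≠ 0 := by linarith
    have hl0 : ℓ ≠ 0 := by linarith
    rw [Real.log_mul (by norm_num) (by positivity), Real.log_pow,
      Real.log_div (mul_ne_zero hU0 hV0) hl0, Real.log_mul hU0 hV0] at h2
    push_cast at h2
    exact h2
  have b1 := (abs_le.1 a1).1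
  have b2 := (abs_le.1 a2).1
  have b3 := (abs_le.1 a3).2
  have b4 := (abs_le.1 a4).2
  push_cast at b1 b2
  have c1 : 2 / Real.pi * Real.log ℓ - Real.log 2 / Real.pi ≤
      4 * (2 * Real.log U / (4 * Real.pi)) + 4 * (2 * Real.log V / (4 * Real.pi)) -
      4 * (Real.log (U ^ 2 + V ^ 2) / (4 * Real.pi)) := by
    have e1 : 4 * (2 * Real.log U / (4 * Real.pi)) + 4 * (2 * Real.log V / (4 * Real.pi)) -
      4 * (Real.log (U ^ 2 + V ^ 2) / (4 * Real.pi)) - (2 / Real.pi * Real.log ℓ -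
        Real.log 2 / Real.pi) =
      (Real.log 2 + 2 * (Real.log U + Real.log V - Real.log ℓ) - Real.log (U ^ 2 + V ^ 2)) /
        Real.pi := by
      field_simp
      ring
    have e2 : 0 ≤ (Real.log 2 + 2 * (Real.log U + Real.log V - Real.log ℓ) -
      Real.log (U ^ 2 + V ^ 2)) / Real.pi := div_nonneg (by linarith) hpi.le
    linarith
  have c2 := neg_abs_le ca
  linarith

/-- distance of a class to `0` -/
lemma natAbs_ge {k l : ℕ} (h1 : l ≤ k) (h2 : k + l ≤ N) :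
    l ≤ ((k : ZMod N).valMinAbs).natAbs := by
  rcases Nat.eq_zero_or_pos l with h0 | h0
  · omega
  have hk : k < N := by omega
  have e1 : (k : ZMod N).val = k := ZMod.val_cast_of_lt hk
  rw [ZMod.valMinAbs_natAbs_eq_min, e1]
  omega

/-- **the quadrupole bound**: a charge and its three mirror images, any real background -/
theorem quad_up : ∃ Cq : ℝ, 0 ≤ Cq ∧ ∀ (N m n : ℕ) [NeZero N] (κ : ℕ → ℕ) (r : ℕ) (b S : ℝ)
    (p : Fin 4 → Tor N) (u v : ZMod N) (ℓ : ℝ) (η : Tor N × Bool → ℤ)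
    (M : Matrix (Tor N) (Tor N) ℝ) (m0 : ℝ) (F : Tor N → ℝ),
    Monotone κ → (∀ k, κ (k + 1) ≤ κ k + 1) → 2 ≤ r → N = n * 2 ^ m → Rk κ r m ≤ N → 0 ≤ b →
    0 < S → 16 * CG * (1 / S) ≤ 1 + (Rk κ r 1 : ℝ) →
    p 0 - p 1 = (u, 0) → p 0 - p 2 = (0, v) → p 0 - p 3 = (u, v) →
    1 ≤ ℓ → ℓ ≤ u.valMinAbs.natAbs → ℓ ≤ v.valMinAbs.natAbs →
    (∀ x, ((cuZ η x : ℤ) : ℝ) = chF p qq x) → Mᵀ = M → 0 < m0 →
    (∀ w : Tor N → ℝ, m0 * ∑ x, w x ^ 2 ≤ qf M w) →
    ZM (wTD N b η) M F ≤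
      Real.exp (-(1 / (2 * S) * (2 / Real.pi * Real.log ℓ - Cq)) +
        eQ m n κ r b S (16 * CG * (1 / S)) 4) * ZM (wT b N) M 0 := by
  obtain ⟨Cq, hC0, hCq⟩ := enR_quad_ge
  refine ⟨Cq, hC0, ?_⟩
  intro N m n _ κ r b S p u v ℓ η M m0 F hκ hκ1 hr hN hRm hb hS hone h01 h02 h03 hℓ hu hv hη hMs
    hm0 hM
  have hen := hCq N p u v h01 h02 h03 ℓ hℓ hu hv
  have hch : ∑ x, chF p qq x = 0 := by rw [sum_chF, sum_qq]
  have hQ : qa (chF p qq) ≤ 4 := (qa_chF p qq).trans (le_of_eq abs_qq)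
  have e4 : 4 * CG * 4 * (1 / S) = 16 * CG * (1 / S) := by ring
  have h := sl5Q hκ hκ1 hr hN hRm hb (cor_dF p) hch (near_dF p qq) hη hMs hm0 hM hS hQ
    (by rw [e4]; exact hone) F
  rw [e4] at h
  have e5 : ((Fintype.card (Fin 4) : ℕ) : ℝ) = 4 := by simp
  rw [e5] at h
  refine h.trans (mul_le_mul_of_nonneg_right (Real.exp_le_exp.2 ?_) (ZM_nonneg hb M))
  have := mul_le_mul_of_nonneg_left hen (show 0 ≤ 1 / (2 * S) by positivity)
  linarith

end num

end Vale.Agent.P159.H513
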