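import Vale.Agent.P159.H513.Eta13

/-!
**SL5 in numbers**: on the torus of side `2 ^ R` a neutral charge distribution costs
`enR ch / (2 S)` up to `C K (1 + sum of the excess of the block stiffness over S)`.
-/

set_option linter.all false

open MeasureTheory Filter Topology Matrix

namespace Vale.Agent.P159.H513

open Vale.Agent.P159 Vale.Agent.P159.H353 Vale.Agent.P159.R2.H254 Vale.Agent.P159.H950
open Vale.Agent.P159.T1.H934 Vale.Agent.P159.T1.H731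
open Vale.Agent.P159.H37 (qf bf re wM ZM Zs Zn)
open Vale.Agent.P159.TM.SpecC (Tor wT)
open Vale.Agent.P159.H770 (wTD)
open Vale.Agent.P159.H817 (sz gr dv cu rot cst cG CG nrm lp mnj G0 aN)

/-- the exponents -/
@[irreducible] def kl (k : ℕ) : ℕ := Nat.clog 2 ((k + 3) ^ 2)

lemma kl_mono : Monotone kl := fun i j h => by
  unfold kl
  exact Nat.clog_mono_right 2 (Nat.pow_le_pow_left (by omega) 2)

lemma kl_pow (k : ℕ) : (k + 3) ^ 2 ≤ 2 ^ kl k := by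
  unfold kl
  exact Nat.le_pow_clog (by norm_num) _

lemma kl_step (k : ℕ) : kl (k + 1) ≤ kl k + 1 := by
  have h1 := kl_pow k
  have h2 : (k + 1 + 3) ^ 2 ≤ 2 ^ (kl k + 1) := by
    rw [pow_succ 2]
    nlinarith [Nat.zero_le (k * k), Nat.zero_le k]
  have h3 := Nat.clog_le_of_le_pow h2
  conv_lhs => unfold kl
  exact h3

lemma kl_ge (k : ℕ) : ((k : ℝ) + 3) ^ 2 ≤ 2 ^ kl k := by
  have h' : (((k + 3) ^ 2 : ℕ) : ℝ) ≤ ((2 ^ kl k : ℕ) : ℝ) := by exact_mod_cast kl_pow k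
  push_cast at h'
  exact h'

lemma kl_le (k : ℕ) : (2 : ℝ) ^ kl k ≤ 2 * ((k : ℝ) + 3) ^ 2 := by
  have h1 : 1 < (k + 3) ^ 2 := by nlinarith [Nat.zero_le (k * k), Nat.zero_le k]
  have h2 : 2 ^ (Nat.clog 2 ((k + 3) ^ 2)).pred < (k + 3) ^ 2 :=
    Nat.pow_pred_clog_lt_self (by norm_num) h1
  have h3 : 0 < Nat.clog 2 ((k + 3) ^ 2) := Nat.clog_pos (by norm_num) h1
  have h4 : 2 ^ kl k = 2 * 2 ^ (Nat.clog 2 ((k + 3) ^ 2)).pred := by
    unfold kl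
    rw [← pow_succ', Nat.pred_eq_sub_one, Nat.sub_add_cancel h3]
  have h5 : 2 ^ kl k ≤ 2 * (k + 3) ^ 2 := by
    rw [h4]
    omega
  have h6 : ((2 ^ kl k : ℕ) : ℝ) ≤ ((2 * (k + 3) ^ 2 : ℕ) : ℝ) := by exact_mod_cast h5
  push_cast at h6
  exact h6

lemma kl_zero : kl 0 = 4 := by
  unfold kl
  decide +kernel

lemma kl_one : kl 1 = 4 := by
  unfold kl
  decide +kernel

lemma sum_kl (m : ℕ) : ∑ k ∈ Finset.range m, (1 : ℝ) / 2 ^ kl k ≤ 1 := by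
  have key : ∀ m : ℕ, ∑ k ∈ Finset.range m, (1 : ℝ) / 2 ^ kl k ≤ 1 - 1 / ((m : ℝ) + 2) := by
    intro m
    induction m with
    | zero => norm_num
    | succ m ih =>
      rw [Finset.sum_range_succ]
      have h1 : (1 : ℝ) / 2 ^ kl m ≤ 1 / ((m : ℝ) + 3) ^ 2 :=
        one_div_le_one_div_of_le (by positivity) (kl_ge m)
      have h2 : (1 : ℝ) / ((m : ℝ) + 3) ^ 2 ≤ 1 / ((m : ℝ) + 2) - 1 / ((m : ℝ) + 3) := by
        have e : (1 : ℝ) / ((m : ℝ) + 2) - 1 / ((m : ℝ) + 3) = 1 / (((m : ℝ) + 2) * (m + 3)) := by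
          field_simp
          ring
        rw [e]
        refine one_div_le_one_div_of_le (by positivity) ?_
        nlinarith [(Nat.cast_nonneg m : (0 : ℝ) ≤ m)]
      push_cast
      have e2 : ((m : ℝ) + 1 + 2) = m + 3 := by ring
      rw [e2]
      linarith
  have := key m
  have h0 : (0 : ℝ) ≤ 1 / ((m : ℝ) + 2) := by positivity
  linarith

/-- the scale below the side of the torus -/
def mR (r R : ℕ) : ℕ := R - (r + kl R)

section num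

variable {R r : ℕ} {b S A K : ℝ}

lemma mR_eq (h : r + kl R ≤ R) : 2 ^ R = 2 ^ (r + kl R) * 2 ^ mR r R := by
  unfold mR
  rw [← pow_add, Nat.add_sub_cancel' h]

lemma mR_le : mR r R ≤ R := Nat.sub_le _ _

lemma Rk_mR (h : r + kl R ≤ R) : Rk kl r (mR r R) ≤ 2 ^ R := by
  unfold Rk
  split_ifs
  · exact Nat.zero_le _
  · refine Nat.pow_le_pow_right (by norm_num) ?_
    have h1 : kl (mR r R) ≤ kl R := kl_mono mR_le
    unfold mR at *
    omega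

/-- the sum of the excess of the block stiffness over `S` -/
noncomputable def exs (b S : ℝ) (r R : ℕ) : ℝ :=
  ∑ k ∈ Finset.range (mR r R), ek b S k + Real.log (R + 3) * ek b S (mR r R)

lemma exs_nonneg : 0 ≤ exs b S r R := by
  unfold exs
  have h1 : 0 ≤ Real.log ((R : ℝ) + 3) := Real.log_nonneg (by
    have : (0 : ℝ) ≤ R := Nat.cast_nonneg R
    linarith)
  have h2 := ek_nonneg b S (mR r R)
  have h3 : 0 ≤ ∑ k ∈ Finset.range (mR r R), ek b S k :=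
    Finset.sum_nonneg fun k _ => ek_nonneg b S k
  exact add_nonneg h3 (mul_nonneg h1 h2)

/-- if `S` is at least the block stiffness at `2 ^ k0`, only the levels below `k0` count -/
lemma ek_zero (hb : 0 ≤ b) {k0 k : ℕ} (h : k0 ≤ k) (hS : stiff (2 ^ k0) b ≤ S) : ek b S k = 0 := by
  unfold ek
  refine max_eq_left ?_
  have h1 : stiff (2 ^ k) b ≤ stiff (2 ^ k0) b := by
    have h2 := UJ.stiff_mono hb (Nat.one_le_two_pow (n := k0)) (Nat.one_le_two_pow (n := k - k0))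
    rwa [← pow_add, Nat.add_sub_cancel' h] at h2
  linarith

end num

lemma K4c_mono {b Λ Λ' : ℝ} (hb : 0 ≤ b) (h0 : 0 ≤ Λ) (h : Λ ≤ Λ') : K4c b Λ ≤ K4c b Λ' := by
  unfold K4c
  have h1 : Real.cosh Λ ≤ Real.cosh Λ' := by
    rw [Real.cosh_le_cosh, abs_of_nonneg h0, abs_of_nonneg (h0.trans h)]
    exact h
  have := mul_le_mul_of_nonneg_left h1 hb
  linarith

lemma log_R3 (R : ℕ) : 1 ≤ Real.log ((R : ℝ) + 3) := by
  have hR0 : (0 : ℝ) ≤ R := Nat.cast_nonneg R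
  rw [Real.le_log_iff_exp_le (by positivity)]
  have := Real.exp_one_lt_d9
  linarith

/-- the logarithm of the number of tiles -/
lemma log_tiles (r R : ℕ) :
    1 + Real.log (1 + ((2 ^ (r + kl R) : ℕ) : ℝ)) ≤ (r + 5) * Real.log ((R : ℝ) + 3) := by
  have hR0 : (0 : ℝ) ≤ R := Nat.cast_nonneg R
  have hlR := log_R3 R
  have h2 := kl_le R
  have h3 : (1 : ℝ) ≤ 2 ^ (r + kl R) := one_le_pow₀ (by norm_num)
  have h4 : (2 : ℝ) ^ (r + kl R) ≤ 2 ^ r * (2 * ((R : ℝ) + 3) ^ 2) := by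
    rw [pow_add]
    exact mul_le_mul_of_nonneg_left h2 (by positivity)
  have h1 : (1 : ℝ) + ((2 ^ (r + kl R) : ℕ) : ℝ) ≤ 2 ^ (r + 2) * ((R : ℝ) + 3) ^ 2 := by
    push_cast
    have e : (2 : ℝ) ^ (r + 2) * ((R : ℝ) + 3) ^ 2 = 2 * (2 ^ r * (2 * ((R : ℝ) + 3) ^ 2)) := by
      rw [pow_add]; ring
    rw [e]
    linarith
  have h5 := Real.log_le_log (by positivity) h1
  rw [Real.log_mul (by positivity) (by positivity), Real.log_pow, Real.log_pow] at h5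
  push_cast at h5
  have h6 : Real.log 2 ≤ 1 := by linarith [Real.log_two_lt_d9]
  have hr0 : (0 : ℝ) ≤ r := Nat.cast_nonneg r
  have h7 : ((r : ℝ) + 2) * Real.log 2 ≤ (r + 2) * 1 :=
    mul_le_mul_of_nonneg_left h6 (by positivity)
  have h8 : ((r : ℝ) + 3) * 1 ≤ (r + 3) * Real.log ((R : ℝ) + 3) :=
    mul_le_mul_of_nonneg_left hlR (by positivity)
  push_cast
  linarith

/-- the last level -/
lemma last_tile (r R : ℕ) : Real.log ((R : ℝ) + 3) / 2 ^ kl (mR r R) ≤ 4 * r + 29 := by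
  have hR0 : (0 : ℝ) ≤ R := Nat.cast_nonneg R
  set L : ℝ := Real.log ((R : ℝ) + 3) with hL
  have hL1 : 1 ≤ L := log_R3 R
  have hkl : (kl R : ℝ) ≤ 1 + 3 * L := by
    have h := Real.log_le_log (by positivity) (kl_le R)
    rw [Real.log_mul (by norm_num) (by positivity), Real.log_pow, Real.log_pow, ← hL] at h
    push_cast at h
    have h2 := Real.log_two_gt_d9
    by_contra hc
    push Not at hc
    have h3 := mul_lt_mul_of_pos_right hc (show 0 < Real.log 2 by linarith)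
    nlinarith
  have hm : (R : ℝ) ≤ mR r R + (r + kl R) := by
    have : R ≤ mR r R + (r + kl R) := by unfold mR; omega
    exact_mod_cast this
  have he : 1 + L + L ^ 2 / 2 ≤ (R : ℝ) + 3 := by
    have h := Real.quadratic_le_exp_of_nonneg (show 0 ≤ L by linarith)
    rw [hL, Real.exp_log (by positivity)] at h
    rw [hL]
    exact h
  have hr0 : (0 : ℝ) ≤ r := Nat.cast_nonneg r
  have hm0 : (0 : ℝ) ≤ mR r R := Nat.cast_nonneg _
  have h1 : L ≤ (4 * r + 29) * ((mR r R : ℝ) + 3) ^ 2 := by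
    have h2 : L ≤ 4 * (mR r R + r + 7) + 1 := by nlinarith [sq_nonneg (L - 4)]
    nlinarith [mul_nonneg hr0 hm0, mul_nonneg hr0 (mul_nonneg hm0 hm0), mul_nonneg hm0 hm0]
  have h3 := kl_ge (mR r R)
  rw [div_le_iff₀ (by positivity)]
  exact h1.trans (mul_le_mul_of_nonneg_left h3 (by positivity))

lemma eQ_t1 {b : ℝ} (hb : 0 ≤ b) {A₀ L0 S A K : ℝ} {r R : ℕ} (hL : 0 ≤ L0) (hA2 : A ^ 2 ≤ A₀ ^ 2)
    (hK : 0 ≤ K) :
    32 * K * A ^ 2 * (1 + L0) * ∑ k ∈ Finset.range (mR r R), (ek b S k + b / 2 ^ kl k) ≤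
      K * (32 * A₀ ^ 2 * (1 + L0) * (1 + b)) * (1 + exs b S r R) := by
  have hE := exs_nonneg (b := b) (S := S) (r := r) (R := R)
  have e0 : ∑ k ∈ Finset.range (mR r R), (ek b S k + b / 2 ^ kl k) ≤
      (1 + b) * (1 + exs b S r R) := by
    rw [Finset.sum_add_distrib]
    have e1 : ∑ k ∈ Finset.range (mR r R), b / 2 ^ kl k ≤ b := by
      have := mul_le_mul_of_nonneg_left (sum_kl (mR r R)) hb
      rw [Finset.mul_sum, mul_one] at this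
      refine le_trans (le_of_eq ?_) this
      exact Finset.sum_congr rfl fun k _ => by ring
    have e2 : ∑ k ∈ Finset.range (mR r R), ek b S k ≤ exs b S r R := by
      unfold exs
      have : 0 ≤ Real.log ((R : ℝ) + 3) * ek b S (mR r R) :=
        mul_nonneg (by linarith [log_R3 R]) (ek_nonneg _ _ _)
      linarith
    nlinarith
  have h1 := mul_le_mul_of_nonneg_left e0 (show 0 ≤ 32 * K * A ^ 2 * (1 + L0) by positivity)
  refine h1.trans ?_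
  have h2 := mul_le_mul_of_nonneg_right hA2 (show 0 ≤ 32 * K * (1 + L0) * ((1 + b) *
    (1 + exs b S r R)) by positivity)
  linarith

lemma eQ_t2 {b : ℝ} (hb : 0 ≤ b) {A₀ S A K : ℝ} {r R : ℕ} (hA2 : A ^ 2 ≤ A₀ ^ 2) (hK : 0 ≤ K) :
    32 * K * A ^ 2 * (1 + Real.log (1 + ((2 ^ (r + kl R) : ℕ) : ℝ))) *
      (ek b S (mR r R) + b / 2 ^ kl (mR r R)) ≤
      K * (32 * A₀ ^ 2 * (r + 5) * (1 + b * (4 * r + 29))) * (1 + exs b S r R) := by
  have hE := exs_nonneg (b := b) (S := S) (r := r) (R := R)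
  have hl := log_tiles r R
  have hx := ek_nonneg b S (mR r R)
  have hb2 : 0 ≤ b / 2 ^ kl (mR r R) := by positivity
  have h1 := mul_le_mul_of_nonneg_right hl (add_nonneg hx hb2)
  have h2 : Real.log ((R : ℝ) + 3) * (ek b S (mR r R) + b / 2 ^ kl (mR r R)) ≤
      (1 + b * (4 * r + 29)) * (1 + exs b S r R) := by
    have e1 : Real.log ((R : ℝ) + 3) * ek b S (mR r R) ≤ exs b S r R := by
      unfold exs
      have : 0 ≤ ∑ k ∈ Finset.range (mR r R), ek b S k :=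
        Finset.sum_nonneg fun k _ => ek_nonneg b S k
      linarith
    have e2 := mul_le_mul_of_nonneg_left (last_tile r R) hb
    have e3 : Real.log ((R : ℝ) + 3) * (b / 2 ^ kl (mR r R)) =
        b * (Real.log ((R : ℝ) + 3) / 2 ^ kl (mR r R)) := by ring
    have e4 : 0 ≤ b * (4 * (r : ℝ) + 29) := by positivity
    nlinarith [mul_nonneg e4 hE]
  have h3 := mul_le_mul_of_nonneg_left h2 (show (0 : ℝ) ≤ r + 5 by positivity)
  have h4 : (1 + Real.log (1 + ((2 ^ (r + kl R) : ℕ) : ℝ))) *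
      (ek b S (mR r R) + b / 2 ^ kl (mR r R)) ≤ (r + 5) * ((1 + b * (4 * r + 29)) *
      (1 + exs b S r R)) := by
    refine h1.trans (le_trans (le_of_eq ?_) h3)
    ring
  have h5 := mul_le_mul_of_nonneg_left h4 (show 0 ≤ 32 * K * A ^ 2 by positivity)
  have h6 := mul_le_mul_of_nonneg_right hA2 (show 0 ≤ 32 * K * ((r + 5) *
    ((1 + b * (4 * r + 29)) * (1 + exs b S r R))) by positivity)
  linarith

lemma eQ_t3 {b : ℝ} (hb : 0 ≤ b) {A₀ S A K : ℝ} {r R : ℕ} (hA : 0 ≤ A) (hA1 : A ≤ A₀)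
    (hK : 0 ≤ K) :
    2 ^ 16 * K * (b * A ^ 2 + 4 * (K4c b (1 + A) * A ^ 4)) *
      (2 ^ kl 0 + ∑ k ∈ Finset.range (mR r R + 1), 1 / 2 ^ kl k) ≤
      K * (2 ^ 16 * (b * A₀ ^ 2 + 4 * (K4c b (1 + A₀) * A₀ ^ 4)) * 17) * (1 + exs b S r R) := by
  have hE := exs_nonneg (b := b) (S := S) (r := r) (R := R)
  have hA0 : 0 ≤ A₀ := hA.trans hA1
  have h0 : ∀ Λ : ℝ, 0 ≤ K4c b Λ := by
    intro Λ
    unfold K4c
    have := Real.cosh_pos Λ
    positivity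
  have h1 : b * A ^ 2 + 4 * (K4c b (1 + A) * A ^ 4) ≤ b * A₀ ^ 2 + 4 * (K4c b (1 + A₀) * A₀ ^ 4) := by
    have e1 := mul_le_mul_of_nonneg_left (pow_le_pow_left₀ hA hA1 2) hb
    have e2 := mul_le_mul (K4c_mono hb (show 0 ≤ 1 + A by linarith)
      (add_le_add_right hA1 1)) (pow_le_pow_left₀ hA hA1 4) (by positivity) (h0 _)
    linarith
  have h2 : (2 : ℝ) ^ kl 0 + ∑ k ∈ Finset.range (mR r R + 1), 1 / 2 ^ kl k ≤ 17 := by
    have := sum_kl (mR r R + 1)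
    rw [kl_zero]
    norm_num at this ⊢
    linarith
  have h3 : (0 : ℝ) ≤ 2 ^ kl 0 + ∑ k ∈ Finset.range (mR r R + 1), 1 / 2 ^ kl k := by positivity
  have hP : 0 ≤ b * A₀ ^ 2 + 4 * (K4c b (1 + A₀) * A₀ ^ 4) := by
    have := h0 (1 + A₀)
    positivity
  have h4 := mul_le_mul h1 h2 h3 hP
  have h5 := mul_le_mul_of_nonneg_left h4 (show 0 ≤ 2 ^ 16 * K by positivity)
  have h6 : 0 ≤ 2 ^ 16 * K * ((b * A₀ ^ 2 + 4 * (K4c b (1 + A₀) * A₀ ^ 4)) * 17) *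
    exs b S r R := by positivity
  linarith

/-- the error in numbers -/
theorem eQ_num (b : ℝ) (hb : 0 ≤ b) (A₀ : ℝ) (hA₀ : 0 ≤ A₀) (r : ℕ) : ∃ C : ℝ, 0 ≤ C ∧
    ∀ (R : ℕ) (S A K : ℝ), 0 ≤ A → A ≤ A₀ → 0 ≤ K →
    eQ (mR r R) (2 ^ (r + kl R)) kl r b S A K ≤ C * K * (1 + exs b S r R) := by
  have hL0' : 0 ≤ Real.log (2 * (1 + 2 ^ (1 + kl 1 + r))) := by
    refine Real.log_nonneg ?_
    have : (0 : ℝ) < 2 ^ (1 + kl 1 + r) := by positivity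
    linarith
  have h0 : 0 ≤ K4c b (1 + A₀) := by
    unfold K4c
    have := Real.cosh_pos (1 + A₀)
    positivity
  refine ⟨32 * A₀ ^ 2 * (1 + Real.log (2 * (1 + 2 ^ (1 + kl 1 + r)))) * (1 + b) +
    32 * A₀ ^ 2 * (r + 5) * (1 + b * (4 * r + 29)) +
    2 ^ 16 * (b * A₀ ^ 2 + 4 * (K4c b (1 + A₀) * A₀ ^ 4)) * 17, by positivity, ?_⟩
  intro R S A K hA hA1 hK
  have hA2 : A ^ 2 ≤ A₀ ^ 2 := pow_le_pow_left₀ hA hA1 2
  have t1 := eQ_t1 (S := S) (r := r) (R := R) hb hL0' hA2 hK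
  have t2 := eQ_t2 (S := S) (r := r) (R := R) hb hA2 hK
  have t3 := eQ_t3 (S := S) (r := r) (R := R) hb hA hA1 hK
  unfold eQ
  refine (add_le_add (add_le_add t1 t2) t3).trans (le_of_eq ?_)
  ring

section fin

/-- **SL5 in numbers**: a neutral charge distribution of total charge at most `Q` on the torus of
side `2 ^ R`, every real background -/
theorem sl5_num (b : ℝ) (hb : 0 ≤ b) (s₀ : ℝ) (hs₀ : 0 < s₀) (Q : ℝ) (hQ : 0 ≤ Q) :
    ∃ C : ℝ, 0 ≤ C ∧ ∃ r : ℕ, ∀ R : ℕ, r + kl R ≤ R → ∀ (d : Tor (2 ^ R) → ℕ) (K : ℝ), Cor d K →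
    ∀ ch : Tor (2 ^ R) → ℝ, ∑ x, ch x = 0 → Near d ch → qa ch ≤ Q →
    ∀ η : Tor (2 ^ R) × Bool → ℤ, (∀ x, ((cuZ η x : ℤ) : ℝ) = ch x) →
    ∀ (M : Matrix (Tor (2 ^ R)) (Tor (2 ^ R)) ℝ) (m0 : ℝ), Mᵀ = M → 0 < m0 →
    (∀ u : Tor (2 ^ R) → ℝ, m0 * ∑ x, u x ^ 2 ≤ qf M u) →
    ∀ (S : ℝ), s₀ ≤ S → ∀ F : Tor (2 ^ R) → ℝ,
    ZM (wTD (2 ^ R) b η) M F ≤
      Real.exp (-(1 / (2 * S) * enR ch) + C * K * (1 + exs b S r R)) *
        ZM (wT b (2 ^ R)) M 0 := by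
  have hCG := H817.CG_pos
  have hA₀ : 0 ≤ 4 * CG * Q * (1 / s₀) := by positivity
  obtain ⟨r0, hr0⟩ := pow_unbounded_of_one_lt (4 * CG * Q * (1 / s₀)) (one_lt_two (α := ℝ))
  obtain ⟨C, hC, h⟩ := eQ_num b hb (4 * CG * Q * (1 / s₀)) hA₀ (r0 + 2)
  refine ⟨C, hC, r0 + 2, ?_⟩
  intro R hR d K hdK ch hch hd hqa η hη M m0 hMs hm0 hM S hS F
  have hS0 : 0 < S := hs₀.trans_le hS
  have hA : 4 * CG * Q * (1 / S) ≤ 4 * CG * Q * (1 / s₀) :=
    mul_le_mul_of_nonneg_left (one_div_le_one_div_of_le hs₀ hS) (by positivity)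
  have hR1 : (2 : ℝ) ^ r0 ≤ 1 + (Rk kl (r0 + 2) 1 : ℝ) := by
    unfold Rk
    rw [if_neg (by norm_num)]
    push_cast
    have : (2 : ℝ) ^ r0 ≤ 2 ^ (1 + kl 1 + (r0 + 2)) := pow_le_pow_right₀ (by norm_num) (by omega)
    linarith
  have h1 := sl5Q (N := 2 ^ R) (m := mR (r0 + 2) R) (n := 2 ^ (r0 + 2 + kl R)) kl_mono kl_step
    (show 2 ≤ r0 + 2 by omega) (mR_eq hR) (Rk_mR hR) hb hdK hch hd hη hMs hm0 hM hS0 hqa
    (hA.trans (hr0.le.trans hR1)) F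
  refine h1.trans (mul_le_mul_of_nonneg_right (Real.exp_le_exp.2 (add_le_add le_rfl ?_))
    (ZM_nonneg hb M))
  exact h R S _ K (by positivity) hA hdK.K0

/-- **the quadrupole in numbers** (every real background, every harmonic part) -/
theorem quad_num (b : ℝ) (hb : 0 ≤ b) (s₀ : ℝ) (hs₀ : 0 < s₀) :
    ∃ C : ℝ, 0 ≤ C ∧ ∃ r : ℕ, ∀ R : ℕ, r + kl R ≤ R →
    ∀ (p : Fin 4 → Tor (2 ^ R)) (u v : ZMod (2 ^ R)) (ℓ : ℝ),
    p 0 - p 1 = (u, 0) → p 0 - p 2 = (0, v) → p 0 - p 3 = (u, v) →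
    1 ≤ ℓ → ℓ ≤ u.valMinAbs.natAbs → ℓ ≤ v.valMinAbs.natAbs →
    ∀ η : Tor (2 ^ R) × Bool → ℤ, (∀ x, ((cuZ η x : ℤ) : ℝ) = chF p qq x) →
    ∀ (M : Matrix (Tor (2 ^ R)) (Tor (2 ^ R)) ℝ) (m0 : ℝ), Mᵀ = M → 0 < m0 →
    (∀ u : Tor (2 ^ R) → ℝ, m0 * ∑ x, u x ^ 2 ≤ qf M u) →
    ∀ (S : ℝ), s₀ ≤ S → ∀ F : Tor (2 ^ R) → ℝ,
    ZM (wTD (2 ^ R) b η) M F ≤
      Real.exp (-(Real.log ℓ / (Real.pi * S)) + C * (1 + exs b S r R)) *
        ZM (wT b (2 ^ R)) M 0 := by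
  obtain ⟨C, hC, r, h⟩ := sl5_num b hb s₀ hs₀ 4 (by norm_num)
  obtain ⟨Cq, hCq, hq⟩ := enR_quad_ge
  refine ⟨4 * C + Cq / (2 * s₀), by positivity, r, ?_⟩
  intro R hR p u v ℓ h01 h02 h03 hℓ hu hv η hη M m0 hMs hm0 hM S hS F
  have hS0 : 0 < S := hs₀.trans_le hS
  have hen := hq (2 ^ R) p u v h01 h02 h03 ℓ hℓ hu hv
  have h1 := h R hR (dF p) _ (cor_dF p) (chF p qq) (by rw [sum_chF, sum_qq]) (near_dF p qq)
    ((qa_chF p qq).trans (le_of_eq abs_qq)) η hη M m0 hMs hm0 hM S hS F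
  refine h1.trans (mul_le_mul_of_nonneg_right (Real.exp_le_exp.2 ?_) (ZM_nonneg hb M))
  have e5 : ((Fintype.card (Fin 4) : ℕ) : ℝ) = 4 := by simp
  rw [e5]
  have hE := exs_nonneg (b := b) (S := S) (r := r) (R := R)
  have h2 := mul_le_mul_of_nonneg_left hen (show 0 ≤ 1 / (2 * S) by positivity)
  have h3 : 1 / (2 * S) * (2 / Real.pi * Real.log ℓ - Cq) =
      Real.log ℓ / (Real.pi * S) - Cq / (2 * S) := by
    have := Real.pi_pos
    field_simp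
  have h4 : Cq / (2 * S) ≤ Cq / (2 * s₀) := by
    refine div_le_div_of_nonneg_left hCq (by positivity) (by linarith)
  have h5 : 0 ≤ Cq / (2 * s₀) * exs b S r R := by positivity
  rw [h3] at h2
  nlinarith

end fin

end Vale.Agent.P159.H513
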