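import Vale.Agent.P159.H513.Eta15

/-!
**SL5 on regular backgrounds (S5)**: graded tiling stopped at the level `m = i0 - 2 kl R` below the
regularity scale `2 ^ i0` of the background.
-/

set_option linter.all false

open MeasureTheory Filter Topology Matrix

namespace Vale.Agent.P159.H513

open Vale.Agent.P159 Vale.Agent.P159.H353 Vale.Agent.P159.R2.H254 Vale.Agent.P159.H950
open Vale.Agent.P159.T1.H934 Vale.Agent.P159.T1.H731
open Vale.Agent.P159.H37 (qf bf re wM ZM Zs Zn)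
open Vale.Agent.P159.TM.SpecC (Tor wT)
open Vale.Agent.P159.H770 (wTD)
open Vale.Agent.P159.H817 (sz gr dv cu rot cst cG CG nrm lp mnj G0 aN)

/-- the level of the tiling -/
def mI (i0 R : ℕ) : ℕ := i0 - 2 * kl R

section reg

variable {b S A K P : ℝ} {R i0 r : ℕ}

lemma ek_anti (hb : 0 ≤ b) {k j : ℕ} (h : k ≤ j) : ek b S j ≤ ek b S k := by
  unfold ek
  refine max_le_max le_rfl ?_
  have h2 := UJ.stiff_mono hb (Nat.one_le_two_pow (n := k)) (Nat.one_le_two_pow (n := j - k))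
  rw [← pow_add, Nat.add_sub_cancel' h] at h2
  linarith

/-- the sum of the excess up to any level `m ≤ R` -/
theorem sum_ek_link {b S : ℝ} (hb : 0 ≤ b) (hS : 0 ≤ S) (hSi : ∀ i, S ≤ stiff (2 ^ i) b)
    (hL : LkS b S) (ε : ℝ) (hε : 0 < ε) :
    ∃ C : ℝ, 1 ≤ C ∧ ∀ m R : ℕ, m ≤ R →
      ∑ k ∈ Finset.range (m + 1), ek b S k ≤ C * ((R : ℝ) + 1) ^ ε := by
  obtain ⟨n0, hn0⟩ := hL ε hε
  refine ⟨1 + (n0 + 1) * b, by nlinarith [(Nat.cast_nonneg n0 : (0 : ℝ) ≤ n0)], ?_⟩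
  intro m R hm
  have hR : (0 : ℝ) ≤ R := Nat.cast_nonneg R
  have h1 : (1 : ℝ) ≤ ((R : ℝ) + 1) ^ ε := Real.one_le_rpow (by linarith) hε.le
  have hek : ∀ k, ek b S k = stiff (2 ^ k) b - S := fun k => by
    unfold ek
    exact max_eq_right (by linarith [hSi k])
  rcases le_or_gt n0 m with h | h
  · have h4 := hn0 m h
    simp_rw [hek]
    have h5 : (m : ℝ) ^ ε ≤ ((R : ℝ) + 1) ^ ε :=
      Real.rpow_le_rpow (Nat.cast_nonneg m) (by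
        have : (m : ℝ) ≤ R := by exact_mod_cast hm
        linarith) hε.le
    have h6 : 0 ≤ ((n0 : ℝ) + 1) * b * ((R : ℝ) + 1) ^ ε := by positivity
    linarith
  · have h4 : ∑ k ∈ Finset.range (m + 1), ek b S k ≤ (n0 + 1) * b := by
      refine (Finset.sum_le_sum fun k _ => ek_le_b hb hS k).trans ?_
      rw [Finset.sum_const, Finset.card_range, nsmul_eq_mul]
      refine mul_le_mul_of_nonneg_right ?_ hb
      have : (m : ℝ) < n0 := by exact_mod_cast h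
      push_cast
      linarith
    have h5 : ((n0 : ℝ) + 1) * b ≤ (n0 + 1) * b * ((R : ℝ) + 1) ^ ε :=
      le_mul_of_one_le_right (by positivity) h1
    linarith

/-- the last level of the excess -/
lemma ek_last {m R : ℕ} {U : ℝ} (hb : 0 ≤ b) (hmR : R ≤ 2 * m)
    (hU : ∑ k ∈ Finset.range (m + 1), ek b S k ≤ U) :
    ((R : ℝ) + 2) * ek b S m ≤ 2 * U := by
  have h1 : ((m : ℝ) + 1) * ek b S m ≤ U := by
    refine le_trans ?_ hU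
    have h2 : ∑ _k ∈ Finset.range (m + 1), ek b S m ≤ ∑ k ∈ Finset.range (m + 1), ek b S k :=
      Finset.sum_le_sum fun k hk => ek_anti hb (by
        have := Finset.mem_range.1 hk
        omega)
    rw [Finset.sum_const, Finset.card_range, nsmul_eq_mul] at h2
    push_cast at h2
    exact h2
  have h3 : (R : ℝ) ≤ 2 * m := by exact_mod_cast hmR
  have h4 := ek_nonneg b S m
  nlinarith

lemma kl_last {m R : ℕ} (hb : 0 ≤ b) (hmR : R ≤ 2 * m) :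
    ((R : ℝ) + 2) * (b / 2 ^ kl m) ≤ 2 * b / ((R : ℝ) + 2) * 2 := by
  have h1 := kl_ge m
  have h3 : (R : ℝ) ≤ 2 * m := by exact_mod_cast hmR
  have hm0 : (0 : ℝ) ≤ m := Nat.cast_nonneg m
  have hR0 : (0 : ℝ) ≤ R := Nat.cast_nonneg R
  have h2 : ((R : ℝ) + 2) ^ 2 ≤ 4 * 2 ^ kl m := by nlinarith
  have h5 : (0 : ℝ) < 2 ^ kl m := by positivity
  rw [mul_div_assoc', div_mul_eq_mul_div, div_le_div_iff₀ h5 (by positivity)]
  have h6 := mul_le_mul_of_nonneg_left h2 hb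
  linarith

lemma mI_pow (h : 2 * kl R ≤ i0) : (2 : ℝ) ^ mI i0 R * ((R : ℝ) + 3) ^ 4 ≤ 2 ^ i0 := by
  have h1 := kl_ge R
  have h2 : ((R : ℝ) + 3) ^ 4 ≤ 2 ^ (2 * kl R) := by
    have h3 := pow_le_pow_left₀ (by positivity) h1 2
    rw [← pow_mul, ← pow_mul] at h3
    rw [mul_comm 2 (kl R)]
    exact h3
  have h4 := mul_le_mul_of_nonneg_left h2 (show (0 : ℝ) ≤ 2 ^ mI i0 R by positivity)
  refine h4.trans (le_of_eq ?_)
  rw [← pow_add]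
  congr 1
  unfold mI
  omega

lemma mI_le (h : i0 ≤ R) : mI i0 R ≤ R := by
  unfold mI
  omega

lemma four_pow_sq (m : ℕ) : ((2 : ℝ) ^ m) ^ 2 = 4 ^ m := by
  rw [← pow_mul, mul_comm m 2, pow_mul]
  norm_num

/-- the level in numbers : `4 ^ m (R+3)^8 P² ≤ N²` -/
lemma mI_sq (h : 2 * kl R ≤ i0) (hP : 0 ≤ P) (hPi : 2 ^ i0 * P ≤ 2 ^ R) :
    (4 : ℝ) ^ mI i0 R * ((R : ℝ) + 3) ^ 8 * P ^ 2 ≤ (2 ^ R) ^ 2 := by
  have h1 := mul_le_mul_of_nonneg_right (mI_pow h) hP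
  have h2 := pow_le_pow_left₀ (by positivity) (h1.trans hPi) 2
  refine le_trans (le_of_eq ?_) h2
  rw [← four_pow_sq]
  ring

lemma kl_m_le {m : ℕ} (hm : m ≤ R) : (2 : ℝ) ^ kl m ≤ 2 * ((R : ℝ) + 3) ^ 2 := by
  have h1 := kl_le m
  have h2 : (m : ℝ) ≤ R := by exact_mod_cast hm
  have h3 : ((m : ℝ) + 3) ^ 2 ≤ (R + 3) ^ 2 := pow_le_pow_left₀ (by positivity) (by linarith) 2
  linarith

/-- first part of the third term -/
lemma reg_t3a {m : ℕ} {B c U : ℝ} (hb : 0 ≤ b) (hmR : R ≤ 2 * m)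
    (hU : ∑ k ∈ Finset.range (m + 1), ek b S k ≤ U) (hB : 0 ≤ B) (hc : 0 ≤ c) (hP : 1 ≤ P)
    (hBP : B * 2 ^ R ≤ c * P) :
    2 * B ^ 2 * ((2 ^ R) ^ 2 * (ek b S m + b / 2 ^ kl m)) ≤
      2 * c ^ 2 * (P ^ 2 * ((2 * U + 4 * b) / ((R : ℝ) + 1))) := by
  have h1 := ek_last (S := S) hb hmR hU
  have h2 := kl_last (b := b) hb hmR
  have hR0 : (0 : ℝ) ≤ R := Nat.cast_nonneg R
  have h3 : 2 * b / ((R : ℝ) + 2) * 2 ≤ 4 * b := by
    rw [div_mul_eq_mul_div, div_le_iff₀ (by positivity)]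
    nlinarith [mul_nonneg hb hR0]
  have h0 : 0 ≤ ek b S m + b / 2 ^ kl m := by
    have := ek_nonneg b S m
    positivity
  have h4 : ek b S m + b / 2 ^ kl m ≤ (2 * U + 4 * b) / ((R : ℝ) + 1) := by
    rw [le_div_iff₀ (by positivity)]
    nlinarith
  have h5 : (B * 2 ^ R) ^ 2 ≤ (c * P) ^ 2 := pow_le_pow_left₀ (by positivity) hBP 2
  have h6 := mul_le_mul h5 h4 h0 (by positivity)
  calc 2 * B ^ 2 * ((2 ^ R) ^ 2 * (ek b S m + b / 2 ^ kl m)) =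
      2 * ((B * 2 ^ R) ^ 2 * (ek b S m + b / 2 ^ kl m)) := by ring
    _ ≤ 2 * ((c * P) ^ 2 * ((2 * U + 4 * b) / ((R : ℝ) + 1))) := by linarith
    _ = _ := by ring

/-- second part of the third term -/
lemma reg_t3b {B c : ℝ} (hb : 0 ≤ b) (hS : 0 ≤ S) (hi : i0 ≤ R) (h : 2 * kl R ≤ i0)
    (hK : 0 ≤ K) (hB : 0 ≤ B) (hc : 0 ≤ c) (hP : 1 ≤ P) (hPi : 2 ^ i0 * P ≤ 2 ^ R)
    (hBP : B * 2 ^ R ≤ c * P) :
    2 * B ^ 2 * (∑ k ∈ Finset.range (mI i0 R), (ek b S k + b / 2 ^ kl k) *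
      (32 * K * (1 + (Rk kl r (k + 1) : ℝ)) ^ 2)) ≤
      c ^ 2 * (2 ^ 11 * 4 ^ r * b * K) / ((R : ℝ) + 1) := by
  have hR0 : (0 : ℝ) ≤ R := Nat.cast_nonneg R
  have hmR := mI_le hi
  have hkm := kl_m_le hmR
  set m := mI i0 R with hm
  set W : ℝ := 4 ^ m * ((R : ℝ) + 3) ^ 4 with hW
  have hW0 : 0 ≤ W := by positivity
  -- each term
  have h1 : ∀ k ∈ Finset.range m, (ek b S k + b / 2 ^ kl k) *
      (32 * K * (1 + (Rk kl r (k + 1) : ℝ)) ^ 2) ≤ 2 ^ 10 * 4 ^ r * b * K * W := by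
    intro k hk
    have hkm' := Finset.mem_range.1 hk
    have e1 : ek b S k + b / 2 ^ kl k ≤ 2 * b := by
      have := ek_le_b hb hS k
      have : b / 2 ^ kl k ≤ b := div_le_self hb (one_le_pow₀ (by norm_num))
      linarith
    have e2 : 1 + (Rk kl r (k + 1) : ℝ) ≤ 2 * (2 ^ m * (2 ^ kl m * 2 ^ r)) := by
      unfold Rk
      rw [if_neg (by omega)]
      push_cast
      have e3 : (2 : ℝ) ^ (k + 1 + kl (k + 1) + r) ≤ 2 ^ (m + kl m + r) := by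
        refine pow_le_pow_right₀ (by norm_num) ?_
        have := kl_mono (show k + 1 ≤ m by omega)
        omega
      have e4 : (1 : ℝ) ≤ 2 ^ (m + kl m + r) := one_le_pow₀ (by norm_num)
      have e5 : (2 : ℝ) ^ (m + kl m + r) = 2 ^ m * (2 ^ kl m * 2 ^ r) := by
        rw [pow_add, pow_add, mul_assoc]
      rw [← e5]
      linarith
    have e6 : (2 : ℝ) ^ m * (2 ^ kl m * 2 ^ r) ≤ 2 ^ m * ((2 * ((R : ℝ) + 3) ^ 2) * 2 ^ r) := by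
      refine mul_le_mul_of_nonneg_left ?_ (by positivity)
      exact mul_le_mul_of_nonneg_right hkm (by positivity)
    have e7 : (1 + (Rk kl r (k + 1) : ℝ)) ^ 2 ≤ 16 * 4 ^ r * W := by
      have e8 := pow_le_pow_left₀ (by positivity)
        (e2.trans (mul_le_mul_of_nonneg_left e6 (by norm_num : (0 : ℝ) ≤ 2))) 2
      refine e8.trans (le_of_eq ?_)
      rw [hW, ← four_pow_sq m, ← four_pow_sq r]
      ring
    have e9 : 0 ≤ ek b S k + b / 2 ^ kl k := by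
      have := ek_nonneg b S k
      positivity
    calc (ek b S k + b / 2 ^ kl k) * (32 * K * (1 + (Rk kl r (k + 1) : ℝ)) ^ 2) ≤
        (2 * b) * (32 * K * (16 * 4 ^ r * W)) :=
          mul_le_mul e1 (mul_le_mul_of_nonneg_left e7 (by positivity)) (by positivity)
            (by positivity)
      _ = 2 ^ 10 * 4 ^ r * b * K * W := by ring
  have h2 := Finset.sum_le_sum h1
  rw [Finset.sum_const, Finset.card_range, nsmul_eq_mul] at h2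
  have h3 : (m : ℝ) ≤ (R : ℝ) + 3 := by
    have : (m : ℝ) ≤ R := by exact_mod_cast hmR
    linarith
  have h4 : (m : ℝ) * (2 ^ 10 * 4 ^ r * b * K * W) ≤
      ((R : ℝ) + 3) * (2 ^ 10 * 4 ^ r * b * K * W) :=
    mul_le_mul_of_nonneg_right h3 (by positivity)
  have h5 := mI_sq (R := R) (i0 := i0) (P := P) h (by linarith) hPi
  rw [← hm] at h5
  -- `B² ≤ c² P² / N²`
  have h6 : (B * 2 ^ R) ^ 2 ≤ (c * P) ^ 2 := pow_le_pow_left₀ (by positivity) hBP 2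
  have h7 : B ^ 2 * (W * ((R : ℝ) + 3) ^ 4) ≤ c ^ 2 := by
    have hN : (0 : ℝ) < (2 ^ R) ^ 2 := by positivity
    have e1 : B ^ 2 * (W * ((R : ℝ) + 3) ^ 4) * P ^ 2 ≤ c ^ 2 * P ^ 2 := by
      calc B ^ 2 * (W * ((R : ℝ) + 3) ^ 4) * P ^ 2 =
          B ^ 2 * (4 ^ m * ((R : ℝ) + 3) ^ 8 * P ^ 2) := by rw [hW]; ring
        _ ≤ B ^ 2 * (2 ^ R) ^ 2 := mul_le_mul_of_nonneg_left h5 (sq_nonneg B)
        _ = (B * 2 ^ R) ^ 2 := by ring
        _ ≤ (c * P) ^ 2 := h6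
        _ = _ := by ring
    exact le_of_mul_le_mul_right e1 (by positivity)
  have h8 : 2 * B ^ 2 * (((R : ℝ) + 3) * (2 ^ 10 * 4 ^ r * b * K * W)) * ((R : ℝ) + 1) ≤
      c ^ 2 * (2 ^ 11 * 4 ^ r * b * K) := by
    have e1 : B ^ 2 * (W * (((R : ℝ) + 3) * ((R : ℝ) + 1))) ≤ c ^ 2 := by
      refine le_trans (mul_le_mul_of_nonneg_left (mul_le_mul_of_nonneg_left ?_ hW0)
        (sq_nonneg B)) h7
      have e2 : ((R : ℝ) + 3) * ((R : ℝ) + 1) ≤ ((R : ℝ) + 3) ^ 2 := by nlinarith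
      have e3 : ((R : ℝ) + 3) ^ 2 ≤ ((R : ℝ) + 3) ^ 4 :=
        pow_le_pow_right₀ (by linarith) (by norm_num)
      linarith
    have e4 := mul_le_mul_of_nonneg_left e1 (show 0 ≤ 2 ^ 11 * 4 ^ r * b * K by positivity)
    calc _ = 2 ^ 11 * 4 ^ r * b * K * (B ^ 2 * (W * (((R : ℝ) + 3) * ((R : ℝ) + 1)))) := by ring
      _ ≤ _ := e4
      _ = _ := by ring
  rw [le_div_iff₀ (by positivity)]
  refine le_trans ?_ h8
  refine mul_le_mul_of_nonneg_right ?_ (by positivity)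
  exact mul_le_mul_of_nonneg_left (h2.trans h4) (by positivity)

/-- the fifth term -/
lemma reg_t5 {B B' c K₁ : ℝ} (hb : 0 ≤ b) (hi : i0 ≤ R) (h : 2 * kl R ≤ i0)
    (hK : 0 ≤ K₁) (hB : 0 ≤ B) (hB' : 0 ≤ B') (hc : 0 ≤ c) (hP : 1 ≤ P)
    (hPi : 2 ^ i0 * P ≤ 2 ^ R)
    (hBP : B * 2 ^ R ≤ c * P) (hBP' : B' * (2 ^ R * 2 ^ i0) ≤ P) :
    (16 * (b * B' ^ 2) + 64 * (K₁ * B ^ 4)) * ((2 ^ R) ^ 2 * (4 ^ mI i0 R * 2 ^ kl (mI i0 R))) ≤
      (32 * b + 128 * K₁ * c ^ 4) * P ^ 2 / ((R : ℝ) + 1) := by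
  have hR0 : (0 : ℝ) ≤ R := Nat.cast_nonneg R
  have hmR := mI_le hi
  have hkm := kl_m_le hmR
  have hP0 : 0 ≤ P := by linarith
  have h5 := mI_sq (R := R) (i0 := i0) (P := P) h hP0 hPi
  have h6 := pow_le_pow_left₀ (by positivity) (mI_pow (R := R) (i0 := i0) h) 2
  have hfp : ((2 : ℝ) ^ mI i0 R * ((R : ℝ) + 3) ^ 4) ^ 2 =
      4 ^ mI i0 R * ((R : ℝ) + 3) ^ 8 := by
    rw [← four_pow_sq]; ring
  rw [hfp] at h6
  set W : ℝ := 4 ^ mI i0 R with hW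
  set k2 : ℝ := 2 ^ kl (mI i0 R) with hk2
  set N : ℝ := 2 ^ R with hN
  set l0 : ℝ := 2 ^ i0 with hl0
  set T : ℝ := (R : ℝ) + 3 with hT
  have hT1 : 1 ≤ T := by linarith
  have hN0 : 0 < N := by positivity
  have hl00 : 0 < l0 := by positivity
  have hW0 : 0 < W := by positivity
  have hk0 : 0 < k2 := by positivity
  -- common : `W k2 (R+1) ≤ 2 W T^8`
  have hc1 : W * k2 * ((R : ℝ) + 1) ≤ 2 * (W * T ^ 8) := by
    have e1 : k2 * ((R : ℝ) + 1) ≤ 2 * T ^ 2 * T :=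
      mul_le_mul hkm (by linarith) (by positivity) (by positivity)
    have e2 : T ^ 3 ≤ T ^ 8 := pow_le_pow_right₀ hT1 (by norm_num)
    have e3 : k2 * ((R : ℝ) + 1) ≤ 2 * T ^ 8 := by
      calc _ ≤ 2 * T ^ 2 * T := e1
        _ = 2 * T ^ 3 := by ring
        _ ≤ _ := by linarith
    have e4 := mul_le_mul_of_nonneg_left e3 hW0.le
    linarith
  have g1 : B' ^ 2 * (N ^ 2 * (W * k2)) * ((R : ℝ) + 1) ≤ 2 * P ^ 2 := by
    have e1 : (B' * (N * l0)) ^ 2 ≤ P ^ 2 := pow_le_pow_left₀ (by positivity) hBP' 2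
    calc B' ^ 2 * (N ^ 2 * (W * k2)) * ((R : ℝ) + 1) =
        B' ^ 2 * N ^ 2 * (W * k2 * ((R : ℝ) + 1)) := by ring
      _ ≤ B' ^ 2 * N ^ 2 * (2 * (W * T ^ 8)) := mul_le_mul_of_nonneg_left hc1 (by positivity)
      _ ≤ B' ^ 2 * N ^ 2 * (2 * l0 ^ 2) :=
        mul_le_mul_of_nonneg_left (by linarith) (by positivity)
      _ = 2 * (B' * (N * l0)) ^ 2 := by ring
      _ ≤ _ := by linarith
  have g2 : B ^ 4 * (N ^ 2 * (W * k2)) * ((R : ℝ) + 1) ≤ 2 * c ^ 4 * P ^ 2 := by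
    have e1 : (B * N) ^ 4 ≤ (c * P) ^ 4 := pow_le_pow_left₀ (by positivity) hBP 4
    have e2 : B ^ 4 * (N ^ 2 * (W * k2)) * ((R : ℝ) + 1) * P ^ 2 ≤ 2 * c ^ 4 * P ^ 2 * P ^ 2 := by
      calc B ^ 4 * (N ^ 2 * (W * k2)) * ((R : ℝ) + 1) * P ^ 2 =
          B ^ 4 * N ^ 2 * P ^ 2 * (W * k2 * ((R : ℝ) + 1)) := by ring
        _ ≤ B ^ 4 * N ^ 2 * P ^ 2 * (2 * (W * T ^ 8)) :=
          mul_le_mul_of_nonneg_left hc1 (by positivity)
        _ = 2 * (B ^ 4 * N ^ 2) * (W * T ^ 8 * P ^ 2) := by ring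
        _ ≤ 2 * (B ^ 4 * N ^ 2) * N ^ 2 := mul_le_mul_of_nonneg_left h5 (by positivity)
        _ = 2 * (B * N) ^ 4 := by ring
        _ ≤ 2 * (c * P) ^ 4 := by linarith
        _ = _ := by ring
    exact le_of_mul_le_mul_right e2 (by positivity)
  rw [le_div_iff₀ (by positivity)]
  calc (16 * (b * B' ^ 2) + 64 * (K₁ * B ^ 4)) * (N ^ 2 * (W * k2)) * ((R : ℝ) + 1) =
      16 * b * (B' ^ 2 * (N ^ 2 * (W * k2)) * ((R : ℝ) + 1)) +
      64 * K₁ * (B ^ 4 * (N ^ 2 * (W * k2)) * ((R : ℝ) + 1)) := by ring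
    _ ≤ 16 * b * (2 * P ^ 2) + 64 * K₁ * (2 * c ^ 4 * P ^ 2) := by
      refine add_le_add (mul_le_mul_of_nonneg_left g1 (by positivity))
        (mul_le_mul_of_nonneg_left g2 (by positivity))
    _ = _ := by ring

lemma K4c_nonneg (hb : 0 ≤ b) (Λ : ℝ) : 0 ≤ K4c b Λ := by
  unfold K4c
  have := Real.cosh_pos Λ
  positivity

/-- the first term -/
lemma reg_t1 {m : ℕ} {L0 U : ℝ} (hb : 0 ≤ b) (hL : 0 ≤ L0) (hK : 0 ≤ K)
    (hU : ∑ k ∈ Finset.range (m + 1), ek b S k ≤ U) :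
    32 * K * A ^ 2 * (1 + L0) * ∑ k ∈ Finset.range m, (ek b S k + b / 2 ^ kl k) ≤
      K * A ^ 2 * (32 * (1 + L0) * (U + b)) := by
  have e0 : ∑ k ∈ Finset.range m, (ek b S k + b / 2 ^ kl k) ≤ U + b := by
    rw [Finset.sum_add_distrib]
    have e1 : ∑ k ∈ Finset.range m, b / 2 ^ kl k ≤ b := by
      have := mul_le_mul_of_nonneg_left (sum_kl m) hb
      rw [Finset.mul_sum, mul_one] at this
      refine le_trans (le_of_eq ?_) this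
      exact Finset.sum_congr rfl fun k _ => by ring
    have e2 : ∑ k ∈ Finset.range m, ek b S k ≤ U := by
      rw [Finset.sum_range_succ] at hU
      linarith [ek_nonneg b S m]
    linarith
  have h1 := mul_le_mul_of_nonneg_left e0 (show 0 ≤ 32 * K * A ^ 2 * (1 + L0) by positivity)
  linarith

/-- the second term -/
lemma reg_t2 {m : ℕ} {U : ℝ} (hb : 0 ≤ b) (hmR : R ≤ 2 * m) (hm : m ≤ R) (hK : 0 ≤ K)
    (hU : ∑ k ∈ Finset.range (m + 1), ek b S k ≤ U) :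
    32 * K * A ^ 2 * (1 + Real.log (1 + ((2 ^ (R - m) : ℕ) : ℝ))) * (ek b S m + b / 2 ^ kl m) ≤
      K * A ^ 2 * (32 * (2 * U + 4 * b)) := by
  have hR0 : (0 : ℝ) ≤ R := Nat.cast_nonneg R
  have h1 := ek_last (S := S) hb hmR hU
  have h2 := kl_last (b := b) hb hmR
  have h3 : 2 * b / ((R : ℝ) + 2) * 2 ≤ 4 * b := by
    rw [div_mul_eq_mul_div, div_le_iff₀ (by positivity)]
    nlinarith [mul_nonneg hb hR0]
  have h0 : 0 ≤ ek b S m + b / 2 ^ kl m := by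
    have := ek_nonneg b S m
    positivity
  have h4 : 1 + Real.log (1 + ((2 ^ (R - m) : ℕ) : ℝ)) ≤ (R : ℝ) + 2 := by
    have e1 : (1 : ℝ) + ((2 ^ (R - m) : ℕ) : ℝ) ≤ 2 ^ (R + 1) := by
      push_cast
      have e2 : (2 : ℝ) ^ (R - m) ≤ 2 ^ R := pow_le_pow_right₀ (by norm_num) (by omega)
      have e3 : (1 : ℝ) ≤ 2 ^ R := one_le_pow₀ (by norm_num)
      rw [pow_succ]
      linarith
    have e4 := Real.log_le_log (by positivity) e1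
    rw [Real.log_pow] at e4
    push_cast at e4 ⊢
    have e5 : Real.log 2 ≤ 1 := by linarith [Real.log_two_lt_d9]
    have e6 := mul_le_mul_of_nonneg_left e5 (show (0 : ℝ) ≤ (R : ℝ) + 1 by positivity)
    linarith
  have h5 : (1 + Real.log (1 + ((2 ^ (R - m) : ℕ) : ℝ))) * (ek b S m + b / 2 ^ kl m) ≤
      2 * U + 4 * b := by
    have := mul_le_mul_of_nonneg_right h4 h0
    linarith
  have h6 := mul_le_mul_of_nonneg_left h5 (show 0 ≤ 32 * K * A ^ 2 by positivity)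
  linarith

/-- the fourth term -/
lemma reg_t4 {m : ℕ} {A₀ Λ Λ₀ : ℝ} (hb : 0 ≤ b) (hK : 0 ≤ K) (hA : 0 ≤ A) (hA0 : A ≤ A₀)
    (hΛ : 0 ≤ Λ) (hΛ0 : Λ ≤ Λ₀) :
    2 ^ 16 * K * (b * A ^ 2 + 4 * (K4c b Λ * A ^ 4)) *
      (2 ^ kl 0 + ∑ k ∈ Finset.range (m + 1), 1 / 2 ^ kl k) ≤
      K * A ^ 2 * (2 ^ 16 * (b + 4 * (K4c b Λ₀ * A₀ ^ 2)) * 17) := by
  have h2 : (2 : ℝ) ^ kl 0 + ∑ k ∈ Finset.range (m + 1), 1 / 2 ^ kl k ≤ 17 := by
    have := sum_kl (m + 1)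
    rw [kl_zero]
    norm_num at this ⊢
    linarith
  have h3 : (0 : ℝ) ≤ 2 ^ kl 0 + ∑ k ∈ Finset.range (m + 1), 1 / 2 ^ kl k := by positivity
  have h4 := K4c_mono hb hΛ hΛ0
  have h0 := K4c_nonneg hb Λ
  have h5 : K4c b Λ * A ^ 2 ≤ K4c b Λ₀ * A₀ ^ 2 :=
    mul_le_mul h4 (pow_le_pow_left₀ hA hA0 2) (by positivity) (h0.trans h4)
  have h6 : b * A ^ 2 + 4 * (K4c b Λ * A ^ 4) ≤ A ^ 2 * (b + 4 * (K4c b Λ₀ * A₀ ^ 2)) := by
    have := mul_le_mul_of_nonneg_left h5 (show 0 ≤ 4 * A ^ 2 by positivity)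
    linarith
  have h7 : 0 ≤ A ^ 2 * (b + 4 * (K4c b Λ₀ * A₀ ^ 2)) := by
    have := h0.trans h4
    positivity
  have h8 := mul_le_mul h6 h2 h3 h7
  have h9 := mul_le_mul_of_nonneg_left h8 (show 0 ≤ 2 ^ 16 * K by positivity)
  linarith

/-- **the explicit error on regular backgrounds** -/
theorem eSK_reg {A₀ Λ Λ₀ B B' c U : ℝ} (hb : 0 ≤ b) (hS : 0 ≤ S) (hi : i0 ≤ R)
    (h : 2 * kl R ≤ i0) (hmR : R ≤ 2 * mI i0 R) (hK : 0 ≤ K) (hA : 0 ≤ A) (hA0 : A ≤ A₀)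
    (hΛ : 0 ≤ Λ) (hΛ0 : Λ ≤ Λ₀) (hB : 0 ≤ B) (hB' : 0 ≤ B') (hc : 0 ≤ c) (hP : 1 ≤ P)
    (hPi : 2 ^ i0 * P ≤ 2 ^ R) (hBP : B * 2 ^ R ≤ c * P) (hBP' : B' * (2 ^ R * 2 ^ i0) ≤ P)
    (hU : ∑ k ∈ Finset.range (mI i0 R + 1), ek b S k ≤ U) :
    eSK (2 ^ R) (mI i0 R) (2 ^ (R - mI i0 R)) kl r b S A B B' Λ K ≤
      K * A ^ 2 * (32 * (1 + Real.log (2 * (1 + 2 ^ (1 + kl 1 + r)))) * (U + b) +
        32 * (2 * U + 4 * b) + 2 ^ 16 * (b + 4 * (K4c b Λ₀ * A₀ ^ 2)) * 17) +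
      (2 * c ^ 2 * (P ^ 2 * (2 * U + 4 * b)) + c ^ 2 * (2 ^ 11 * 4 ^ r * b * K) +
        (32 * b + 128 * K4c b Λ₀ * c ^ 4) * P ^ 2) / ((R : ℝ) + 1) := by
  have hL0 : 0 ≤ Real.log (2 * (1 + 2 ^ (1 + kl 1 + r))) := by
    refine Real.log_nonneg ?_
    have : (0 : ℝ) < 2 ^ (1 + kl 1 + r) := by positivity
    linarith
  have hR0 : (0 : ℝ) ≤ R := Nat.cast_nonneg R
  have hm := mI_le hi
  have t1 := reg_t1 (A := A) (S := S) (m := mI i0 R) hb hL0 hK hU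
  have t2 := reg_t2 (A := A) (S := S) hb hmR hm hK hU
  have t3 := reg_t3a (P := P) hb hmR hU hB hc hP hBP
  have t3' := reg_t3b (S := S) (r := r) hb hS hi h hK hB hc hP hPi hBP
  have t4 := reg_t4 (m := mI i0 R) hb hK hA hA0 hΛ hΛ0
  have t5 := reg_t5 (K₁ := K4c b Λ) hb hi h (K4c_nonneg hb Λ) hB hB' hc hP hPi hBP hBP'
  have t5' : (32 * b + 128 * K4c b Λ * c ^ 4) * P ^ 2 / ((R : ℝ) + 1) ≤
      (32 * b + 128 * K4c b Λ₀ * c ^ 4) * P ^ 2 / ((R : ℝ) + 1) := by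
    refine div_le_div_of_nonneg_right ?_ (by positivity)
    refine mul_le_mul_of_nonneg_right ?_ (by positivity)
    have := mul_le_mul_of_nonneg_right (K4c_mono hb hΛ hΛ0) (show 0 ≤ 128 * c ^ 4 by positivity)
    linarith
  have e3 : 2 * B ^ 2 * ((((2 ^ R : ℕ) : ℝ)) ^ 2 * (ek b S (mI i0 R) + b / 2 ^ kl (mI i0 R)) +
      ∑ k ∈ Finset.range (mI i0 R),
      (ek b S k + b / 2 ^ kl k) * (32 * K * (1 + (Rk kl r (k + 1) : ℝ)) ^ 2)) =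
      2 * B ^ 2 * ((2 ^ R) ^ 2 * (ek b S (mI i0 R) + b / 2 ^ kl (mI i0 R))) +
      2 * B ^ 2 * (∑ k ∈ Finset.range (mI i0 R),
      (ek b S k + b / 2 ^ kl k) * (32 * K * (1 + (Rk kl r (k + 1) : ℝ)) ^ 2)) := by
    push_cast
    ring
  have e5 : (16 * (b * B' ^ 2) + 64 * (K4c b Λ * B ^ 4)) *
      ((((2 ^ R : ℕ) : ℝ)) ^ 2 * (4 ^ mI i0 R * 2 ^ kl (mI i0 R))) =
      (16 * (b * B' ^ 2) + 64 * (K4c b Λ * B ^ 4)) *
      ((2 ^ R) ^ 2 * (4 ^ mI i0 R * 2 ^ kl (mI i0 R))) := by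
    push_cast
    ring
  unfold eSK
  rw [e3, e5]
  have s1 := add_le_add (add_le_add (add_le_add (add_le_add t1 t2) (add_le_add t3 t3')) t4)
    (t5.trans t5')
  refine s1.trans (le_of_eq ?_)
  ring

lemma ev_kl (r : ℕ) (c : ℝ) : ∃ R0 : ℕ, ∀ R : ℕ, R0 ≤ R →
    8 * kl R ≤ R ∧ r ≤ kl R ∧ c * ((R : ℝ) + 1) ≤ 2 ^ R := by
  have e1 := tendsto_pow_const_div_const_pow_of_one_lt 16 (one_lt_two (α := ℝ))
  have e2 := (e1.const_mul (2 ^ 8 * 4 ^ 16 : ℝ))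
  rw [mul_zero] at e2
  have e3 := tendsto_pow_const_div_const_pow_of_one_lt 1 (one_lt_two (α := ℝ))
  have e4 := e3.const_mul (2 * |c|)
  rw [mul_zero] at e4
  obtain ⟨R1, h1⟩ := eventually_atTop.1 (e2.eventually (gt_mem_nhds (show (0 : ℝ) < 1 by norm_num)))
  obtain ⟨R2, h2⟩ := eventually_atTop.1 (e4.eventually (gt_mem_nhds (show (0 : ℝ) < 1 by norm_num)))
  obtain ⟨T, hT⟩ : ∃ T : ℕ, T = 2 ^ r := ⟨_, rfl⟩
  refine ⟨R1 + R2 + T + 1, fun R hR => ⟨?_, ?_, ?_⟩⟩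
  · have h3 := h1 R (by omega)
    have hR1 : (1 : ℝ) ≤ R := by
      have : 1 ≤ R := by omega
      exact_mod_cast this
    have h4 : (2 : ℝ) ^ (8 * kl R) ≤ 2 ^ 8 * 4 ^ 16 * (R : ℝ) ^ 16 := by
      have h5 := pow_le_pow_left₀ (by positivity) (kl_le R) 8
      rw [← pow_mul] at h5
      have h6 : ((R : ℝ) + 3) ^ 16 ≤ (4 * R) ^ 16 :=
        pow_le_pow_left₀ (by positivity) (by linarith) 16
      rw [mul_comm 8 (kl R)]
      calc (2 : ℝ) ^ (kl R * 8) ≤ (2 * ((R : ℝ) + 3) ^ 2) ^ 8 := h5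
        _ = 2 ^ 8 * ((R : ℝ) + 3) ^ 16 := by ring
        _ ≤ 2 ^ 8 * (4 * (R : ℝ)) ^ 16 := by linarith
        _ = _ := by ring
    rw [← mul_div_assoc, div_lt_one (by positivity)] at h3
    exact ((pow_lt_pow_iff_right₀ (by norm_num : (1 : ℝ) < 2)).1 (h4.trans_lt h3)).le
  · by_contra hc
    push Not at hc
    have h3 := kl_pow R
    have h4 : 2 ^ kl R < 2 ^ r := Nat.pow_lt_pow_right (by norm_num) hc
    rw [← hT] at h4
    have h5 : T ≤ R := by omega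
    nlinarith
  · have h3 := h2 R (by omega)
    have hR1 : (1 : ℝ) ≤ R := by
      have : 1 ≤ R := by omega
      exact_mod_cast this
    rw [pow_one, ← mul_div_assoc, div_lt_one (by positivity)] at h3
    have h4 := mul_le_mul_of_nonneg_right (le_abs_self c) (show (0 : ℝ) ≤ (R : ℝ) + 1 by positivity)
    have h5 := mul_le_mul_of_nonneg_left hR1 (abs_nonneg c)
    linarith

end reg

lemma reg_fin1 {X C1 b L0 D K x u A : ℝ} (hX : 1 ≤ X) (hb : 0 ≤ b) (hL0 : 0 ≤ L0) (hD : 0 ≤ D)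
    (hK : 0 ≤ K) (hu : 0 ≤ u) (hA : A = u * x) :
    K * A ^ 2 * (32 * (1 + L0) * (C1 * X + b) + 32 * (2 * (C1 * X) + 4 * b) + D) ≤
      u ^ 2 * (32 * (1 + L0) * (C1 + b) + 32 * (2 * C1 + 4 * b) + D) * K * (x ^ 2 * X) := by
  have f1 : b ≤ b * X := le_mul_of_one_le_right hb hX
  have f2 : 32 * (1 + L0) * b ≤ 32 * (1 + L0) * (b * X) :=
    mul_le_mul_of_nonneg_left f1 (by positivity)
  have f3 : D ≤ D * X := le_mul_of_one_le_right hD hX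
  have e1 : 32 * (1 + L0) * (C1 * X + b) + 32 * (2 * (C1 * X) + 4 * b) + D ≤
      (32 * (1 + L0) * (C1 + b) + 32 * (2 * C1 + 4 * b) + D) * X := by linarith
  have e2 := mul_le_mul_of_nonneg_left e1 (show 0 ≤ K * A ^ 2 by positivity)
  refine e2.trans (le_of_eq ?_)
  rw [hA]
  ring

lemma reg_fin2 {X C1 b c V D K P n : ℝ} (hX : 1 ≤ X) (hb : 0 ≤ b) (hC1 : 0 ≤ C1) (hV : 0 ≤ V)
    (hD : 0 ≤ D) (hK : 1 ≤ K) (hP : 1 ≤ P) (hn : 0 < n) :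
    (2 * c ^ 2 * (P ^ 2 * (2 * (C1 * X) + 4 * b)) + c ^ 2 * (V * K) + D * P ^ 2) / n ≤
      (2 * c ^ 2 * (2 * C1 + 4 * b) + c ^ 2 * V + D) * K * (P ^ 2 * X / n) := by
  rw [mul_div_assoc']
  refine div_le_div_of_nonneg_right ?_ hn.le
  have hP2 : 1 ≤ P ^ 2 := one_le_pow₀ hP
  have hKX : 1 ≤ K * X := by nlinarith
  have f1 : 2 * c ^ 2 * (P ^ 2 * (2 * (C1 * X) + 4 * b)) ≤
      2 * c ^ 2 * (2 * C1 + 4 * b) * (K * (P ^ 2 * X)) := by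
    have g1 : 2 * (C1 * X) + 4 * b ≤ (2 * C1 + 4 * b) * (K * X) := by
      have g2 : X ≤ K * X := le_mul_of_one_le_left (by linarith) hK
      have g3 := mul_le_mul_of_nonneg_left g2 hC1
      have g4 := mul_le_mul_of_nonneg_left hKX hb
      linarith
    have g5 := mul_le_mul_of_nonneg_left g1 (show 0 ≤ 2 * c ^ 2 * P ^ 2 by positivity)
    linarith
  have f2 : c ^ 2 * (V * K) ≤ c ^ 2 * V * (K * (P ^ 2 * X)) := by
    have g1 : 1 ≤ P ^ 2 * X := by nlinarith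
    have g2 := mul_le_mul_of_nonneg_left g1 (show 0 ≤ c ^ 2 * (V * K) by positivity)
    linarith
  have f3 : D * P ^ 2 ≤ D * (K * (P ^ 2 * X)) := by
    refine mul_le_mul_of_nonneg_left ?_ hD
    have := mul_le_mul_of_nonneg_left hKX (show 0 ≤ P ^ 2 by positivity)
    linarith
  linarith

lemma reg_fin3 {C2 C3 K u v : ℝ} (h2 : 0 ≤ C2) (h3 : 0 ≤ C3) (hK : 0 ≤ K) (hu : 0 ≤ u)
    (hv : 0 ≤ v) : C2 * K * u + C3 * K * v ≤ (C2 + C3) * K * (u + v) := by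
  have u1 : 0 ≤ C3 * K * u := by positivity
  have u2 : 0 ≤ C2 * K * v := by positivity
  linarith

/-- **(S5) : SL5 on regular backgrounds.**  Torus of side `2 ^ R`, regularity scale `2 ^ i0`,
amplitude `P` (gradient at most `P / 2 ^ R`, second difference at most `P / (2 ^ R 2 ^ i0)`). -/
theorem sl5_reg {b S : ℝ} (hb : 0 ≤ b) (hS : 0 < S) (hSi : ∀ i, S ≤ stiff (2 ^ i) b)
    (hL : LkS b S) (Q : ℝ) (hQ : 0 ≤ Q) (ε : ℝ) (hε : 0 < ε) :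
    ∃ C : ℝ, 0 ≤ C ∧ ∃ R0 : ℕ, ∀ R : ℕ, R0 ≤ R → ∀ i0 : ℕ, i0 ≤ R → 3 * R ≤ 4 * i0 →
    ∀ P : ℝ, 1 ≤ P → P ≤ (R : ℝ) + 1 → 2 ^ i0 * P ≤ 2 ^ R →
    ∀ (d : Tor (2 ^ R) → ℕ) (K : ℝ), 1 ≤ K → Cor d K →
    ∀ ch : Tor (2 ^ R) → ℝ, ∑ x, ch x = 0 → Near d ch → qa ch ≤ Q →
    ∀ (α β α' β' : ℝ), |α'| + |β'| ≤ P / 2 ^ R →
    ∀ (η : Tor (2 ^ R) × Bool → ℤ) (f : Tor (2 ^ R) → ℝ),
    (∀ e, (η e : ℝ) + gr f e = jR ch α β e) →
    ∀ (M : Matrix (Tor (2 ^ R)) (Tor (2 ^ R)) ℝ) (m0 : ℝ), Mᵀ = M → 0 < m0 →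
    (∀ u : Tor (2 ^ R) → ℝ, m0 * ∑ x, u x ^ 2 ≤ qf M u) →
    ∀ (F w g : Tor (2 ^ R) → ℝ), (∀ x, (M *ᵥ F) x = (M *ᵥ w) x + dv (gr g) x) →
    (∀ e, |gr g e| ≤ P / 2 ^ R) →
    (∀ x t, |gr g (x + (1, 0), t) - gr g (x, t)| ≤ P / (2 ^ R * 2 ^ i0)) →
    (∀ x t, |gr g (x + (0, 1), t) - gr g (x, t)| ≤ P / (2 ^ R * 2 ^ i0)) →
    Zn (wTD (2 ^ R) b η) M (f + F) ≤
      Real.exp (-((qf M F - qf M w) / 2) + S / 2 * nrm (gr g) -
        1 / (2 * S) * (enR ch + (2 ^ R) ^ 2 * (2 * (α * α' + β * β') - (α' ^ 2 + β' ^ 2))) +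
        C * K * (qa ch ^ 2 * ((R : ℝ) + 1) ^ ε + P ^ 2 * ((R : ℝ) + 1) ^ ε / ((R : ℝ) + 1))) *
        ZM (wT b (2 ^ R)) M 0 := by
  have hCG := H817.CG_pos
  set c : ℝ := 1 / S + 1 with hc
  have hc0 : 0 ≤ c := by positivity
  set A₀ : ℝ := 4 * CG * Q * (1 / S) with hA₀
  have hA00 : 0 ≤ A₀ := by positivity
  obtain ⟨r0, hr0⟩ := pow_unbounded_of_one_lt (2 * A₀) (one_lt_two (α := ℝ))
  obtain ⟨C1, hC1, hU⟩ := sum_ek_link hb hS.le hSi hL ε hε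
  obtain ⟨R0, hR0⟩ := ev_kl (r0 + 2) (2 * c)
  set r : ℕ := r0 + 2 with hr
  set L0 : ℝ := Real.log (2 * (1 + 2 ^ (1 + kl 1 + r))) with hL0d
  have hL0 : 0 ≤ L0 := by
    refine Real.log_nonneg ?_
    have : (0 : ℝ) < 2 ^ (1 + kl 1 + r) := by positivity
    linarith
  set Λ₀ : ℝ := 2 + A₀ with hΛ₀
  have hK4 := K4c_nonneg hb Λ₀
  set C2 : ℝ := (4 * CG * (1 / S)) ^ 2 * (32 * (1 + L0) * (C1 + b) + 32 * (2 * C1 + 4 * b) +
    2 ^ 16 * (b + 4 * (K4c b Λ₀ * A₀ ^ 2)) * 17) with hC2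
  set C3 : ℝ := 2 * c ^ 2 * (2 * C1 + 4 * b) + c ^ 2 * (2 ^ 11 * 4 ^ r * b) +
    (32 * b + 128 * K4c b Λ₀ * c ^ 4) with hC3
  have hC10 : 0 ≤ C1 := by linarith
  have hC20 : 0 ≤ C2 := by positivity
  have hC30 : 0 ≤ C3 := by positivity
  refine ⟨C2 + C3, by positivity, R0, ?_⟩
  intro R hR i0 hi hi3 P hP hPR hPi d K hK hdK ch hch hd hqa α β α' β' hαβ η f hf M m0 hMs hm0 hM
    F w g hJ g0 g1 g2
  obtain ⟨hk8, hrk, h2c⟩ := hR0 R hR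
  have hRr : (0 : ℝ) ≤ R := Nat.cast_nonneg R
  have hN : (0 : ℝ) < 2 ^ R := by positivity
  have hl0 : (0 : ℝ) < 2 ^ i0 := by positivity
  have hki : 2 * kl R ≤ i0 := by omega
  have hm : mI i0 R ≤ R := mI_le hi
  have hmR : R ≤ 2 * mI i0 R := by
    unfold mI
    omega
  have hkm : kl (mI i0 R) ≤ kl R := kl_mono hm
  have hRm : Rk kl r (mI i0 R) ≤ 2 ^ R := by
    unfold Rk
    split_ifs
    · exact Nat.zero_le _
    · refine Nat.pow_le_pow_right (by norm_num) ?_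
      unfold mI at *
      omega
  have hS' : |1 / S| = 1 / S := abs_of_pos (by positivity)
  -- the bounds
  set A : ℝ := 4 * CG * qa ch * |1 / S| with hAd
  set B : ℝ := |1 / S| * (|α'| + |β'|) + P / 2 ^ R with hBd
  have hq0 := qa_nonneg ch
  have hA : 0 ≤ A := by positivity
  have hAA : A ≤ A₀ := by
    rw [hAd, hA₀, hS']
    exact mul_le_mul_of_nonneg_right (mul_le_mul_of_nonneg_left hqa (by positivity))
      (by positivity)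
  have hB : 0 ≤ B := by positivity
  have hBc : B ≤ c * (P / 2 ^ R) := by
    have := mul_le_mul_of_nonneg_left hαβ (show 0 ≤ 1 / S by positivity)
    rw [hBd, hS', hc]
    linarith
  have hBP : B * 2 ^ R ≤ c * P := by
    have := mul_le_mul_of_nonneg_right hBc hN.le
    refine this.trans (le_of_eq ?_)
    field_simp
  have hB12 : B ≤ 1 / 2 := by
    refine hBc.trans ?_
    rw [mul_div_assoc', div_le_div_iff₀ hN (by norm_num)]
    have := mul_le_mul_of_nonneg_left hPR hc0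
    linarith
  have hR1 : 2 * A₀ ≤ 1 + (Rk kl r 1 : ℝ) := by
    unfold Rk
    rw [if_neg (by norm_num)]
    push_cast
    have : (2 : ℝ) ^ r0 ≤ 2 ^ (1 + kl 1 + r) := pow_le_pow_right₀ (by norm_num) (by omega)
    linarith
  have hone : 4 * CG * qa ch * |1 / S| / (1 + (Rk kl r 1 : ℝ)) +
      (|1 / S| * (|α'| + |β'|) + P / 2 ^ R) ≤ 1 := by
    have h0 : (0 : ℝ) < 1 + (Rk kl r 1 : ℝ) := by positivity
    have h1 : A / (1 + (Rk kl r 1 : ℝ)) ≤ 1 / 2 := by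
      rw [div_le_iff₀ h0]
      linarith
    linarith
  have hBd' := cR_bounds (R := Rk kl r) hd α' β' (1 / S) g (B₁ := P / 2 ^ R)
    (B' := P / (2 ^ R * 2 ^ i0)) (by positivity) (by positivity) g0 g1 g2 hone
  have hNe : ((2 ^ R : ℕ) : ℝ) = 2 ^ R := by push_cast; ring
  have hNm : 2 ^ R = 2 ^ (R - mI i0 R) * 2 ^ mI i0 R := by
    rw [← pow_add, Nat.sub_add_cancel hm]
  have h := sl5M_Zn (N := 2 ^ R) (m := mI i0 R) (n := 2 ^ (R - mI i0 R)) kl_mono kl_step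
    (show 2 ≤ r by omega) hNm hRm hb hdK hch hd hf hMs hm0 hM hS F w g hJ hBd'
  refine h.trans (mul_le_mul_of_nonneg_right (Real.exp_le_exp.2 ?_) (ZM_nonneg hb M))
  have hUm := hU (mI i0 R) R hm
  have hK0 : 0 ≤ K := by linarith
  have hΛ1 : 0 ≤ 1 + A + B := by positivity
  have hΛ2 : 1 + A + B ≤ Λ₀ := by rw [hΛ₀]; linarith
  have hE := eSK_reg (r := r) (K := K) (A := A) (B := B) (B' := P / (2 ^ R * 2 ^ i0)) (P := P)
    (c := c) hb hS.le hi hki hmR hK0 hA hAA hΛ1 hΛ2 hB (by positivity) hc0 hP hPi hBP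
    (by rw [div_mul_cancel₀]; positivity) hUm
  -- collect
  have hX1 : 1 ≤ ((R : ℝ) + 1) ^ ε := Real.one_le_rpow (by linarith) hε.le
  have hfin := reg_fin1 (K := K) (x := qa ch) (C1 := C1) (b := b) (L0 := L0)
    (D := 2 ^ 16 * (b + 4 * (K4c b Λ₀ * A₀ ^ 2)) * 17) hX1 hb hL0 (by positivity) hK0
    (show 0 ≤ 4 * CG * (1 / S) by positivity) (A := A) (by rw [hAd, hS']; ring)
  have hfin2 := reg_fin2 (K := K) (C1 := C1) (b := b) (P := P) (V := 2 ^ 11 * 4 ^ r * b) (c := c)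
    (D := 32 * b + 128 * K4c b Λ₀ * c ^ 4) (n := (R : ℝ) + 1) hX1 hb hC10 (by positivity)
    (by positivity) hK hP (by positivity)
  have h9 := reg_fin3 hC20 hC30 hK0 (show 0 ≤ qa ch ^ 2 * ((R : ℝ) + 1) ^ ε by positivity)
    (show 0 ≤ P ^ 2 * ((R : ℝ) + 1) ^ ε / ((R : ℝ) + 1) by positivity)
  rw [hNe]
  have h10 := hE.trans ((add_le_add hfin hfin2).trans h9)
  linarith

end Vale.Agent.P159.H513
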