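import Vale.Agent.P159.H513.Eta2

/-!
Costs of the blocks of a general tiling.
-/

set_option linter.all false

open MeasureTheory Filter Topology Matrix

namespace Vale.Agent.P159.H513

open Vale.Agent.P159 Vale.Agent.P159.H353 Vale.Agent.P159.R2.H254 Vale.Agent.P159.H950
open Vale.Agent.P159.T1.H934 Vale.Agent.P159.T1.H731
open Vale.Agent.P159.H37 (qf bf re wM ZM Zs)
open Vale.Agent.P159.TM.SpecC (Tor wT)
open Vale.Agent.P159.TM.H104 (Lg)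
open Vale.Agent.P159.H770 (wTD)

/-- fourth order bound of `cosh` -/
lemma cosh_four {Λ x : ℝ} (hΛ : 1 ≤ Λ) (hx : |x| ≤ Λ) :
    Real.cosh x - 1 ≤ x ^ 2 / 2 + x ^ 4 * Real.cosh Λ := by
  have hC := Real.one_le_cosh Λ
  rcases eq_or_ne x 0 with rfl | h0
  · simp
  have hx0 : 0 < |x| := abs_pos.2 h0
  have h1 := cosh_quart (s := Λ / |x|) (by rw [le_div_iff₀ hx0]; linarith) x
  have hΛ0 : 0 < Λ := by linarith
  have e1 : Real.cosh (Λ / |x| * x) = Real.cosh Λ := by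
    rw [← Real.cosh_abs (Λ / |x| * x), abs_mul, abs_div, abs_abs, div_mul_cancel₀ _ hx0.ne',
      Real.cosh_abs]
  rw [e1] at h1
  have e2 : (Λ / |x|)⁻¹ ^ 4 = x ^ 4 / Λ ^ 4 := by
    rw [inv_div, div_pow]
    congr 1
    rw [show (4 : ℕ) = 2 * 2 by norm_num, pow_mul, sq_abs, ← pow_mul]
  have hL4 : 1 ≤ Λ ^ 4 := one_le_pow₀ hΛ
  have hx4 : 0 ≤ x ^ 4 := by positivity
  rw [e2] at h1
  have h2 : x ^ 4 / Λ ^ 4 ≤ x ^ 4 := div_le_self hx4 hL4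
  have h3 := mul_le_mul_of_nonneg_right h2 (show 0 ≤ Real.cosh Λ by linarith)
  linarith

lemma stiffB_nonneg {b : ℝ} (hb : 0 ≤ b) {l : ℕ} (hl : 1 ≤ l) : 0 ≤ stiff l b := by
  rcases hb.eq_or_lt with h | h
  · have h2 := QB_const b l hl 1 0
    have h3 := Qform_nonneg muInf (fun _ : EB l => b) (chB l) G_div2 (fun _ => hb)
      (fun e => if e.2 then 0 else 1)
    rw [h2] at h3
    have hl0 : (0 : ℝ) < (l : ℝ) ^ 2 := by
      have : (0 : ℝ) < l := by exact_mod_cast hl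
      positivity
    nlinarith
  · exact UJ.h3_stiff_nonneg h hl

/-- oscillation bounded by any reference constants -/
lemma oB_le_ref {l : ℕ} (hl : 1 ≤ l) (c : EB l → ℝ) (a : Bool → ℝ) :
    oB c ≤ ∑ e, (c e - a e.2) ^ 2 := by
  have hl0 : (0 : ℝ) < (l : ℝ) ^ 2 := by
    have : (0 : ℝ) < l := by exact_mod_cast hl
    positivity
  have hc : (Fintype.card ↥(blk (0, 0) l) : ℝ) = (l : ℝ) ^ 2 := by
    rw [Fintype.card_coe, card_blk]
    push_cast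
    rfl
  have key : ∀ t, ∑ p : ↥(blk (0, 0) l), (c (p, t) - mB c t) ^ 2 ≤
      ∑ p : ↥(blk (0, 0) l), (c (p, t) - a t) ^ 2 := by
    intro t
    have e1 : ∑ p : ↥(blk (0, 0) l), c (p, t) = (l : ℝ) ^ 2 * mB c t := by
      unfold mB
      field_simp
    have e2 : ∀ r : ℝ, ∑ p : ↥(blk (0, 0) l), (c (p, t) - r) ^ 2 =
        ∑ p : ↥(blk (0, 0) l), c (p, t) ^ 2 - 2 * r * ((l : ℝ) ^ 2 * mB c t) +
          (l : ℝ) ^ 2 * r ^ 2 := by
      intro r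
      have e3 : ∀ p : ↥(blk (0, 0) l), (c (p, t) - r) ^ 2 =
          c (p, t) ^ 2 - 2 * r * c (p, t) + r ^ 2 := fun p => by ring
      simp only [e3, Finset.sum_add_distrib, Finset.sum_sub_distrib, ← Finset.mul_sum, e1,
        Finset.sum_const, Finset.card_univ, nsmul_eq_mul, hc]
    rw [e2, e2]
    nlinarith [mul_nonneg hl0.le (sq_nonneg (mB c t - a t))]
  unfold oB
  rw [Fintype.sum_prod_type, Fintype.sum_prod_type]
  simp only [Fintype.sum_bool, Finset.sum_add_distrib]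
  linarith [key true, key false]

/-- cost of a field in a block -/
noncomputable def cost (b K τ : ℝ) {l : ℕ} (c : EB l → ℝ) : ℝ :=
  (1 + τ) / 2 * (stiff l b * ∑ e, c e ^ 2) + (1 + 1 / τ) / 2 * (b * oB c) + K * (∑ e, c e ^ 2) ^ 2

/-- the constant of the fourth order term -/
noncomputable def K4c (b Λ : ℝ) : ℝ := 3 * max b 1 ^ 2 + b * Real.cosh Λ

/-- **the ratio of a block** -/
theorem rat_cost {b : ℝ} (hb : 0 ≤ b) {l : ℕ} (hl : 1 ≤ l) (c : EB l → ℝ) {Λ : ℝ} (hΛ : 1 ≤ Λ)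
    (hc : ∀ e, |c e| ≤ Λ) (hc1 : l = 1 ∨ ∀ e, |c e| ≤ 1) {τ : ℝ} (hτ : 0 < τ) :
    rat (fun _ : EB l => b) (GX (chB l)) c ≤ Real.exp (cost b (K4c b Λ) τ c) := by
  have hS : 0 ≤ ∑ e, c e ^ 2 := Finset.sum_nonneg fun e _ => sq_nonneg _
  have hs := stiffB_nonneg hb hl
  have hC := Real.one_le_cosh Λ
  have ho := oB_nonneg c
  have h1τ : 0 ≤ (1 + 1 / τ) / 2 := by positivity
  rcases hc1 with h1 | h1
  · subst h1
    refine (rat_bare (fun _ => hb) (GX_half G_div2 _) c).trans (Real.exp_le_exp.2 ?_)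
    have h2 : ∀ e, b * (Real.cosh (c e) - 1) ≤ b * (c e ^ 2 / 2 + c e ^ 4 * Real.cosh Λ) := fun e =>
      mul_le_mul_of_nonneg_left (cosh_four hΛ (hc e)) hb
    refine (Finset.sum_le_sum fun e _ => h2 e).trans ?_
    have h3 : ∑ e, c e ^ 4 ≤ (∑ e, c e ^ 2) ^ 2 := by
      rw [pow_two (∑ e, c e ^ 2), Finset.sum_mul]
      refine Finset.sum_le_sum fun e _ => ?_
      have h4 : c e ^ 2 ≤ ∑ e, c e ^ 2 :=
        Finset.single_le_sum (f := fun e => c e ^ 2) (fun _ _ => sq_nonneg _) (Finset.mem_univ e)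
      have := mul_le_mul_of_nonneg_left h4 (sq_nonneg (c e))
      nlinarith
    have e1 : ∑ e, b * (c e ^ 2 / 2 + c e ^ 4 * Real.cosh Λ) =
        b / 2 * ∑ e, c e ^ 2 + b * Real.cosh Λ * ∑ e, c e ^ 4 := by
      rw [Finset.mul_sum, Finset.mul_sum, ← Finset.sum_add_distrib]
      exact Finset.sum_congr rfl fun e _ => by ring
    rw [e1]
    unfold cost K4c
    rw [stiff_one]
    have h5 : b * Real.cosh Λ * ∑ e, c e ^ 4 ≤ b * Real.cosh Λ * (∑ e, c e ^ 2) ^ 2 :=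
      mul_le_mul_of_nonneg_left h3 (mul_nonneg hb (by linarith))
    have h6 : 0 ≤ τ / 2 * (b * ∑ e, c e ^ 2) := by positivity
    have h7 : 0 ≤ (1 + 1 / τ) / 2 * (b * oB c) := by positivity
    have h8 : 0 ≤ 3 * max b 1 ^ 2 * (∑ e, c e ^ 2) ^ 2 := by positivity
    nlinarith
  · refine (rat_block hb hl c h1 hτ).trans (Real.exp_le_exp.2 ?_)
    unfold cost K4c
    have h3 : stiff l b * (∑ e, c e ^ 2 - oB c) ≤ stiff l b * ∑ e, c e ^ 2 :=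
      mul_le_mul_of_nonneg_left (by linarith) hs
    have h4 := mul_le_mul_of_nonneg_left h3 (show 0 ≤ (1 + τ) / 2 by linarith)
    have h5 : 0 ≤ b * Real.cosh Λ * (∑ e, c e ^ 2) ^ 2 :=
      mul_nonneg (mul_nonneg hb (by linarith)) (sq_nonneg _)
    have e5 : 3 * (max b 1 * ∑ e, c e ^ 2) ^ 2 = 3 * max b 1 ^ 2 * (∑ e, c e ^ 2) ^ 2 := by ring
    rw [e5]
    nlinarith

section til

variable {N : ℕ} [NeZero N] {ι : Type} [Fintype ι] (T : Til N ι)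

/-- **E2 with dislocation, general tiling, all Fourier modes** -/
theorem Til.domC {b : ℝ} (hb : 0 ≤ b) (η : Tor N × Bool → ℤ)
    {M : Matrix (Tor N) (Tor N) ℝ} (hMs : Mᵀ = M) {m0 : ℝ} (hm0 : 0 < m0)
    (hM : ∀ u : Tor N → ℝ, m0 * ∑ x, u x ^ 2 ≤ qf M u) (J w : Tor N → ℝ)
    (c : Tor N × Bool → ℝ) (hJ : ∀ x, J x = (M *ᵥ w) x + H817.dv c x)
    (hη : ∀ i, T.l i = 1 ∨ ∀ p ∈ blk (0, 0) (T.l i), cuZ η (T.s i p) = 0)
    {Λ : ℝ} (hΛ : 1 ≤ Λ) (hc : ∀ e, |c e| ≤ Λ)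
    (hc1 : ∀ i, T.l i = 1 ∨ ∀ p ∈ blk (0, 0) (T.l i), ∀ t, |c (T.s i p, t)| ≤ 1)
    (τ : ι → ℝ) (hτ : ∀ i, 0 < τ i) :
    Dom (Real.exp (qf M w / 2 - ∑ e, c e * η e + ∑ i, cost b (K4c b Λ) (τ i) (T.c c i)))
      (fun h => wM (wTD N b η) M h * Real.exp (∑ x, J x * (h x : ℝ))) (wM (wT b N) M) := by
  have h := T.dom hb η hMs hm0 hM J w c hJ
  refine ⟨h.sM, h.sP, h.even, fun φ => (h.le φ).trans ?_⟩
  have hd := Dom.form hMs hm0 hM 0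
  have h0 : 0 ≤ (ft (wM (wT b N) M) φ).re := by
    have h1 := T.dom hb 0 hMs hm0 hM 0 0 0 (fun x => by simp [H817.dv])
    have h2 : 0 < Real.exp (qf M 0 / 2 - ∑ e : Tor N × Bool, (0 : Tor N × Bool → ℝ) e *
        ((0 : Tor N × Bool → ℤ) e : ℝ)) * ∏ i, rtx (fun _ : EB (T.l i) => b) (GX (chB (T.l i)))
          (T.c 0 i) (T.η 0 i) := by
      refine mul_pos (Real.exp_pos _) (Finset.prod_pos fun i _ => ?_)
      rw [rtx_mem _ _ _ (T.η_mem 0 i (Or.inr fun c _ => by unfold cuZ; simp))]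
      exact rat_pos (fun _ => hb) _ _
    have h3 := (norm_nonneg _).trans (h1.le φ)
    exact nonneg_of_mul_nonneg_right h3 h2
  refine mul_le_mul_of_nonneg_right ?_ h0
  rw [Real.exp_add, Real.exp_sum]
  refine mul_le_mul_of_nonneg_left ?_ (Real.exp_pos _).le
  refine Finset.prod_le_prod (fun i _ => rtx_nonneg (fun _ => hb) _ _ _) fun i _ => ?_
  rw [rtx_mem _ _ _ (T.η_mem η i (hη i))]
  refine rat_cost hb (T.hl i) (T.c c i) hΛ (fun e => ?_) ?_ (hτ i)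
  · unfold Til.c
    split_ifs
    · exact hc _
    · rw [abs_neg]; exact hc _
  · rcases hc1 i with h1 | h1
    · exact Or.inl h1
    · refine Or.inr fun e => ?_
      unfold Til.c
      split_ifs
      · exact h1 _ e.1.2 _
      · rw [abs_neg]; exact h1 _ e.1.2 _

/-- **E2 with dislocation, general tiling** -/
theorem Til.up {b : ℝ} (hb : 0 ≤ b) (η : Tor N × Bool → ℤ)
    {M : Matrix (Tor N) (Tor N) ℝ} (hMs : Mᵀ = M) {m0 : ℝ} (hm0 : 0 < m0)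
    (hM : ∀ u : Tor N → ℝ, m0 * ∑ x, u x ^ 2 ≤ qf M u) (J w : Tor N → ℝ)
    (c : Tor N × Bool → ℝ) (hJ : ∀ x, J x = (M *ᵥ w) x + H817.dv c x)
    (hη : ∀ i, T.l i = 1 ∨ ∀ p ∈ blk (0, 0) (T.l i), cuZ η (T.s i p) = 0)
    {Λ : ℝ} (hΛ : 1 ≤ Λ) (hc : ∀ e, |c e| ≤ Λ)
    (hc1 : ∀ i, T.l i = 1 ∨ ∀ p ∈ blk (0, 0) (T.l i), ∀ t, |c (T.s i p, t)| ≤ 1)
    (τ : ι → ℝ) (hτ : ∀ i, 0 < τ i) :
    Zs (wM (wTD N b η) M) J ≤
      Real.exp (qf M w / 2 - ∑ e, c e * η e + ∑ i, cost b (K4c b Λ) (τ i) (T.c c i)) *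
        Zs (wM (wT b N) M) 0 := by
  have h := (T.domC hb η hMs hm0 hM J w c hJ hη hΛ hc hc1 τ hτ).total
  have e : ∀ (μ : (Tor N → ℤ) → ℝ) (J : Tor N → ℝ), Zs μ J =
      ∑' h, μ h * Real.exp (∑ x, J x * (h x : ℝ)) := by
    intro μ J
    unfold H37.Zs TM.H104.T TM.H104.li
    exact tsum_congr fun h => by ring
  rw [e _ J, e _ 0]
  simpa using h

/-- **real background form**: `M (F - w) = div c` -/
theorem Til.upZM {b : ℝ} (hb : 0 ≤ b) (η : Tor N × Bool → ℤ)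
    {M : Matrix (Tor N) (Tor N) ℝ} (hMs : Mᵀ = M) {m0 : ℝ} (hm0 : 0 < m0)
    (hM : ∀ u : Tor N → ℝ, m0 * ∑ x, u x ^ 2 ≤ qf M u) (F w : Tor N → ℝ)
    (c : Tor N × Bool → ℝ) (hJ : ∀ x, (M *ᵥ F) x = (M *ᵥ w) x + H817.dv c x)
    (hη : ∀ i, T.l i = 1 ∨ ∀ p ∈ blk (0, 0) (T.l i), cuZ η (T.s i p) = 0)
    {Λ : ℝ} (hΛ : 1 ≤ Λ) (hc : ∀ e, |c e| ≤ Λ)
    (hc1 : ∀ i, T.l i = 1 ∨ ∀ p ∈ blk (0, 0) (T.l i), ∀ t, |c (T.s i p, t)| ≤ 1)
    (τ : ι → ℝ) (hτ : ∀ i, 0 < τ i) :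
    ZM (wTD N b η) M F ≤
      Real.exp (-((qf M F - qf M w) / 2) - ∑ e, c e * η e +
        ∑ i, cost b (K4c b Λ) (τ i) (T.c c i)) * ZM (wT b N) M 0 := by
  have h := T.up hb η hMs hm0 hM (M *ᵥ F) w c hJ hη hΛ hc hc1 τ hτ
  rw [H37.ZM_eq _ hMs, H37.ZM_eq _ hMs]
  have e0 : Real.exp (-(qf M 0 / 2)) = 1 := by
    rw [H37.qf_zero_vec]; simp
  rw [e0, one_mul, Matrix.mulVec_zero]
  have h2 := mul_le_mul_of_nonneg_left h (Real.exp_pos (-(qf M F / 2))).le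
  refine h2.trans (le_of_eq ?_)
  rw [← mul_assoc, ← Real.exp_add]
  congr 2
  ring

end til

end Vale.Agent.P159.H513
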