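import Vale.Agent.P159.H513.Eta3

/-!
Graded dyadic tilings of the torus: the largest dyadic square which stays at distance `R k` from
the cores.
-/

set_option linter.all false

open MeasureTheory Filter Topology Matrix

namespace Vale.Agent.P159.H513

open Vale.Agent.P159 Vale.Agent.P159.H353 Vale.Agent.P159.R2.H254 Vale.Agent.P159.H950
open Vale.Agent.P159.T1.H934 Vale.Agent.P159.T1.H731
open Vale.Agent.P159.TM.SpecC (Tor wT)

section wh

variable {N : ℕ} [NeZero N]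

/-- same dyadic square of side `2 ^ k` -/
def sq2 (k : ℕ) (x y : Tor N) : Prop :=
  x.1.val / 2 ^ k = y.1.val / 2 ^ k ∧ x.2.val / 2 ^ k = y.2.val / 2 ^ k

lemma sq2.refl (k : ℕ) (x : Tor N) : sq2 k x x := ⟨rfl, rfl⟩

lemma sq2.symm {k : ℕ} {x y : Tor N} (h : sq2 k x y) : sq2 k y x := ⟨h.1.symm, h.2.symm⟩

lemma sq2.trans {k : ℕ} {x y z : Tor N} (h : sq2 k x y) (h' : sq2 k y z) : sq2 k x z :=
  ⟨h.1.trans h'.1, h.2.trans h'.2⟩

lemma sq2.up {k k' : ℕ} (hk : k ≤ k') {x y : Tor N} (h : sq2 k x y) : sq2 k' x y := by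
  obtain ⟨d, rfl⟩ := Nat.exists_eq_add_of_le hk
  unfold sq2 at *
  rw [pow_add, ← Nat.div_div_eq_div_mul, ← Nat.div_div_eq_div_mul, ← Nat.div_div_eq_div_mul,
    ← Nat.div_div_eq_div_mul, h.1, h.2]
  exact ⟨rfl, rfl⟩

/-- the square of side `2 ^ k` at `x` is allowed -/
def alw (R : ℕ → ℕ) (d : Tor N → ℕ) (k : ℕ) (x : Tor N) : Prop := ∀ y, sq2 k x y → R k ≤ d y

lemma alw.cong {R : ℕ → ℕ} {d : Tor N → ℕ} {k : ℕ} {x y : Tor N} (h : sq2 k x y)
    (hx : alw R d k x) : alw R d k y := fun z hz => hx z (h.trans hz)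

open Classical in
/-- level of the site `x` -/
noncomputable def lev (R : ℕ → ℕ) (d : Tor N → ℕ) (m : ℕ) (x : Tor N) : ℕ :=
  Nat.findGreatest (fun k => alw R d k x) m

variable {R : ℕ → ℕ} {d : Tor N → ℕ} {m : ℕ}

lemma lev_le (x : Tor N) : lev R d m x ≤ m := by
  classical
  exact Nat.findGreatest_le m

lemma lev_alw (hR0 : R 0 = 0) (x : Tor N) : alw R d (lev R d m x) x := by
  classical
  exact Nat.findGreatest_spec (P := fun k => alw R d k x) (Nat.zero_le m)
    (fun y _ => by rw [hR0]; exact Nat.zero_le _)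

lemma lev_max {x : Tor N} {k : ℕ} (h : lev R d m x < k) (hk : k ≤ m) : ¬alw R d k x := by
  classical
  exact Nat.findGreatest_is_greatest h hk

lemma lev_cong (hR0 : R 0 = 0) {x y : Tor N} (h : sq2 (lev R d m x) x y) :
    lev R d m y = lev R d m x := by
  classical
  refine le_antisymm ?_ ?_
  · by_contra hne
    push Not at hne
    have h1 := lev_alw (m := m) (d := d) hR0 y
    exact lev_max hne (lev_le y) (h1.cong (h.up hne.le).symm)
  · by_contra hne
    push Not at hne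
    have h1 := (lev_alw (m := m) (d := d) hR0 x).cong h
    exact lev_max hne (lev_le x) h1

lemma lev_dist (hR0 : R 0 = 0) (x : Tor N) : R (lev R d m x) ≤ d x :=
  lev_alw hR0 x x (sq2.refl _ _)

/-- corner of the dyadic square -/
def crn (k : ℕ) (x : Tor N) : Tor N :=
  (((x.1.val / 2 ^ k * 2 ^ k : ℕ) : ZMod N), ((x.2.val / 2 ^ k * 2 ^ k : ℕ) : ZMod N))

lemma crn_val (k : ℕ) (x : Tor N) : (crn k x).1.val = x.1.val / 2 ^ k * 2 ^ k ∧
    (crn k x).2.val = x.2.val / 2 ^ k * 2 ^ k := by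
  unfold crn
  simp only
  rw [ZMod.val_natCast_of_lt ((Nat.div_mul_le_self _ _).trans_lt (ZMod.val_lt _)),
    ZMod.val_natCast_of_lt ((Nat.div_mul_le_self _ _).trans_lt (ZMod.val_lt _))]
  exact ⟨rfl, rfl⟩

lemma sq2_crn (k : ℕ) (x : Tor N) : sq2 k x (crn k x) := by
  unfold sq2
  rw [(crn_val k x).1, (crn_val k x).2, Nat.mul_div_cancel _ (by positivity),
    Nat.mul_div_cancel _ (by positivity)]
  exact ⟨rfl, rfl⟩

/-- two sites of the same square have the same corner -/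
lemma crn_cong {k : ℕ} {x y : Tor N} (h : sq2 k x y) : crn k x = crn k y := by
  unfold crn
  rw [h.1, h.2]

/-- corners of the blocks -/
abbrev WI (N : ℕ) [NeZero N] (R : ℕ → ℕ) (d : Tor N → ℕ) (m : ℕ) : Type :=
  {t : Tor N // crn (lev R d m t) t = t}

open Classical in
noncomputable instance (R : ℕ → ℕ) (d : Tor N → ℕ) (m : ℕ) : Fintype (WI N R d m) :=
  Subtype.fintype _

lemma val_sT {o c : ℤ × ℤ} {a b : ℕ} (ha : o.1 + c.1 = a) (hb : o.2 + c.2 = b) (ha' : a < N)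
    (hb' : b < N) : (sT N o c).1.val = a ∧ (sT N o c).2.val = b := by
  unfold sT
  simp only
  rw [ha, hb]
  constructor
  · rw [Int.cast_natCast, ZMod.val_natCast_of_lt ha']
  · rw [Int.cast_natCast, ZMod.val_natCast_of_lt hb']

/-- the sites of the square of corner `t` -/
lemma site_sq {n : ℕ} (hN : N = n * 2 ^ m) {k : ℕ} (hk : k ≤ m) {t : Tor N} (ht : crn k t = t)
    {c : ℤ × ℤ} (hc : c ∈ blk (0, 0) (2 ^ k)) :
    sq2 k t (sT N ((t.1.val : ℤ), (t.2.val : ℤ)) c) ∧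
      ((sT N ((t.1.val : ℤ), (t.2.val : ℤ)) c).1.val : ℤ) = t.1.val + c.1 ∧
      ((sT N ((t.1.val : ℤ), (t.2.val : ℤ)) c).2.val : ℤ) = t.2.val + c.2 := by
  have hm := mem_blk.1 hc
  simp only [zero_add] at hm
  push_cast at hm
  obtain ⟨h1, h2, h3, h4⟩ := hm
  obtain ⟨c1, c2⟩ := c
  simp only at h1 h2 h3 h4
  lift c1 to ℕ using h1
  lift c2 to ℕ using h3
  have h2' : c1 < 2 ^ k := by exact_mod_cast h2
  have h4' : c2 < 2 ^ k := by exact_mod_cast h4
  have hv := crn_val k t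
  rw [ht] at hv
  obtain ⟨q, hq⟩ : ∃ q, N = q * 2 ^ k := by
    obtain ⟨j, rfl⟩ := Nat.exists_eq_add_of_le hk
    exact ⟨n * 2 ^ j, by rw [hN, pow_add]; ring⟩
  have hp : 0 < 2 ^ k := by positivity
  have bd : ∀ v c : ℕ, v = v / 2 ^ k * 2 ^ k → v < N → c < 2 ^ k → v + c < N := by
    intro v c hv hvN hc
    have h5 : v / 2 ^ k < q := by
      rw [Nat.div_lt_iff_lt_mul hp, ← hq]
      exact hvN
    have h6 : (v / 2 ^ k + 1) * 2 ^ k ≤ q * 2 ^ k := Nat.mul_le_mul_right _ h5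
    rw [← hq] at h6
    have : (v / 2 ^ k + 1) * 2 ^ k = v / 2 ^ k * 2 ^ k + 2 ^ k := by ring
    omega
  have b1 := bd t.1.val c1 hv.1 (ZMod.val_lt _) h2'
  have b2 := bd t.2.val c2 hv.2 (ZMod.val_lt _) h4'
  have hs := val_sT (o := ((t.1.val : ℤ), (t.2.val : ℤ))) (c := ((c1 : ℤ), (c2 : ℤ)))
    (a := t.1.val + c1) (b := t.2.val + c2) (by push_cast; rfl) (by push_cast; rfl) b1 b2
  refine ⟨?_, ?_, ?_⟩
  · unfold sq2
    rw [hs.1, hs.2]
    have dv : ∀ v c : ℕ, v = v / 2 ^ k * 2 ^ k → c < 2 ^ k → v / 2 ^ k = (v + c) / 2 ^ k := by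
      intro v c hv hc
      conv_rhs => rw [hv]
      rw [Nat.add_comm, Nat.add_mul_div_right _ _ hp, Nat.div_eq_of_lt hc, Nat.zero_add]
    exact ⟨dv _ _ hv.1 h2', dv _ _ hv.2 h4'⟩
  · rw [hs.1]; push_cast; rfl
  · rw [hs.2]; push_cast; rfl

/-- **the graded tiling** -/
noncomputable def whi {n : ℕ} (hN : N = n * 2 ^ m) (hR0 : R 0 = 0) : Til N (WI N R d m) where
  l t := 2 ^ lev R d m t.1
  hl t := Nat.one_le_two_pow
  o t := ((t.1.1.val : ℤ), (t.1.2.val : ℤ))
  bij := by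
    constructor
    · rintro ⟨⟨t, ht⟩, ⟨c, hc⟩⟩ ⟨⟨t', ht'⟩, ⟨c', hc'⟩⟩ h
      simp only at h
      have s1 := site_sq hN (lev_le t) ht hc
      have s2 := site_sq hN (lev_le t') ht' hc'
      rw [h] at s1
      obtain ⟨x, hx⟩ : ∃ x, sT N ((t'.1.val : ℤ), (t'.2.val : ℤ)) c' = x := ⟨_, rfl⟩
      rw [hx] at s1 s2
      have l1 := lev_cong hR0 s1.1
      have l2 := lev_cong hR0 s2.1
      have hk : lev R d m t = lev R d m t' := by rw [← l1, ← l2]
      have e1 : t = t' := by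
        rw [← ht, ← ht', hk]
        refine crn_cong ?_
        have := s1.1
        rw [hk] at this
        exact this.trans s2.1.symm
      subst e1
      have e2 : c = c' := by
        ext
        · linarith [s1.2.1, s2.2.1]
        · linarith [s1.2.2, s2.2.2]
      subst e2
      rfl
    · intro x
      have hc := lev_cong (m := m) (d := d) hR0 (sq2_crn (lev R d m x) x)
      have ht : crn (lev R d m (crn (lev R d m x) x)) (crn (lev R d m x) x) =
          crn (lev R d m x) x := by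
        rw [hc]
        exact (crn_cong (sq2_crn _ x)).symm
      have hp : 0 < 2 ^ lev R d m x := by positivity
      refine ⟨⟨⟨crn (lev R d m x) x, ht⟩, ⟨(((x.1.val % 2 ^ lev R d m x : ℕ) : ℤ),
        ((x.2.val % 2 ^ lev R d m x : ℕ) : ℤ)), ?_⟩⟩, ?_⟩
      · rw [mem_blk]
        simp only [zero_add, hc]
        refine ⟨by positivity, ?_, by positivity, ?_⟩
        · exact_mod_cast Nat.mod_lt _ hp
        · exact_mod_cast Nat.mod_lt _ hp
      · simp only
        unfold sT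
        rw [(crn_val _ x).1, (crn_val _ x).2]
        have e : ∀ a : ZMod N, (((((a.val / 2 ^ lev R d m x * 2 ^ lev R d m x : ℕ) : ℤ)) +
            ((a.val % 2 ^ lev R d m x : ℕ) : ℤ) : ℤ) : ZMod N) = a := by
          intro a
          have : (((a.val / 2 ^ lev R d m x * 2 ^ lev R d m x : ℕ) : ℤ)) +
            ((a.val % 2 ^ lev R d m x : ℕ) : ℤ) = (a.val : ℤ) := by
            exact_mod_cast (by rw [Nat.mul_comm]; exact Nat.div_add_mod a.val _)
          rw [this, Int.cast_natCast, ZMod.natCast_zmod_val]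
        exact Prod.ext (e x.1) (e x.2)

variable {n : ℕ}

/-- sites of a block are in the dyadic square of the corner, and have its level -/
lemma whi_site (hN : N = n * 2 ^ m) (hR0 : R 0 = 0) (t : WI N R d m) {c : ℤ × ℤ}
    (hc : c ∈ blk (0, 0) (2 ^ lev R d m t.1)) :
    sq2 (lev R d m t.1) t.1 ((whi (d := d) (R := R) hN hR0).s t c) ∧
      lev R d m ((whi (d := d) (R := R) hN hR0).s t c) = lev R d m t.1 := by
  have h := (site_sq hN (lev_le t.1) t.2 hc).1
  exact ⟨h, lev_cong hR0 h⟩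

end wh

end Vale.Agent.P159.H513
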