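import Vale.Agent.P159.H513.Eta4

/-!
Cost of a field with radial bounds in the graded tiling.
-/

set_option linter.all false

open MeasureTheory Filter Topology Matrix

namespace Vale.Agent.P159.H513

open Vale.Agent.P159 Vale.Agent.P159.H353 Vale.Agent.P159.R2.H254 Vale.Agent.P159.H950
open Vale.Agent.P159.T1.H934 Vale.Agent.P159.T1.H731
open Vale.Agent.P159.TM.SpecC (Tor wT)

section wh

variable {N : ℕ} [NeZero N]

/-- squared norm of an edge field at a site -/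
def nx (c : Tor N × Bool → ℝ) (x : Tor N) : ℝ := c (x, false) ^ 2 + c (x, true) ^ 2

lemma nx_nonneg (c : Tor N × Bool → ℝ) (x : Tor N) : 0 ≤ nx c x := by unfold nx; positivity

/-- `d` changes by at most one along an edge -/
structure Lip1 (d : Tor N → ℕ) : Prop where
  a1 : ∀ x, d (x + (1, 0)) ≤ d x + 1
  b1 : ∀ x, d x ≤ d (x + (1, 0)) + 1
  a2 : ∀ x, d (x + (0, 1)) ≤ d x + 1
  b2 : ∀ x, d x ≤ d (x + (0, 1)) + 1

/-- sums of squares of a block as sums over the sites -/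
lemma Til.nT {ι : Type} [Fintype ι] (T : Til N ι) (c : Tor N × Bool → ℝ) (i : ι) :
    ∑ e, T.c c i e ^ 2 = ∑ p : ↥(blk (0, 0) (T.l i)), nx c (T.s i p) := by
  rw [Fintype.sum_prod_type]
  refine Finset.sum_congr rfl fun p _ => ?_
  rw [Fintype.sum_bool]
  unfold Til.c nx
  simp

lemma card_blk0 (l : ℕ) : (Fintype.card ↥(blk (0, 0) l) : ℝ) = (l : ℝ) ^ 2 := by
  rw [Fintype.card_coe, card_blk]
  push_cast
  rfl

/-- moving inside a block -/
lemma Til.walk {ι : Type} [Fintype ι] (T : Til N ι) (i : ι) (f : Tor N → ℝ) {δ : ℝ} (hδ : 0 ≤ δ)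
    (h1 : ∀ p ∈ blk (0, 0) (T.l i), |f (T.s i p + (1, 0)) - f (T.s i p)| ≤ δ)
    (h2 : ∀ p ∈ blk (0, 0) (T.l i), |f (T.s i p + (0, 1)) - f (T.s i p)| ≤ δ)
    {p : ℤ × ℤ} (hp : p ∈ blk (0, 0) (T.l i)) :
    |f (T.s i p) - f (T.s i (0, 0))| ≤ 2 * (T.l i) * δ := by
  obtain ⟨a, b⟩ := p
  have hm := mem_blk.1 hp
  simp only [zero_add] at hm
  obtain ⟨m1, m2, m3, m4⟩ := hm
  lift a to ℕ using m1
  lift b to ℕ using m3
  have m2' : a < T.l i := by exact_mod_cast m2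
  have m4' : b < T.l i := by exact_mod_cast m4
  have w1 : ∀ k : ℕ, k < T.l i → |f (T.s i ((k : ℤ), 0)) - f (T.s i (0, 0))| ≤ k * δ := by
    intro k
    induction k with
    | zero => intro _; simp
    | succ k ih =>
      intro hk
      have i1 := ih (by omega)
      have hmem : (((k : ℤ), (0 : ℤ)) : ℤ × ℤ) ∈ blk (0, 0) (T.l i) := by
        rw [mem_blk]
        simp only [zero_add]
        refine ⟨by positivity, ?_, le_rfl, ?_⟩
        · exact_mod_cast (by omega : k < T.l i)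
        · exact_mod_cast (by omega : 0 < T.l i)
      have i2 := h1 _ hmem
      rw [← T.s_e1] at i2
      have e : (((k : ℤ), (0 : ℤ)) : ℤ × ℤ) + (1, 0) = (((k + 1 : ℕ) : ℤ), 0) := by
        ext <;> simp
      rw [e] at i2
      have i3 := abs_sub_le (f (T.s i (((k + 1 : ℕ) : ℤ), 0))) (f (T.s i ((k : ℤ), 0)))
        (f (T.s i (0, 0)))
      push_cast at *
      linarith
  have w2 : ∀ k : ℕ, k < T.l i → |f (T.s i ((a : ℤ), (k : ℤ))) - f (T.s i ((a : ℤ), 0))| ≤ k * δ := by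
    intro k
    induction k with
    | zero => intro _; simp
    | succ k ih =>
      intro hk
      have i1 := ih (by omega)
      have hmem : (((a : ℤ), (k : ℤ)) : ℤ × ℤ) ∈ blk (0, 0) (T.l i) := by
        rw [mem_blk]
        simp only [zero_add]
        refine ⟨by positivity, m2, by positivity, ?_⟩
        exact_mod_cast (by omega : k < T.l i)
      have i2 := h2 _ hmem
      rw [← T.s_e2] at i2
      have e : (((a : ℤ), (k : ℤ)) : ℤ × ℤ) + (0, 1) = ((a : ℤ), ((k + 1 : ℕ) : ℤ)) := by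
        ext <;> simp
      rw [e] at i2
      have i3 := abs_sub_le (f (T.s i ((a : ℤ), ((k + 1 : ℕ) : ℤ)))) (f (T.s i ((a : ℤ), (k : ℤ))))
        (f (T.s i ((a : ℤ), 0)))
      push_cast at *
      linarith
  have i1 := w1 a m2'
  have i2 := w2 b m4'
  have i3 := abs_sub_le (f (T.s i ((a : ℤ), (b : ℤ)))) (f (T.s i ((a : ℤ), 0))) (f (T.s i (0, 0)))
  have r1 : (a : ℝ) * δ ≤ (T.l i) * δ :=
    mul_le_mul_of_nonneg_right (by exact_mod_cast m2'.le) hδ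
  have r2 : (b : ℝ) * δ ≤ (T.l i) * δ :=
    mul_le_mul_of_nonneg_right (by exact_mod_cast m4'.le) hδ
  linarith

/-- oscillation from the first differences -/
lemma Til.oT {ι : Type} [Fintype ι] (T : Til N ι) (c : Tor N × Bool → ℝ) (i : ι) {δ : ℝ}
    (hδ : 0 ≤ δ)
    (h1 : ∀ p ∈ blk (0, 0) (T.l i), ∀ t, |c (T.s i p + (1, 0), t) - c (T.s i p, t)| ≤ δ)
    (h2 : ∀ p ∈ blk (0, 0) (T.l i), ∀ t, |c (T.s i p + (0, 1), t) - c (T.s i p, t)| ≤ δ) :
    oB (T.c c i) ≤ 8 * (T.l i : ℝ) ^ 4 * δ ^ 2 := by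
  refine (oB_le_ref (T.hl i) (T.c c i) (fun t => if t then c (T.s i (0, 0), false) else
    -c (T.s i (0, 0), true))).trans ?_
  have h3 : ∀ e : EB (T.l i), (T.c c i e - (if e.2 then c (T.s i (0, 0), false) else
      -c (T.s i (0, 0), true))) ^ 2 ≤ (2 * (T.l i) * δ) ^ 2 := by
    intro e
    rw [← sq_abs]
    refine pow_le_pow_left₀ (abs_nonneg _) ?_ 2
    unfold Til.c
    split_ifs
    · exact T.walk i (fun x => c (x, false)) hδ (fun p hp => h1 p hp _) (fun p hp => h2 p hp _) e.1.2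
    · have := T.walk i (fun x => c (x, true)) hδ (fun p hp => h1 p hp _)
        (fun p hp => h2 p hp _) e.1.2
      rw [← abs_neg] at this
      refine le_trans (le_of_eq ?_) this
      congr 1
      ring
  refine (Finset.sum_le_sum fun e _ => h3 e).trans (le_of_eq ?_)
  rw [Finset.sum_const, Finset.card_univ, nsmul_eq_mul, Fintype.card_prod, Fintype.card_bool]
  push_cast
  rw [card_blk0]
  ring

variable {R : ℕ → ℕ} {d : Tor N → ℕ} {m n : ℕ}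

/-- `d` does not vary much in a block -/
lemma whi_dist (hN : N = n * 2 ^ m) (hR0 : R 0 = 0) (hR : ∀ k, 1 ≤ k → 4 * 2 ^ k ≤ R k)
    (hd : Lip1 d) (t : WI N R d m) {c : ℤ × ℤ} (hc : c ∈ blk (0, 0) (2 ^ lev R d m t.1)) :
    1 + d t.1 ≤ 2 * (1 + d ((whi (d := d) (R := R) hN hR0).s t c)) ∧
      1 + d ((whi (d := d) (R := R) hN hR0).s t c) ≤ 2 * (1 + d t.1) := by
  obtain ⟨T, hT⟩ : ∃ T, whi (d := d) (R := R) hN hR0 = T := ⟨_, rfl⟩
  have hTl : T.l t = 2 ^ lev R d m t.1 := by rw [← hT]; rfl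
  have hs0 : T.s t (0, 0) = t.1 := by
    rw [← hT]
    unfold Til.s sT whi
    simp
  have hw := T.walk t (fun x => (d x : ℝ)) zero_le_one (fun p _ => by
    have h1 := hd.a1 (T.s t p)
    have h2 := hd.b1 (T.s t p)
    rw [abs_le]
    constructor
    · have : (d (T.s t p) : ℝ) ≤ d (T.s t p + (1, 0)) + 1 := by exact_mod_cast h2
      linarith
    · have : (d (T.s t p + (1, 0)) : ℝ) ≤ d (T.s t p) + 1 := by exact_mod_cast h1
      linarith) (fun p _ => by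
    have h1 := hd.a2 (T.s t p)
    have h2 := hd.b2 (T.s t p)
    rw [abs_le]
    constructor
    · have : (d (T.s t p) : ℝ) ≤ d (T.s t p + (0, 1)) + 1 := by exact_mod_cast h2
      linarith
    · have : (d (T.s t p + (0, 1)) : ℝ) ≤ d (T.s t p) + 1 := by exact_mod_cast h1
      linarith) (p := c) (by rw [hTl]; exact hc)
  rw [hTl, hs0, mul_one, abs_le] at hw
  push_cast at hw
  rw [hT]
  have hsite := whi_site (d := d) (R := R) hN hR0 t hc
  rw [hT] at hsite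
  have r1 := lev_dist (m := m) (d := d) hR0 t.1
  have r2 := lev_dist (m := m) (d := d) hR0 (T.s t c)
  rw [hsite.2] at r2
  obtain ⟨k, hk⟩ : ∃ k, lev R d m t.1 = k := ⟨_, rfl⟩
  rw [hk] at hw r1 r2 hc
  rcases Nat.eq_zero_or_pos k with h0 | h0
  · subst h0
    have hm := mem_blk.1 hc
    simp only [zero_add, pow_zero] at hm
    have hc0 : c = (0, 0) := by
      ext <;> simp only <;> push_cast at hm <;> omega
    rw [hc0, hs0]
    omega
  · have h4 := hR k h0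
    have h5 : (4 : ℝ) * 2 ^ k ≤ R k := by exact_mod_cast h4
    have h6 : (R k : ℝ) ≤ d t.1 := by exact_mod_cast r1
    have h7 : (R k : ℝ) ≤ d (T.s t c) := by exact_mod_cast r2
    constructor
    · have : (1 : ℝ) + d t.1 ≤ 2 * (1 + d (T.s t c)) := by linarith [hw.1]
      exact_mod_cast this
    · have : (1 : ℝ) + d (T.s t c) ≤ 2 * (1 + d t.1) := by linarith [hw.2]
      exact_mod_cast this

/-- fourth powers -/
lemma pow4_add (a b : ℝ) : (a + b) ^ 4 ≤ 8 * (a ^ 4 + b ^ 4) := by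
  nlinarith [sq_nonneg (a - b), sq_nonneg (a + b), sq_nonneg (a ^ 2 - b ^ 2),
    mul_nonneg (sq_nonneg (a - b)) (sq_nonneg (a + b)), sq_nonneg ((a - b) ^ 2),
    mul_nonneg (sq_nonneg (a - b)) (sq_nonneg a), mul_nonneg (sq_nonneg (a - b)) (sq_nonneg b)]

/-- one site -/
lemma site_le {A B B' b K D y : ℝ} (hb : 0 ≤ b) (hK : 0 ≤ K) (hy : 0 < y) (hD : 0 < D)
    (h : y ≤ 2 * D) :
    8 * (b * (16 * A ^ 2 / D ^ 4 + B' ^ 2)) + 32 * (K * (16 * A ^ 4 / D ^ 4 + B ^ 4)) ≤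
      2048 * (b * A ^ 2 + 4 * (K * A ^ 4)) / y ^ 4 + 8 * (b * B' ^ 2) + 32 * (K * B ^ 4) := by
  have h8 : 1 / D ^ 4 ≤ 16 / y ^ 4 := by
    rw [div_le_div_iff₀ (by positivity) (by positivity)]
    have := pow_le_pow_left₀ hy.le h 4
    have e : (2 * D) ^ 4 = 16 * D ^ 4 := by ring
    rw [e] at this
    linarith
  have h9 : 0 ≤ 128 * (b * A ^ 2) + 512 * (K * A ^ 4) := by positivity
  have h10 := mul_le_mul_of_nonneg_left h8 h9
  have e2 : 8 * (b * (16 * A ^ 2 / D ^ 4 + B' ^ 2)) + 32 * (K * (16 * A ^ 4 / D ^ 4 + B ^ 4)) =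
      (128 * (b * A ^ 2) + 512 * (K * A ^ 4)) * (1 / D ^ 4) + 8 * (b * B' ^ 2) +
        32 * (K * B ^ 4) := by
    ring
  rw [e2]
  have e3 : (128 * (b * A ^ 2) + 512 * (K * A ^ 4)) * (16 / y ^ 4) =
      2048 * (b * A ^ 2 + 4 * (K * A ^ 4)) / y ^ 4 := by
    ring
  rw [e3] at h10
  linarith

/-- sizes in one block, abstract form -/
lemma Til.sizes {ι : Type} [Fintype ι] (T : Til N ι) (t : ι) (d' : ℤ × ℤ → ℝ) (k : ℕ)
    (hTl : T.l t = 2 ^ k) {D : ℝ} (hD0 : 0 < D) (q0 : ∀ p, 0 < d' p)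
    (hs1 : ∀ p ∈ blk (0, 0) (T.l t), D ≤ 2 * d' p)
    (c : Tor N × Bool → ℝ) {A B B' : ℝ} (hA : 0 ≤ A) (hB : 0 ≤ B) (hB' : 0 ≤ B')
    (hc : ∀ p ∈ blk (0, 0) (T.l t), ∀ s, |c (T.s t p, s)| ≤ A / d' p + B)
    (h1 : ∀ p ∈ blk (0, 0) (T.l t), ∀ s, |c (T.s t p + (1, 0), s) - c (T.s t p, s)| ≤
      A / d' p ^ 2 + B')
    (h2 : ∀ p ∈ blk (0, 0) (T.l t), ∀ s, |c (T.s t p + (0, 1), s) - c (T.s t p, s)| ≤
      A / d' p ^ 2 + B') :
    (∑ e, T.c c t e ^ 2) ^ 2 ≤ 4 ^ k * 4 ^ k * (32 * (16 * A ^ 4 / D ^ 4 + B ^ 4)) ∧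
      oB (T.c c t) ≤ 4 ^ k * 4 ^ k * (16 * (16 * A ^ 2 / D ^ 4 + B' ^ 2)) := by
  have hcb : ∀ p ∈ blk (0, 0) (T.l t), ∀ s, |c (T.s t p, s)| ≤ 2 * A / D + B := by
    intro p hp s
    refine (hc p hp s).trans ?_
    have : A / d' p ≤ 2 * A / D := by
      rw [div_le_div_iff₀ (q0 p) hD0]
      nlinarith [hs1 p hp]
    linarith
  have hdb : ∀ p ∈ blk (0, 0) (T.l t), A / d' p ^ 2 + B' ≤ 4 * A / D ^ 2 + B' := by
    intro p hp
    have h3 : D ^ 2 ≤ 4 * d' p ^ 2 := by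
      have := pow_le_pow_left₀ hD0.le (hs1 p hp) 2
      nlinarith
    have : A / d' p ^ 2 ≤ 4 * A / D ^ 2 := by
      rw [div_le_div_iff₀ (by have := q0 p; positivity) (by positivity)]
      nlinarith
    linarith
  have ho := T.oT c t (δ := 4 * A / D ^ 2 + B') (by positivity)
    (fun p hp s => (h1 p hp s).trans (hdb p hp)) (fun p hp s => (h2 p hp s).trans (hdb p hp))
  have hn := T.nT c t
  have hn2 : ∑ e, T.c c t e ^ 2 ≤ (T.l t : ℝ) ^ 2 * (2 * (2 * A / D + B) ^ 2) := by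
    rw [hn]
    have : ∀ p : ↥(blk (0, 0) (T.l t)), nx c (T.s t p) ≤ 2 * (2 * A / D + B) ^ 2 := by
      intro p
      have b1 := hcb p p.2 false
      have b2 := hcb p p.2 true
      have b3 := pow_le_pow_left₀ (abs_nonneg _) b1 2
      have b4 := pow_le_pow_left₀ (abs_nonneg _) b2 2
      rw [sq_abs] at b3 b4
      unfold nx
      linarith
    refine (Finset.sum_le_sum fun p _ => this p).trans (le_of_eq ?_)
    rw [Finset.sum_const, Finset.card_univ, nsmul_eq_mul, card_blk0]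
  have hl2 : (T.l t : ℝ) = 2 ^ k := by rw [hTl]; push_cast; rfl
  have h4k : ((2 : ℝ) ^ k) ^ 2 = 4 ^ k := by rw [← pow_mul, mul_comm, pow_mul]; norm_num
  have h16k : ((2 : ℝ) ^ k) ^ 4 = 4 ^ k * 4 ^ k := by
    rw [← h4k]; ring
  rw [hl2, h16k] at ho
  rw [hl2, h4k] at hn2
  have hsum0 : 0 ≤ ∑ e, T.c c t e ^ 2 := Finset.sum_nonneg fun e _ => sq_nonneg _
  constructor
  · refine (pow_le_pow_left₀ hsum0 hn2 2).trans ?_
    have h5 := pow4_add (2 * A / D) B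
    have e5 : (2 * A / D) ^ 4 = 16 * A ^ 4 / D ^ 4 := by rw [div_pow, mul_pow]; norm_num
    rw [e5] at h5
    have e6 : (4 ^ k * (2 * (2 * A / D + B) ^ 2)) ^ 2 =
        4 ^ k * 4 ^ k * (4 * (2 * A / D + B) ^ 4) := by ring
    rw [e6]
    refine mul_le_mul_of_nonneg_left ?_ (by positivity)
    linarith
  · refine ho.trans ?_
    have h5 : (4 * A / D ^ 2 + B') ^ 2 ≤ 2 * (16 * A ^ 2 / D ^ 4 + B' ^ 2) := by
      have e5 : (4 * A / D ^ 2) ^ 2 = 16 * A ^ 2 / D ^ 4 := by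
        rw [div_pow, mul_pow, ← pow_mul]; norm_num
      nlinarith [sq_nonneg (4 * A / D ^ 2 - B')]
    have e6 : 8 * ((4 : ℝ) ^ k * 4 ^ k) * (4 * A / D ^ 2 + B') ^ 2 =
        4 ^ k * 4 ^ k * (8 * (4 * A / D ^ 2 + B') ^ 2) := by ring
    rw [e6]
    refine mul_le_mul_of_nonneg_left ?_ (by positivity)
    linarith

/-- arithmetic of the cost -/
lemma cost_arith {b K τ s n o x y : ℝ} (hb : 0 ≤ b) (hK : 0 ≤ K) (hτ : 0 < τ) {q X Y : ℝ}
    (hq : 0 ≤ q) (hX : 0 ≤ X) (hY : 0 ≤ Y) (hn : n ^ 2 ≤ q * q * (32 * X))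
    (ho : o ≤ q * q * (16 * Y)) :
    (1 + τ) / 2 * (s * n) + (1 + 1 / τ) / 2 * (b * o) + K * n ^ 2 ≤
      (1 + τ) / 2 * s * n + q * (q * (1 + 1 / τ) * (8 * (b * Y) + 32 * (K * X))) := by
  have h1τ : 0 ≤ (1 + 1 / τ) / 2 := by positivity
  have h1τ' : 1 ≤ 1 + 1 / τ := by
    have : 0 ≤ 1 / τ := by positivity
    linarith
  have j1 := mul_le_mul_of_nonneg_left (mul_le_mul_of_nonneg_left ho hb) h1τ
  have h5 := mul_le_mul_of_nonneg_left hn hK
  have h6 : 0 ≤ q * q * (K * (32 * X)) := by positivity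
  have h7 := mul_le_mul_of_nonneg_right h1τ' h6
  have e1 : q * (q * (1 + 1 / τ) * (8 * (b * Y) + 32 * (K * X))) =
      (1 + 1 / τ) / 2 * (b * (q * q * (16 * Y))) + (1 + 1 / τ) * (q * q * (K * (32 * X))) := by
    ring
  rw [e1]
  linarith

/-- cost of one block of the graded tiling -/
lemma whi_cost (hN : N = n * 2 ^ m) (hR0 : R 0 = 0) (hR : ∀ k, 1 ≤ k → 4 * 2 ^ k ≤ R k)
    (hd : Lip1 d) {b K τ : ℝ} (hb : 0 ≤ b) (hK : 0 ≤ K) (hτ : 0 < τ)
    (c : Tor N × Bool → ℝ) {A B B' : ℝ} (hA : 0 ≤ A) (hB : 0 ≤ B) (hB' : 0 ≤ B')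
    (hc : ∀ x t, |c (x, t)| ≤ A / (1 + d x) + B)
    (h1 : ∀ x t, |c (x + (1, 0), t) - c (x, t)| ≤ A / (1 + d x) ^ 2 + B')
    (h2 : ∀ x t, |c (x + (0, 1), t) - c (x, t)| ≤ A / (1 + d x) ^ 2 + B') (t : WI N R d m) :
    cost b K τ ((whi (d := d) (R := R) hN hR0).c c t) ≤
      ∑ p : ↥(blk (0, 0) ((whi (d := d) (R := R) hN hR0).l t)),
        ((1 + τ) / 2 * stiff (2 ^ lev R d m t.1) b * nx c ((whi (d := d) (R := R) hN hR0).s t p) +
        4 ^ lev R d m t.1 * (1 + 1 / τ) *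
          (2048 * (b * A ^ 2 + 4 * (K * A ^ 4)) /
            (1 + d ((whi (d := d) (R := R) hN hR0).s t p)) ^ 4 +
            8 * (b * B' ^ 2) + 32 * (K * B ^ 4))) := by
  obtain ⟨T, hT⟩ : ∃ T, whi (d := d) (R := R) hN hR0 = T := ⟨_, rfl⟩
  obtain ⟨k, hk⟩ : ∃ k, lev R d m t.1 = k := ⟨_, rfl⟩
  have hTl : T.l t = 2 ^ k := by rw [← hT, ← hk]; rfl
  have hdist : ∀ p ∈ blk (0, 0) (T.l t), 1 + d t.1 ≤ 2 * (1 + d (T.s t p)) ∧
      1 + d (T.s t p) ≤ 2 * (1 + d t.1) := by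
    intro p hp
    rw [← hT]
    refine whi_dist hN hR0 hR hd t ?_
    rw [hk, ← hTl]
    exact hp
  rw [hT, hk]
  obtain ⟨D, hD⟩ : ∃ D : ℝ, D = 1 + d t.1 := ⟨_, rfl⟩
  have hD1 : 1 ≤ D := by rw [hD]; linarith [(Nat.cast_nonneg (d t.1) : (0:ℝ) ≤ d t.1)]
  have hD0 : 0 < D := by linarith
  have hs1 : ∀ p ∈ blk (0, 0) (T.l t), D ≤ 2 * (1 + (d (T.s t p) : ℝ)) := by
    intro p hp
    rw [hD]
    exact_mod_cast (hdist p hp).1
  have hs2 : ∀ p ∈ blk (0, 0) (T.l t), 1 + (d (T.s t p) : ℝ) ≤ 2 * D := by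
    intro p hp
    rw [hD]
    exact_mod_cast (hdist p hp).2
  have q0 : ∀ p, (0 : ℝ) < 1 + (d (T.s t p) : ℝ) := fun p => by positivity
  obtain ⟨z1, z2⟩ := T.sizes t (fun p => 1 + (d (T.s t p) : ℝ)) k hTl hD0 q0 hs1 c hA hB hB'
    (fun p _ s => hc _ s) (fun p _ s => h1 _ s) (fun p _ s => h2 _ s)
  have hl2 : (T.l t : ℝ) ^ 2 = 4 ^ k := by
    rw [hTl]; push_cast; rw [← pow_mul, mul_comm, pow_mul]; norm_num
  have hcard : ∀ r : ℝ, 4 ^ k * r = ∑ _p : ↥(blk (0, 0) (T.l t)), r := by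
    intro r
    rw [Finset.sum_const, Finset.card_univ, nsmul_eq_mul, card_blk0, hl2]
  have hst : stiff (T.l t) b = stiff (2 ^ k) b := by rw [hTl]
  have h3 := cost_arith (s := stiff (2 ^ k) b) (x := 0) (y := 0) hb hK hτ
    (show (0 : ℝ) ≤ 4 ^ k by positivity)
    (show 0 ≤ 16 * A ^ 4 / D ^ 4 + B ^ 4 by positivity)
    (show 0 ≤ 16 * A ^ 2 / D ^ 4 + B' ^ 2 by positivity) z1 z2
  unfold cost
  rw [hst]
  refine h3.trans ?_
  rw [Finset.sum_add_distrib, T.nT c t, Finset.mul_sum]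
  refine add_le_add le_rfl ?_
  rw [hcard]
  refine Finset.sum_le_sum fun p _ => ?_
  exact mul_le_mul_of_nonneg_left (site_le hb hK (q0 p) hD0 (hs2 p p.2)) (by positivity)

end wh

end Vale.Agent.P159.H513
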