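import Vale.Agent.P159.H513.Eta5

/-!
**The upper bound with dislocation in the graded tiling.** All costs are sums over the sites.
-/

set_option linter.all false

open MeasureTheory Filter Topology Matrix

namespace Vale.Agent.P159.H513

open Vale.Agent.P159 Vale.Agent.P159.H353 Vale.Agent.P159.R2.H254 Vale.Agent.P159.H950
open Vale.Agent.P159.T1.H934 Vale.Agent.P159.T1.H731
open Vale.Agent.P159.H37 (qf bf re wM ZM Zs)
open Vale.Agent.P159.TM.SpecC (Tor wT)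
open Vale.Agent.P159.H770 (wTD)

section wh

variable {N : ℕ} [NeZero N] {R : ℕ → ℕ} {d : Tor N → ℕ} {m n : ℕ}

/-- the weight of a level in the errors -/
noncomputable def gk (τ : ℕ → ℝ) (k : ℕ) : ℝ := 4 ^ k * (1 + 1 / τ k)

lemma gk_nonneg {τ : ℕ → ℝ} (hτ : ∀ k, 0 < τ k) (k : ℕ) : 0 ≤ gk τ k := by
  unfold gk
  have := hτ k
  positivity

/-- **total cost of the graded tiling** -/
theorem whi_total (hN : N = n * 2 ^ m) (hR0 : R 0 = 0) (hR : ∀ k, 1 ≤ k → 4 * 2 ^ k ≤ R k)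
    (hd : Lip1 d) {b K : ℝ} (hb : 0 ≤ b) (hK : 0 ≤ K) {τ : ℕ → ℝ} (hτ : ∀ k, 0 < τ k)
    (c : Tor N × Bool → ℝ) {A B B' : ℝ} (hA : 0 ≤ A) (hB : 0 ≤ B) (hB' : 0 ≤ B')
    (hc : ∀ x t, |c (x, t)| ≤ A / (1 + d x) + B)
    (h1 : ∀ x t, |c (x + (1, 0), t) - c (x, t)| ≤ A / (1 + d x) ^ 2 + B')
    (h2 : ∀ x t, |c (x + (0, 1), t) - c (x, t)| ≤ A / (1 + d x) ^ 2 + B') :
    ∑ t : WI N R d m, cost b K (τ (lev R d m t.1)) ((whi (d := d) (R := R) hN hR0).c c t) ≤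
      ∑ x, (1 + τ (lev R d m x)) / 2 * stiff (2 ^ lev R d m x) b * nx c x +
      ∑ x, gk τ (lev R d m x) * (2048 * (b * A ^ 2 + 4 * (K * A ^ 4)) / (1 + d x) ^ 4 +
            8 * (b * B' ^ 2) + 32 * (K * B ^ 4)) := by
  rw [← Finset.sum_add_distrib, (whi (d := d) (R := R) hN hR0).sum]
  refine Finset.sum_le_sum fun t _ => ?_
  refine (whi_cost hN hR0 hR hd hb hK (hτ _) c hA hB hB' hc h1 h2 t).trans (le_of_eq ?_)
  refine Finset.sum_congr rfl fun p _ => ?_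
  have h := (whi_site (d := d) (R := R) hN hR0 t p.2).2
  rw [h]
  rfl

/-- sums of decaying functions over the levels -/
lemma lev_sum (hR0 : R 0 = 0) {g : ℕ → ℝ} (hg : ∀ k, 0 ≤ g k) {Cd : ℝ} {φ : Tor N → ℝ}
    (hφ : ∀ x, 0 ≤ φ x) {ψ : ℕ → ℝ}
    (hS : ∀ r : ℕ, ∑ x ∈ Finset.univ.filter (fun x => r ≤ d x), φ x ≤ ψ r) :
    ∑ x, g (lev R d m x) * φ x ≤ ∑ k ∈ Finset.range (m + 1), g k * ψ (R k) := by
  have h1 : ∀ x, g (lev R d m x) * φ x ≤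
      ∑ k ∈ Finset.range (m + 1), g k * (if R k ≤ d x then φ x else 0) := by
    intro x
    have hmem : lev R d m x ∈ Finset.range (m + 1) :=
      Finset.mem_range.2 (Nat.lt_succ_of_le (lev_le x))
    refine le_trans (le_of_eq ?_) (Finset.single_le_sum
      (f := fun k => g k * (if R k ≤ d x then φ x else 0)) (fun k _ => ?_) hmem)
    · simp only [if_pos (lev_dist (m := m) (d := d) hR0 x)]
    · refine mul_nonneg (hg k) ?_
      split_ifs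
      · exact hφ x
      · exact le_rfl
  refine (Finset.sum_le_sum fun x _ => h1 x).trans ?_
  rw [Finset.sum_comm]
  refine Finset.sum_le_sum fun k _ => ?_
  rw [← Finset.mul_sum]
  refine mul_le_mul_of_nonneg_left ?_ (hg k)
  rw [← Finset.sum_filter]
  exact hS (R k)

/-- the errors of the graded tiling -/
noncomputable def eW6 (N m : ℕ) (R : ℕ → ℕ) (τ : ℕ → ℝ) (b K A B B' Cd G : ℝ) : ℝ :=
  2048 * (b * A ^ 2 + 4 * (K * A ^ 4)) * ∑ k ∈ Finset.range (m + 1), gk τ k * (Cd / (1 + R k) ^ 2) +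
    (8 * (b * B' ^ 2) + 32 * (K * B ^ 4)) * (N ^ 2 * G)

lemma whi_err (hR0 : R 0 = 0) {b K : ℝ} (hb : 0 ≤ b) (hK : 0 ≤ K) {τ : ℕ → ℝ} (hτ : ∀ k, 0 < τ k)
    {A B B' Cd G : ℝ} (hG : ∀ k ≤ m, gk τ k ≤ G)
    (hS : ∀ r : ℕ, ∑ x ∈ Finset.univ.filter (fun x => r ≤ d x), 1 / (1 + (d x : ℝ)) ^ 4 ≤
      Cd / (1 + r) ^ 2) :
    ∑ x : Tor N, gk τ (lev R d m x) * (2048 * (b * A ^ 2 + 4 * (K * A ^ 4)) / (1 + d x) ^ 4 +
            8 * (b * B' ^ 2) + 32 * (K * B ^ 4)) ≤ eW6 N m R τ b K A B B' Cd G := by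
  have e1 : ∀ x : Tor N, gk τ (lev R d m x) *
      (2048 * (b * A ^ 2 + 4 * (K * A ^ 4)) / (1 + d x) ^ 4 +
            8 * (b * B' ^ 2) + 32 * (K * B ^ 4)) =
      2048 * (b * A ^ 2 + 4 * (K * A ^ 4)) * (gk τ (lev R d m x) * (1 / (1 + (d x : ℝ)) ^ 4)) +
        (8 * (b * B' ^ 2) + 32 * (K * B ^ 4)) * gk τ (lev R d m x) := by
    intro x
    ring
  rw [Finset.sum_congr rfl fun x _ => e1 x, Finset.sum_add_distrib, ← Finset.mul_sum,
    ← Finset.mul_sum]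
  unfold eW6
  refine add_le_add (mul_le_mul_of_nonneg_left ?_ (by positivity))
    (mul_le_mul_of_nonneg_left ?_ (by positivity))
  · exact lev_sum (Cd := Cd) hR0 (gk_nonneg hτ) (φ := fun x => 1 / (1 + (d x : ℝ)) ^ 4)
      (fun x => by positivity) (ψ := fun r => Cd / (1 + (r : ℝ)) ^ 2) hS
  · refine (Finset.sum_le_sum fun x _ => hG _ (lev_le x)).trans (le_of_eq ?_)
    rw [Finset.sum_const, Finset.card_univ, Fintype.card_prod, ZMod.card, nsmul_eq_mul]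
    push_cast
    ring

/-- hypotheses on a field in the graded tiling -/
structure FldB (R : ℕ → ℕ) (d : Tor N → ℕ) (c : Tor N × Bool → ℝ) (A B B' Λ : ℝ) : Prop where
  hA : 0 ≤ A
  hB : 0 ≤ B
  hB' : 0 ≤ B'
  hΛ : 1 ≤ Λ
  b0 : ∀ x t, |c (x, t)| ≤ A / (1 + d x) + B
  b1 : ∀ x t, |c (x + (1, 0), t) - c (x, t)| ≤ A / (1 + d x) ^ 2 + B'
  b2 : ∀ x t, |c (x + (0, 1), t) - c (x, t)| ≤ A / (1 + d x) ^ 2 + B'
  bΛ : ∀ e, |c e| ≤ Λ
  one : ∀ x t, R 1 ≤ d x → |c (x, t)| ≤ 1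

/-- **E2 with dislocation, graded tiling** -/
theorem whi_up (hN : N = n * 2 ^ m) (hR0 : R 0 = 0) (hRm : Monotone R)
    (hR : ∀ k, 1 ≤ k → 4 * 2 ^ k ≤ R k)
    (hd : Lip1 d) {b : ℝ} (hb : 0 ≤ b) (η : Tor N × Bool → ℤ)
    (hη : ∀ x, 0 < d x → cuZ η x = 0)
    {M : Matrix (Tor N) (Tor N) ℝ} (hMs : Mᵀ = M) {m0 : ℝ} (hm0 : 0 < m0)
    (hM : ∀ u : Tor N → ℝ, m0 * ∑ x, u x ^ 2 ≤ qf M u) (F w : Tor N → ℝ)
    (c : Tor N × Bool → ℝ) (hJ : ∀ x, (M *ᵥ F) x = (M *ᵥ w) x + H817.dv c x)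
    {τ : ℕ → ℝ} (hτ : ∀ k, 0 < τ k) {A B B' Λ : ℝ} (hc : FldB R d c A B B' Λ)
    {Cd G : ℝ} (hG : ∀ k ≤ m, gk τ k ≤ G)
    (hS : ∀ r : ℕ, ∑ x ∈ Finset.univ.filter (fun x => r ≤ d x), 1 / (1 + (d x : ℝ)) ^ 4 ≤
      Cd / (1 + r) ^ 2) :
    ZM (wTD N b η) M F ≤
      Real.exp (-((qf M F - qf M w) / 2) - ∑ e, c e * η e +
        (∑ x, (1 + τ (lev R d m x)) / 2 * stiff (2 ^ lev R d m x) b * nx c x +
          eW6 N m R τ b (K4c b Λ) A B B' Cd G)) * ZM (wT b N) M 0 := by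
  have hΛ := hc.hΛ
  have hK : 0 ≤ K4c b Λ := by
    unfold K4c
    have := Real.cosh_pos Λ
    positivity
  have hlev : ∀ t : WI N R d m, lev R d m t.1 = 0 ∨ ∀ p ∈ blk (0, 0) (2 ^ lev R d m t.1),
      R 1 ≤ d ((whi (d := d) (R := R) hN hR0).s t p) := by
    intro t
    rcases Nat.eq_zero_or_pos (lev R d m t.1) with h0 | h0
    · exact Or.inl h0
    · refine Or.inr fun p hp => ?_
      have h1 := (whi_site (d := d) (R := R) hN hR0 t hp).2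
      have h2 := lev_dist (m := m) (d := d) hR0 ((whi (d := d) (R := R) hN hR0).s t p)
      rw [h1] at h2
      exact (hRm h0).trans h2
  have hR1 : 0 < R 1 := by
    have := hR 1 le_rfl
    omega
  have h := (whi (d := d) (R := R) hN hR0).upZM hb η hMs hm0 hM F w c hJ
    (fun t => by
      rcases hlev t with h0 | h0
      · left
        show 2 ^ lev R d m t.1 = 1
        rw [h0, pow_zero]
      · exact Or.inr fun p hp => hη _ (hR1.trans_le (h0 p hp)))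
    hΛ hc.bΛ
    (fun t => by
      rcases hlev t with h0 | h0
      · left
        show 2 ^ lev R d m t.1 = 1
        rw [h0, pow_zero]
      · exact Or.inr fun p hp s => hc.one _ s (h0 p hp))
    (fun t => τ (lev R d m t.1)) (fun t => hτ _)
  have hZ : 0 ≤ ZM (wT b N) M 0 := by
    unfold ZM
    refine tsum_nonneg fun h => ?_
    refine mul_nonneg ?_ (Real.exp_pos _).le
    unfold wT
    exact Finset.prod_nonneg fun x _ => mul_nonneg (wI_nonneg hb _) (wI_nonneg hb _)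
  refine h.trans (mul_le_mul_of_nonneg_right (Real.exp_le_exp.2 ?_) hZ)
  have h1 := whi_total hN hR0 hR hd hb hK hτ c hc.hA hc.hB hc.hB' hc.b0 hc.b1 hc.b2
  have h2 := whi_err (N := N) (m := m) (R := R) (d := d) hR0 hb hK hτ (A := A) (B := B)
    (B' := B') hG hS
  linarith

end wh

end Vale.Agent.P159.H513
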