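import Vale.Agent.P159.H513.Eta6
import Vale.Agent.P159.H817.Ang6

/-!
Distance to a pair of cores; sums over the levels of the graded tiling.
-/

set_option linter.all false

open MeasureTheory Filter Topology Matrix

namespace Vale.Agent.P159.H513

open Vale.Agent.P159 Vale.Agent.P159.H353 Vale.Agent.P159.R2.H254 Vale.Agent.P159.H950
open Vale.Agent.P159.T1.H934 Vale.Agent.P159.T1.H731
open Vale.Agent.P159.TM.SpecC (Tor wT)
open Vale.Agent.P159.H817 (sz gr jD CG)

section pr

variable {N : ℕ} [NeZero N]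

/-- distance to the cores -/
def pd (p q x : Tor N) : ℕ := min (sz (x - p)) (sz (x - q))

lemma pd_lip (p q : Tor N) : Lip1 (pd p q) := by
  have s1 : ∀ (x p : Tor N), x + (1, 0) - p = x - p + H817.e1 := fun x p => by
    unfold H817.e1; abel
  have s2 : ∀ (x p : Tor N), x + (0, 1) - p = x - p + H817.e2 := fun x p => by
    unfold H817.e2; abel
  refine ⟨fun x => ?_, fun x => ?_, fun x => ?_, fun x => ?_⟩
  · unfold pd
    rw [s1, s1]
    have := (H817.sz_e1 (x - p)).2
    have := (H817.sz_e1 (x - q)).2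
    omega
  · unfold pd
    rw [s1, s1]
    have := (H817.sz_e1 (x - p)).1
    have := (H817.sz_e1 (x - q)).1
    omega
  · unfold pd
    rw [s2, s2]
    have := (H817.sz_e2 (x - p)).2
    have := (H817.sz_e2 (x - q)).2
    omega
  · unfold pd
    rw [s2, s2]
    have := (H817.sz_e2 (x - p)).1
    have := (H817.sz_e2 (x - q)).1
    omega

/-- sum of a function of the distance to the cores -/
lemma pd_sum (p q : Tor N) {g : ℕ → ℝ} (hg : ∀ k, 0 ≤ g k) (P : ℕ → Prop) [DecidablePred P] :
    ∑ x ∈ Finset.univ.filter (fun x => P (pd p q x)), g (pd p q x) ≤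
      2 * ∑ x ∈ (Finset.univ : Finset (Tor N)).filter (fun x => P (sz x)), g (sz x) := by
  classical
  rw [Finset.sum_filter, Finset.sum_filter]
  have h1 : ∀ x : Tor N, (if P (pd p q x) then g (pd p q x) else 0) ≤
      (if P (sz (x - p)) then g (sz (x - p)) else 0) +
        (if P (sz (x - q)) then g (sz (x - q)) else 0) := by
    intro x
    have n1 : 0 ≤ (if P (sz (x - p)) then g (sz (x - p)) else 0) := by
      split_ifs
      · exact hg _
      · exact le_rfl
    have n2 : 0 ≤ (if P (sz (x - q)) then g (sz (x - q)) else 0) := by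
      split_ifs
      · exact hg _
      · exact le_rfl
    unfold pd
    rcases min_choice (sz (x - p)) (sz (x - q)) with h | h
    · rw [h]; linarith
    · rw [h]; linarith
  refine (Finset.sum_le_sum fun x _ => h1 x).trans (le_of_eq ?_)
  rw [Finset.sum_add_distrib, H817.sum_shift_sub (fun x => if P (sz x) then g (sz x) else 0) p,
    H817.sum_shift_sub (fun x => if P (sz x) then g (sz x) else 0) q]
  ring

lemma pd_sum4 (p q : Tor N) (r : ℕ) :
    ∑ x ∈ Finset.univ.filter (fun x => r ≤ pd p q x), 1 / (1 + (pd p q x : ℝ)) ^ 4 ≤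
      32 / (1 + (r : ℝ)) ^ 2 := by
  have h := pd_sum p q (g := fun k => 1 / (1 + (k : ℝ)) ^ 4) (fun k => by positivity)
    (fun k => r ≤ k)
  refine h.trans ?_
  have h2 := H817.sum_inv4 (N := N) r
  have e : (32 : ℝ) / (1 + (r : ℝ)) ^ 2 = 2 * (16 / (1 + (r : ℝ)) ^ 2) := by ring
  rw [e]
  linarith

/-- harmonic sums -/
lemma harm_sum (r : ℕ) : ∀ s : ℕ, r ≤ s → ∑ k ∈ Finset.Icc r s, 1 / (1 + (k : ℝ)) ≤
    1 + Real.log ((1 + s) / (1 + r)) := by
  intro s hs
  induction s, hs using Nat.le_induction with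
  | base =>
    rw [Finset.Icc_self, Finset.sum_singleton, div_self (by positivity), Real.log_one, add_zero]
    rw [div_le_one (by positivity)]
    linarith [(Nat.cast_nonneg r : (0 : ℝ) ≤ r)]
  | succ s hs ih =>
    have e1 : Finset.Icc r (s + 1) = insert (s + 1) (Finset.Icc r s) := by
      ext k
      simp only [Finset.mem_Icc, Finset.mem_insert]
      omega
    rw [e1, Finset.sum_insert (by simp)]
    have h1 : 1 / (1 + ((s + 1 : ℕ) : ℝ)) ≤ Real.log ((1 + ((s + 1 : ℕ) : ℝ)) / (1 + s)) := by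
      have h2 := Real.one_sub_inv_le_log_of_pos
        (x := (1 + ((s + 1 : ℕ) : ℝ)) / (1 + s)) (by positivity)
      refine le_trans (le_of_eq ?_) h2
      rw [inv_div]
      push_cast
      field_simp
      ring
    have h3 : Real.log ((1 + ((s + 1 : ℕ) : ℝ)) / (1 + r)) =
        Real.log ((1 + ((s + 1 : ℕ) : ℝ)) / (1 + s)) + Real.log ((1 + (s : ℝ)) / (1 + r)) := by
      rw [← Real.log_mul (by positivity) (by positivity)]
      congr 1
      field_simp
    rw [h3]
    linarith

/-- sum over an annulus -/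
lemma pd_sum2 (p q : Tor N) {r s : ℕ} (hrs : r ≤ s) :
    ∑ x ∈ Finset.univ.filter (fun x => r ≤ pd p q x ∧ pd p q x ≤ s),
      1 / (1 + (pd p q x : ℝ)) ^ 2 ≤ 16 * (1 + Real.log ((1 + s) / (1 + r))) := by
  classical
  have h := pd_sum p q (g := fun k => if k ≤ s then 1 / (1 + (k : ℝ)) ^ 2 else 0)
    (fun k => by split_ifs <;> positivity) (fun k => r ≤ k)
  have e1 : ∑ x ∈ Finset.univ.filter (fun x => r ≤ pd p q x ∧ pd p q x ≤ s),
      1 / (1 + (pd p q x : ℝ)) ^ 2 =
      ∑ x ∈ Finset.univ.filter (fun x => r ≤ pd p q x),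
        (if pd p q x ≤ s then 1 / (1 + (pd p q x : ℝ)) ^ 2 else 0) := by
    rw [← Finset.sum_filter, Finset.filter_filter]
  rw [e1]
  refine h.trans ?_
  have h2 := H817.sum_sz_le (N := N) (g := fun k => if k ≤ s then 1 / (1 + (k : ℝ)) ^ 2 else 0)
    (fun k => by split_ifs <;> positivity) r
  have h3 : ∑ k ∈ (Finset.range (N + 1)).filter (fun k => r ≤ k), 8 * ((k : ℝ) + 1) *
      (if k ≤ s then 1 / (1 + (k : ℝ)) ^ 2 else 0) ≤ ∑ k ∈ Finset.Icc r s, 8 * (1 / (1 + (k : ℝ))) := by
    have e2 : ∀ k : ℕ, 8 * ((k : ℝ) + 1) * (if k ≤ s then 1 / (1 + (k : ℝ)) ^ 2 else 0) =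
        if k ≤ s then 8 * (1 / (1 + (k : ℝ))) else 0 := by
      intro k
      split_ifs
      · field_simp
        ring
      · ring
    simp_rw [e2]
    rw [← Finset.sum_filter, Finset.filter_filter]
    refine Finset.sum_le_sum_of_subset_of_nonneg ?_ fun k _ _ => by positivity
    intro k hk
    rw [Finset.mem_filter] at hk
    rw [Finset.mem_Icc]
    exact hk.2
  rw [← Finset.mul_sum] at h3
  have h4 := harm_sum r s hrs
  linarith

/-- number of the sites near the cores -/
lemma pd_card (p q : Tor N) (s : ℕ) :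
    ∑ _x ∈ Finset.univ.filter (fun x => pd p q x ≤ s), (1 : ℝ) ≤ 16 * (1 + (s : ℝ)) ^ 2 := by
  classical
  have h := pd_sum p q (g := fun k => if k ≤ s then 1 else 0)
    (fun k => by split_ifs <;> norm_num) (fun k => 0 ≤ k)
  have e1 : ∑ _x ∈ Finset.univ.filter (fun x => pd p q x ≤ s), (1 : ℝ) =
      ∑ x ∈ Finset.univ.filter (fun x => 0 ≤ pd p q x), (if pd p q x ≤ s then (1 : ℝ) else 0) := by
    rw [← Finset.sum_filter, Finset.filter_filter]
    refine Finset.sum_congr ?_ fun _ _ => rfl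
    ext x
    simp
  rw [e1]
  refine h.trans ?_
  have h2 := H817.sum_sz_le (N := N) (g := fun k => if k ≤ s then 1 else 0)
    (fun k => by split_ifs <;> norm_num) 0
  have h3 : ∑ k ∈ (Finset.range (N + 1)).filter (fun k => 0 ≤ k), 8 * ((k : ℝ) + 1) *
      (if k ≤ s then 1 else 0) ≤ ∑ _k ∈ Finset.range (s + 1), 8 * ((s : ℝ) + 1) := by
    have e2 : ∀ k : ℕ, 8 * ((k : ℝ) + 1) * (if k ≤ s then 1 else 0) =
        if k ≤ s then 8 * ((k : ℝ) + 1) else 0 := by
      intro k
      split_ifs <;> ring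
    simp_rw [e2]
    rw [← Finset.sum_filter, Finset.filter_filter]
    refine (Finset.sum_le_sum_of_subset_of_nonneg (t := Finset.range (s + 1)) ?_
      fun k _ _ => by positivity).trans (Finset.sum_le_sum fun k hk => ?_)
    · intro k hk
      rw [Finset.mem_filter] at hk
      rw [Finset.mem_range]
      omega
    · rw [Finset.mem_range] at hk
      have : (k : ℝ) ≤ s := by exact_mod_cast Nat.lt_succ_iff.1 hk
      linarith
  rw [Finset.sum_const, Finset.card_range, nsmul_eq_mul] at h3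
  push_cast at h3
  have e5 : ((s : ℝ) + 1) * (8 * ((s : ℝ) + 1)) = 8 * (1 + (s : ℝ)) ^ 2 := by ring
  rw [e5] at h3
  linarith

/-! ### variation in a dyadic square -/

lemma walk1 {d : Tor N → ℕ} (hd : Lip1 d) (j : ℕ) (x : Tor N) :
    d (x + ((j : ZMod N), 0)) ≤ d x + j ∧ d x ≤ d (x + ((j : ZMod N), 0)) + j := by
  induction j with
  | zero =>
    have e : x + (((0 : ℕ) : ZMod N), 0) = x := by ext <;> simp
    rw [e]
    omega
  | succ j ih =>
    have e : x + (((j + 1 : ℕ) : ZMod N), 0) = x + ((j : ZMod N), 0) + (1, 0) := by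
      ext <;> simp [add_assoc]
    rw [e]
    have h1 := hd.a1 (x + ((j : ZMod N), 0))
    have h2 := hd.b1 (x + ((j : ZMod N), 0))
    omega

lemma walk2 {d : Tor N → ℕ} (hd : Lip1 d) (j : ℕ) (x : Tor N) :
    d (x + (0, (j : ZMod N))) ≤ d x + j ∧ d x ≤ d (x + (0, (j : ZMod N))) + j := by
  induction j with
  | zero =>
    have e : x + (0, ((0 : ℕ) : ZMod N)) = x := by ext <;> simp
    rw [e]
    omega
  | succ j ih =>
    have e : x + (0, ((j + 1 : ℕ) : ZMod N)) = x + (0, (j : ZMod N)) + (0, 1) := by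
      ext <;> simp [add_assoc]
    rw [e]
    have h1 := hd.a2 (x + (0, (j : ZMod N)))
    have h2 := hd.b2 (x + (0, (j : ZMod N)))
    omega

lemma diff_lt {a b k : ℕ} (h : a / 2 ^ k = b / 2 ^ k) (hab : a ≤ b) : b - a < 2 ^ k := by
  have h1 := Nat.div_add_mod a (2 ^ k)
  have h2 := Nat.div_add_mod b (2 ^ k)
  have h3 := Nat.mod_lt b (show 0 < 2 ^ k by positivity)
  rw [h] at h1
  omega

/-- variation along the first coordinate -/
lemma var1 {d : Tor N → ℕ} (hd : Lip1 d) {k : ℕ} {a a' b : ZMod N}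
    (h : a.val / 2 ^ k = a'.val / 2 ^ k) : d (a, b) ≤ d (a', b) + 2 ^ k := by
  rcases le_total a.val a'.val with hle | hle
  · have h1 := diff_lt h hle
    have h2 := (walk1 hd (a'.val - a.val) (a, b)).2
    have e : (a, b) + (((a'.val - a.val : ℕ) : ZMod N), (0 : ZMod N)) = (a', b) := by
      ext
      · simp only [Prod.mk_add_mk]
        rw [Nat.cast_sub hle, ZMod.natCast_zmod_val, ZMod.natCast_zmod_val]
        ring
      · simp
    rw [e] at h2
    omega
  · have h1 := diff_lt h.symm hle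
    have h2 := (walk1 hd (a.val - a'.val) (a', b)).1
    have e : (a', b) + (((a.val - a'.val : ℕ) : ZMod N), (0 : ZMod N)) = (a, b) := by
      ext
      · simp only [Prod.mk_add_mk]
        rw [Nat.cast_sub hle, ZMod.natCast_zmod_val, ZMod.natCast_zmod_val]
        ring
      · simp
    rw [e] at h2
    omega

/-- variation along the second coordinate -/
lemma var2 {d : Tor N → ℕ} (hd : Lip1 d) {k : ℕ} {a a' b : ZMod N}
    (h : a.val / 2 ^ k = a'.val / 2 ^ k) : d (b, a) ≤ d (b, a') + 2 ^ k := by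
  rcases le_total a.val a'.val with hle | hle
  · have h1 := diff_lt h hle
    have h2 := (walk2 hd (a'.val - a.val) (b, a)).2
    have e : (b, a) + ((0 : ZMod N), ((a'.val - a.val : ℕ) : ZMod N)) = (b, a') := by
      ext
      · simp
      · simp only [Prod.mk_add_mk]
        rw [Nat.cast_sub hle, ZMod.natCast_zmod_val, ZMod.natCast_zmod_val]
        ring
    rw [e] at h2
    omega
  · have h1 := diff_lt h.symm hle
    have h2 := (walk2 hd (a.val - a'.val) (b, a')).1
    have e : (b, a') + ((0 : ZMod N), ((a.val - a'.val : ℕ) : ZMod N)) = (b, a) := by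
      ext
      · simp
      · simp only [Prod.mk_add_mk]
        rw [Nat.cast_sub hle, ZMod.natCast_zmod_val, ZMod.natCast_zmod_val]
        ring
    rw [e] at h2
    omega

lemma var_sq {d : Tor N → ℕ} (hd : Lip1 d) {k : ℕ} {x y : Tor N} (h : sq2 k x y) :
    d x ≤ d y + 2 * 2 ^ k := by
  obtain ⟨a, b⟩ := x
  obtain ⟨a', b'⟩ := y
  have h1 := var1 hd (b := b) h.1
  have h2 := var2 hd (b := a') h.2
  simp only at h1 h2
  omega

variable {R : ℕ → ℕ} {d : Tor N → ℕ} {m n : ℕ}

/-- upper bound of the distance by the level -/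
lemma lev_top (hd : Lip1 d) (x : Tor N) (h : lev R d m x < m) :
    d x < R (lev R d m x + 1) + 4 * 2 ^ lev R d m x := by
  have h1 := lev_max (R := R) (d := d) (k := lev R d m x + 1) (Nat.lt_succ_self _) h
  unfold alw at h1
  push Not at h1
  obtain ⟨y, hy, hy2⟩ := h1
  have h2 := var_sq hd hy
  rw [pow_succ] at h2
  omega

/-- sum over the levels of a decreasing profile -/
theorem lev_sum2 (hR0 : R 0 = 0) (hRmo : Monotone R) (hR : ∀ k, 1 ≤ k → 4 * 2 ^ k ≤ R k)
    (p q : Tor N)
    {s : ℕ → ℝ} (hs : ∀ k, 0 ≤ s k) {ρ : ℝ} (hρ : ∀ k < m, 2 * (1 + (R (k + 1) : ℝ)) ≤ ρ * (1 + R k))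
    {ρ' : ℝ} (hρ' : 1 + (N : ℝ) ≤ ρ' * (1 + R m)) (hρ1 : 1 ≤ ρ') (hρ0 : 1 ≤ ρ)
    (hRm : R m ≤ N) :
    ∑ x, s (lev R (pd p q) m x) * (1 / (1 + (pd p q x : ℝ)) ^ 2) ≤
      16 * (1 + Real.log ρ) * ∑ k ∈ Finset.range m, s k + 16 * (1 + Real.log ρ') * s m := by
  classical
  have h1 : ∀ x, s (lev R (pd p q) m x) * (1 / (1 + (pd p q x : ℝ)) ^ 2) ≤
      ∑ k ∈ Finset.range m, s k * (if R k ≤ pd p q x ∧ pd p q x ≤ 2 * R (k + 1) then
        1 / (1 + (pd p q x : ℝ)) ^ 2 else 0) +
      s m * (if R m ≤ pd p q x ∧ pd p q x ≤ N then 1 / (1 + (pd p q x : ℝ)) ^ 2 else 0) := by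
    intro x
    have hl := lev_dist (R := R) (m := m) (d := pd p q) hR0 x
    have n1 : ∀ k, 0 ≤ s k * (if R k ≤ pd p q x ∧ pd p q x ≤ 2 * R (k + 1) then
        1 / (1 + (pd p q x : ℝ)) ^ 2 else 0) := fun k => by
      refine mul_nonneg (hs k) ?_
      split_ifs
      · positivity
      · exact le_rfl
    have n2 : 0 ≤ s m * (if R m ≤ pd p q x ∧ pd p q x ≤ N then
        1 / (1 + (pd p q x : ℝ)) ^ 2 else 0) := by
      refine mul_nonneg (hs m) ?_
      split_ifs
      · positivity
      · exact le_rfl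
    rcases (lev_le (R := R) (d := pd p q) (m := m) x).lt_or_eq with h | h
    · have ht := lev_top (pd_lip p q) x h
      have h4 := hR (lev R (pd p q) m x + 1) (Nat.le_add_left _ _)
      rw [pow_succ] at h4
      have hmem : lev R (pd p q) m x ∈ Finset.range m := Finset.mem_range.2 h
      have h5 := Finset.single_le_sum (f := fun k => s k *
        (if R k ≤ pd p q x ∧ pd p q x ≤ 2 * R (k + 1) then
        1 / (1 + (pd p q x : ℝ)) ^ 2 else 0)) (fun k _ => n1 k) hmem
      rw [if_pos ⟨hl, by omega⟩] at h5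
      linarith
    · rw [h] at hl
      have h6 : pd p q x ≤ N := (min_le_left _ _).trans (H817.sz_le_N _)
      rw [h, if_pos ⟨hl, h6⟩]
      have := Finset.sum_nonneg fun k (_ : k ∈ Finset.range m) => n1 k
      linarith
  refine (Finset.sum_le_sum fun x _ => h1 x).trans ?_
  rw [Finset.sum_add_distrib, Finset.sum_comm, ← Finset.mul_sum, ← Finset.sum_filter,
    Finset.mul_sum (Finset.range m)]
  refine add_le_add (Finset.sum_le_sum fun k hk => ?_) ?_
  · rw [← Finset.mul_sum, ← Finset.sum_filter]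
    rw [Finset.mem_range] at hk
    have hRk : R k ≤ 2 * R (k + 1) := by
      have := hRmo (Nat.le_succ k)
      show R k ≤ 2 * R (k + 1)
      have h9 : R k ≤ R (k + 1) := this
      omega
    have h6 := pd_sum2 p q hRk
    have h7 : Real.log ((1 + ((2 * R (k + 1) : ℕ) : ℝ)) / (1 + (R k : ℝ))) ≤ Real.log ρ := by
      refine Real.log_le_log (by positivity) ?_
      rw [div_le_iff₀ (by positivity)]
      have := hρ k hk
      push_cast
      linarith
    calc s k * _ ≤ s k * (16 * (1 + Real.log ρ)) := by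
          refine mul_le_mul_of_nonneg_left (h6.trans ?_) (hs k)
          linarith
      _ = _ := by ring
  · have h6 := pd_sum2 p q hRm
    have h7 : Real.log ((1 + (N : ℝ)) / (1 + (R m : ℝ))) ≤ Real.log ρ' := by
      refine Real.log_le_log (by positivity) ?_
      rw [div_le_iff₀ (by positivity)]
      exact hρ'
    calc s m * _ ≤ s m * (16 * (1 + Real.log ρ')) := by
          refine mul_le_mul_of_nonneg_left (h6.trans ?_) (hs m)
          linarith
      _ = _ := by ring

end pr

end Vale.Agent.P159.H513
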