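import Vale.Agent.P159.H513.Eta7
import Vale.Agent.P159.H770.DisN

/-!
**SL5**: the dislocation pair of charge `Q` in any real background: the partition function is at
most `exp (- Q² / (2 S) * |jD|² - (quadratic form of the background) + errors)` times the one
without dislocation.
-/

set_option linter.all false

open MeasureTheory Filter Topology Matrix

namespace Vale.Agent.P159.H513

open Vale.Agent.P159 Vale.Agent.P159.H353 Vale.Agent.P159.R2.H254 Vale.Agent.P159.H950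
open Vale.Agent.P159.T1.H934 Vale.Agent.P159.T1.H731
open Vale.Agent.P159.H37 (qf bf re wM ZM Zs Zn)
open Vale.Agent.P159.TM.SpecC (Tor wT)
open Vale.Agent.P159.H770 (wTD)
open Vale.Agent.P159.H817 (sz gr dv cu jD CG nrm)

section pr

variable {N : ℕ} [NeZero N] {R : ℕ → ℕ} {m n : ℕ}

/-- the tilt: `s` times the field of the pair plus a gradient -/
noncomputable def cF (p q : Tor N) (α β s : ℝ) (g : Tor N → ℝ) (e : Tor N × Bool) : ℝ :=
  s * jD p q α β e + gr g e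

lemma dv_cF (p q : Tor N) (α β s : ℝ) (g : Tor N → ℝ) (x : Tor N) :
    dv (cF p q α β s g) x = dv (gr g) x := by
  unfold cF
  rw [H817.dv_add (fun e => s * jD p q α β e)]
  have : dv (fun e => s * jD p q α β e) x = s * dv (jD p q α β) x := by
    unfold H817.dv; ring
  rw [this, H817.dv_jD, mul_zero, zero_add]

lemma sum_jD_gr (p q : Tor N) (α β : ℝ) (g : Tor N → ℝ) : ∑ e, jD p q α β e * gr g e = 0 := by
  rw [H817.parts]
  simp [H817.dv_jD]

lemma nrm_cF (p q : Tor N) (α β s : ℝ) (g : Tor N → ℝ) :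
    nrm (cF p q α β s g) = s ^ 2 * nrm (jD p q α β) + nrm (gr g) := by
  unfold nrm cF
  have e1 : ∀ e, (s * jD p q α β e + gr g e) ^ 2 =
      s ^ 2 * jD p q α β e ^ 2 + gr g e ^ 2 + 2 * s * (jD p q α β e * gr g e) := fun e => by ring
  simp_rw [e1]
  rw [Finset.sum_add_distrib, Finset.sum_add_distrib, ← Finset.mul_sum, ← Finset.mul_sum,
    sum_jD_gr, mul_zero, add_zero]

lemma sum_nx (c : Tor N × Bool → ℝ) : ∑ x, nx c x = nrm c := by
  unfold nrm nx
  rw [Fintype.sum_prod_type (f := fun e : Tor N × Bool => c e ^ 2)]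
  refine Finset.sum_congr rfl fun x _ => ?_
  rw [Fintype.sum_bool, add_comm]

lemma one_div_pd (p q x : Tor N) :
    1 / (1 + (sz (x - q) : ℝ)) + 1 / (1 + (sz (x - p) : ℝ)) ≤ 2 / (1 + (pd p q x : ℝ)) := by
  have h1 : (pd p q x : ℝ) ≤ sz (x - p) := by exact_mod_cast min_le_left _ _
  have h2 : (pd p q x : ℝ) ≤ sz (x - q) := by exact_mod_cast min_le_right _ _
  have a1 : 1 / (1 + (sz (x - p) : ℝ)) ≤ 1 / (1 + (pd p q x : ℝ)) :=
    one_div_le_one_div_of_le (by positivity) (by linarith)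
  have a2 : 1 / (1 + (sz (x - q) : ℝ)) ≤ 1 / (1 + (pd p q x : ℝ)) :=
    one_div_le_one_div_of_le (by positivity) (by linarith)
  have e : 2 / (1 + (pd p q x : ℝ)) = 1 / (1 + (pd p q x : ℝ)) + 1 / (1 + (pd p q x : ℝ)) := by ring
  linarith

lemma one_div_pd2 (p q x : Tor N) :
    1 / (1 + (sz (x - q) : ℝ)) ^ 2 + 1 / (1 + (sz (x - p) : ℝ)) ^ 2 ≤
      2 / (1 + (pd p q x : ℝ)) ^ 2 := by
  have h1 : (pd p q x : ℝ) ≤ sz (x - p) := by exact_mod_cast min_le_left _ _
  have h2 : (pd p q x : ℝ) ≤ sz (x - q) := by exact_mod_cast min_le_right _ _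
  have a1 : 1 / (1 + (sz (x - p) : ℝ)) ^ 2 ≤ 1 / (1 + (pd p q x : ℝ)) ^ 2 :=
    one_div_le_one_div_of_le (by positivity)
      (pow_le_pow_left₀ (by positivity) (by linarith) 2)
  have a2 : 1 / (1 + (sz (x - q) : ℝ)) ^ 2 ≤ 1 / (1 + (pd p q x : ℝ)) ^ 2 :=
    one_div_le_one_div_of_le (by positivity)
      (pow_le_pow_left₀ (by positivity) (by linarith) 2)
  have e : 2 / (1 + (pd p q x : ℝ)) ^ 2 =
    1 / (1 + (pd p q x : ℝ)) ^ 2 + 1 / (1 + (pd p q x : ℝ)) ^ 2 := by ring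
  linarith

/-- the bounds of the field -/
theorem cF_bounds (p q : Tor N) (α β s : ℝ) (g : Tor N → ℝ) {B₁ B' : ℝ} (hB₁ : 0 ≤ B₁)
    (hB' : 0 ≤ B') (h0 : ∀ e, |gr g e| ≤ B₁)
    (h1 : ∀ x t, |gr g (x + (1, 0), t) - gr g (x, t)| ≤ B')
    (h2 : ∀ x t, |gr g (x + (0, 1), t) - gr g (x, t)| ≤ B')
    (hone : 8 * CG * |s| / (1 + (R 1 : ℝ)) + (|s| * (|α| + |β|) + B₁) ≤ 1) :
    FldB R (pd p q) (cF p q α β s g) (8 * CG * |s|) (|s| * (|α| + |β|) + B₁) B'
      (1 + 8 * CG * |s| + (|s| * (|α| + |β|) + B₁)) := by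
  have hC := H817.CG_pos
  have hs := abs_nonneg s
  have b0 : ∀ x t, |cF p q α β s g (x, t)| ≤ 8 * CG * |s| / (1 + (pd p q x : ℝ)) +
      (|s| * (|α| + |β|) + B₁) := by
    intro x t
    unfold cF
    refine (abs_add_le _ _).trans ?_
    rw [abs_mul]
    have j1 := H817.jD_near p q α β x t
    have j2 := mul_le_mul_of_nonneg_left (one_div_pd p q x) (show 0 ≤ 2 * CG by positivity)
    have j3 := mul_le_mul_of_nonneg_left (j1.trans (add_le_add le_rfl j2)) hs
    have e : |s| * (|α| + |β| + 2 * CG * (2 / (1 + (pd p q x : ℝ)))) =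
        4 * CG * |s| / (1 + (pd p q x : ℝ)) + |s| * (|α| + |β|) := by ring
    rw [e] at j3
    have j4 : 4 * CG * |s| / (1 + (pd p q x : ℝ)) ≤ 8 * CG * |s| / (1 + (pd p q x : ℝ)) := by
      refine div_le_div_of_nonneg_right ?_ (by positivity)
      nlinarith [mul_nonneg hC.le hs]
    linarith [h0 (x, t)]
  have key : ∀ (d : Tor N), (d = H817.e1 ∨ d = H817.e2) →
      (∀ x t, |gr g (x + d, t) - gr g (x, t)| ≤ B') → ∀ x t,
      |cF p q α β s g (x + d, t) - cF p q α β s g (x, t)| ≤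
        8 * CG * |s| / (1 + (pd p q x : ℝ)) ^ 2 + B' := by
    intro d hd hg x t
    have e1 : cF p q α β s g (x + d, t) - cF p q α β s g (x, t) =
        s * (jD p q α β (x + d, t) - jD p q α β (x, t)) + (gr g (x + d, t) - gr g (x, t)) := by
      unfold cF; ring
    rw [e1]
    refine (abs_add_le _ _).trans ?_
    rw [abs_mul]
    have j1 := H817.DjD_near p q α β x t hd
    have j2 := mul_le_mul_of_nonneg_left (one_div_pd2 p q x) (show 0 ≤ 4 * CG by positivity)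
    have j3 := mul_le_mul_of_nonneg_left (j1.trans j2) hs
    have e : |s| * (4 * CG * (2 / (1 + (pd p q x : ℝ)) ^ 2)) =
        8 * CG * |s| / (1 + (pd p q x : ℝ)) ^ 2 := by ring
    rw [e] at j3
    linarith [hg x t]
  refine ⟨by positivity, by positivity, hB', ?_, b0, key (1, 0) (Or.inl rfl) h1,
    key (0, 1) (Or.inr rfl) h2, ?_, ?_⟩
  · have : 0 ≤ 8 * CG * |s| + (|s| * (|α| + |β|) + B₁) := by positivity
    linarith
  · rintro ⟨x, t⟩
    refine (b0 x t).trans ?_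
    have : 8 * CG * |s| / (1 + (pd p q x : ℝ)) ≤ 8 * CG * |s| := by
      refine div_le_self (by positivity) ?_
      linarith [(Nat.cast_nonneg (pd p q x) : (0 : ℝ) ≤ pd p q x)]
    linarith
  · intro x t hx
    refine (b0 x t).trans (le_trans ?_ hone)
    refine add_le_add ?_ le_rfl
    have hx' : (R 1 : ℝ) ≤ pd p q x := by exact_mod_cast hx
    exact div_le_div_of_nonneg_left (by positivity) (by positivity) (by linarith)

/-- excess of the block stiffness over `S` -/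
noncomputable def exS (b S : ℝ) (τ : ℕ → ℝ) (k : ℕ) : ℝ :=
  max 0 ((1 + τ k) * stiff (2 ^ k) b - S)

lemma exS_nonneg (b S : ℝ) (τ : ℕ → ℝ) (k : ℕ) : 0 ≤ exS b S τ k := le_max_left _ _

/-- parameters of the graded tiling -/
structure Grd (N m n : ℕ) (R : ℕ → ℕ) (τ : ℕ → ℝ) (ρ ρ' G : ℝ) : Prop where
  hN : N = n * 2 ^ m
  hR0 : R 0 = 0
  mono : Monotone R
  hR : ∀ k, 1 ≤ k → 4 * 2 ^ k ≤ R k
  hRm : R m ≤ N
  hτ : ∀ k, 0 < τ k
  hρ1 : 1 ≤ ρ
  hρ1' : 1 ≤ ρ'
  hρ : ∀ k < m, 2 * (1 + (R (k + 1) : ℝ)) ≤ ρ * (1 + R k)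
  hρ' : 1 + (N : ℝ) ≤ ρ' * (1 + R m)
  hG : ∀ k ≤ m, gk τ k ≤ G

/-- the error of the pair bound -/
noncomputable def ePr (N m : ℕ) (R : ℕ → ℕ) (τ : ℕ → ℝ) (b S A B B' Λ ρ ρ' G : ℝ) : ℝ :=
  2 * A ^ 2 * (16 * (1 + Real.log ρ) * ∑ k ∈ Finset.range m, exS b S τ k +
    16 * (1 + Real.log ρ') * exS b S τ m) +
  2 * B ^ 2 * (N ^ 2 * exS b S τ m + ∑ k ∈ Finset.range m, exS b S τ k * (64 * (1 + R (k + 1)) ^ 2)) +
  eW6 N m R τ b (K4c b Λ) A B B' 32 G

/-- number of sites of a level -/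
lemma lev_sum0 {ρ ρ' G : ℝ} {τ : ℕ → ℝ} (hg : Grd N m n R τ ρ ρ' G) (p q : Tor N) {s : ℕ → ℝ}
    (hs : ∀ k, 0 ≤ s k) :
    ∑ x, s (lev R (pd p q) m x) ≤ N ^ 2 * s m +
      ∑ k ∈ Finset.range m, s k * (64 * (1 + R (k + 1)) ^ 2) := by
  classical
  have h1 : ∀ x, s (lev R (pd p q) m x) ≤ s m +
      ∑ k ∈ Finset.range m, s k * (if pd p q x ≤ 2 * R (k + 1) then 1 else 0) := by
    intro x
    have n1 : ∀ k, 0 ≤ s k * (if pd p q x ≤ 2 * R (k + 1) then (1 : ℝ) else 0) := fun k => by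
      refine mul_nonneg (hs k) ?_
      split_ifs <;> norm_num
    rcases (lev_le (R := R) (d := pd p q) (m := m) x).lt_or_eq with h | h
    · have ht := lev_top (pd_lip p q) x h
      have h4 := hg.hR (lev R (pd p q) m x + 1) (Nat.le_add_left _ _)
      rw [pow_succ] at h4
      have hmem : lev R (pd p q) m x ∈ Finset.range m := Finset.mem_range.2 h
      have h5 := Finset.single_le_sum (f := fun k => s k *
        (if pd p q x ≤ 2 * R (k + 1) then (1 : ℝ) else 0)) (fun k _ => n1 k) hmem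
      rw [if_pos (by omega), mul_one] at h5
      linarith [hs m]
    · rw [h]
      have := Finset.sum_nonneg fun k (_ : k ∈ Finset.range m) => n1 k
      linarith
  refine (Finset.sum_le_sum fun x _ => h1 x).trans ?_
  rw [Finset.sum_add_distrib, Finset.sum_comm]
  refine add_le_add (le_of_eq ?_) (Finset.sum_le_sum fun k hk => ?_)
  · rw [Finset.sum_const, Finset.card_univ, Fintype.card_prod, ZMod.card, nsmul_eq_mul]
    push_cast
    ring
  · rw [← Finset.mul_sum, ← Finset.sum_filter]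
    refine mul_le_mul_of_nonneg_left ?_ (hs k)
    refine (pd_card p q _).trans ?_
    push_cast
    have h0 : (0 : ℝ) ≤ R (k + 1) := Nat.cast_nonneg _
    nlinarith

/-- the excess term -/
theorem exc_le {ρ ρ' G : ℝ} {τ : ℕ → ℝ} (hg : Grd N m n R τ ρ ρ' G) (p q : Tor N)
    {c : Tor N × Bool → ℝ} {A B B' Λ : ℝ} (hc : FldB R (pd p q) c A B B' Λ) (b S : ℝ) :
    ∑ x, exS b S τ (lev R (pd p q) m x) / 2 * nx c x ≤
      2 * A ^ 2 * (16 * (1 + Real.log ρ) * ∑ k ∈ Finset.range m, exS b S τ k +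
        16 * (1 + Real.log ρ') * exS b S τ m) +
      2 * B ^ 2 * (N ^ 2 * exS b S τ m +
        ∑ k ∈ Finset.range m, exS b S τ k * (64 * (1 + R (k + 1)) ^ 2)) := by
  have h1 : ∀ x, exS b S τ (lev R (pd p q) m x) / 2 * nx c x ≤
      2 * A ^ 2 * (exS b S τ (lev R (pd p q) m x) * (1 / (1 + (pd p q x : ℝ)) ^ 2)) +
        2 * B ^ 2 * exS b S τ (lev R (pd p q) m x) := by
    intro x
    have hn : nx c x ≤ 4 * (A ^ 2 * (1 / (1 + (pd p q x : ℝ)) ^ 2) + B ^ 2) := by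
      have b3 := pow_le_pow_left₀ (abs_nonneg _) (hc.b0 x false) 2
      have b4 := pow_le_pow_left₀ (abs_nonneg _) (hc.b0 x true) 2
      rw [sq_abs] at b3 b4
      unfold nx
      have e1 : A ^ 2 * (1 / (1 + (pd p q x : ℝ)) ^ 2) = (A / (1 + (pd p q x : ℝ))) ^ 2 := by
        rw [div_pow]; ring
      rw [e1]
      nlinarith [sq_nonneg (A / (1 + (pd p q x : ℝ)) - B)]
    have h2 := mul_le_mul_of_nonneg_left hn
      (show 0 ≤ exS b S τ (lev R (pd p q) m x) / 2 by have := exS_nonneg b S τ (lev R (pd p q) m x); positivity)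
    linarith
  refine (Finset.sum_le_sum fun x _ => h1 x).trans ?_
  rw [Finset.sum_add_distrib, ← Finset.mul_sum, ← Finset.mul_sum]
  refine add_le_add (mul_le_mul_of_nonneg_left ?_ (by positivity))
    (mul_le_mul_of_nonneg_left ?_ (by positivity))
  · exact lev_sum2 hg.hR0 hg.mono hg.hR p q (exS_nonneg b S τ) hg.hρ hg.hρ' hg.hρ1' hg.hρ1 hg.hRm
  · exact lev_sum0 hg p q (exS_nonneg b S τ)

/-- the circulation of `η` vanishes away from the cores -/
lemma cuZ_zero {p q : Tor N} {η : Tor N × Bool → ℤ} {α β Q : ℝ} {f : Tor N → ℝ}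
    (hf : ∀ e, (η e : ℝ) + gr f e = Q * jD p q α β e) {x : Tor N} (hx : 0 < pd p q x) :
    cuZ η x = 0 := by
  have h1 : cu (fun e => (η e : ℝ) + gr f e) x = Q * cu (jD p q α β) x := by
    have : (fun e => (η e : ℝ) + gr f e) = fun e => Q * jD p q α β e := funext hf
    rw [this]
    unfold H817.cu; ring
  rw [H817.cu_add (fun e => (η e : ℝ)), H817.cu_gr, add_zero, H817.cu_jD] at h1
  have hp : x ≠ p := by
    rintro rfl
    unfold pd at hx
    rw [sub_self, H817.sz_zero] at hx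
    omega
  have hq : x ≠ q := by
    rintro rfl
    unfold pd at hx
    rw [sub_self, H817.sz_zero] at hx
    omega
  rw [if_neg hp, if_neg hq, sub_self, mul_zero] at h1
  have h2 : ((cuZ η x : ℤ) : ℝ) = cu (fun e => (η e : ℝ)) x := by
    unfold cuZ H817.cu H817.e1 H817.e2
    push_cast
    rfl
  rw [h1] at h2
  exact_mod_cast h2

/-- **SL5**: dislocation pair of charge `Q` in the real background `F` -/
theorem pair_up {τ : ℕ → ℝ} {ρ ρ' G : ℝ} (hg : Grd N m n R τ ρ ρ' G) {b : ℝ} (hb : 0 ≤ b)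
    (p q : Tor N) {Q α β : ℝ} {η : Tor N × Bool → ℤ} {f : Tor N → ℝ}
    (hf : ∀ e, (η e : ℝ) + gr f e = Q * jD p q α β e)
    {M : Matrix (Tor N) (Tor N) ℝ} (hMs : Mᵀ = M) {m0 : ℝ} (hm0 : 0 < m0)
    (hM : ∀ u : Tor N → ℝ, m0 * ∑ x, u x ^ 2 ≤ qf M u)
    {S : ℝ} (hS : 0 < S) (F w g : Tor N → ℝ)
    (hJ : ∀ x, (M *ᵥ F) x = (M *ᵥ w) x + dv (gr g) x)
    {A B B' Λ : ℝ} (hc : FldB R (pd p q) (cF p q α β (Q / S) g) A B B' Λ) :
    ZM (wTD N b η) M (f + F) ≤
      Real.exp (-((qf M F - qf M w) / 2) + S / 2 * nrm (gr g) -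
        Q ^ 2 / (2 * S) * nrm (jD p q α β) + ePr N m R τ b S A B B' Λ ρ ρ' G) *
        ZM (wT b N) M 0 := by
  have h := whi_up hg.hN hg.hR0 hg.mono hg.hR (pd_lip p q) hb η
    (fun x hx => cuZ_zero hf hx) hMs hm0 hM (f + F) (f + w) (cF p q α β (Q / S) g)
    (fun x => by
      rw [Matrix.mulVec_add, Matrix.mulVec_add, Pi.add_apply, Pi.add_apply, hJ x, dv_cF]
      ring) hg.hτ hc (Cd := 32) hg.hG (pd_sum4 p q)
  have hZ : 0 ≤ ZM (wT b N) M 0 := by
    unfold ZM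
    refine tsum_nonneg fun h => ?_
    refine mul_nonneg ?_ (Real.exp_pos _).le
    unfold wT
    exact Finset.prod_nonneg fun x _ => mul_nonneg (wI_nonneg hb _) (wI_nonneg hb _)
  refine h.trans (mul_le_mul_of_nonneg_right (Real.exp_le_exp.2 ?_) hZ)
  -- the quadratic forms
  have q1 : qf M (f + F) - qf M (f + w) = qf M F - qf M w + 2 * ∑ x, f x * dv (gr g) x := by
    have e1 : ∀ u : Tor N → ℝ, qf M (f + u) = qf M f + qf M u + 2 * ∑ x, f x * (M *ᵥ u) x := by
      intro u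
      have h1 := H37.qf_sub_vec hMs f (-u)
      rw [sub_neg_eq_add] at h1
      have h2 : qf M (-u) = qf M u := by
        rw [H37.qf_eq, H37.qf_eq, Matrix.mulVec_neg, neg_dotProduct, dotProduct_neg, neg_neg]
      have h3 : bf M f (-u) = -∑ x, f x * (M *ᵥ u) x := by
        have : bf M f (-u) = f ⬝ᵥ (M *ᵥ (-u)) := by
          first
            | rfl
            | exact H37.bf_eq M f (-u)
        rw [this, Matrix.mulVec_neg, dotProduct_neg]
        rfl
      rw [h1, h2, h3]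
      ring
    rw [e1, e1]
    have e2 : ∑ x, f x * (M *ᵥ F) x = ∑ x, f x * (M *ᵥ w) x + ∑ x, f x * dv (gr g) x := by
      rw [← Finset.sum_add_distrib]
      exact Finset.sum_congr rfl fun x _ => by rw [hJ x]; ring
    rw [e2]
    ring
  have q2 : ∑ x, f x * dv (gr g) x = ∑ e, gr g e * gr f e := (H817.parts (gr g) f).symm
  have q3 : ∑ e, cF p q α β (Q / S) g e * (η e : ℝ) =
      Q ^ 2 / S * nrm (jD p q α β) - ∑ e, gr g e * gr f e := by
    have e1 : ∀ e, cF p q α β (Q / S) g e * (η e : ℝ) = Q ^ 2 / S * jD p q α β e ^ 2 -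
        Q / S * (jD p q α β e * gr f e) + Q * (jD p q α β e * gr g e) - gr g e * gr f e := by
      intro e
      have : (η e : ℝ) = Q * jD p q α β e - gr f e := by linarith [hf e]
      rw [this]
      unfold cF
      ring
    rw [Finset.sum_congr rfl fun e _ => e1 e, Finset.sum_sub_distrib, Finset.sum_add_distrib,
      Finset.sum_sub_distrib, ← Finset.mul_sum, ← Finset.mul_sum, ← Finset.mul_sum,
      sum_jD_gr, sum_jD_gr]
    unfold nrm
    ring
  have q4 : ∑ x, (1 + τ (lev R (pd p q) m x)) / 2 * stiff (2 ^ lev R (pd p q) m x) b *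
      nx (cF p q α β (Q / S) g) x ≤ S / 2 * (Q ^ 2 / S ^ 2 * nrm (jD p q α β) + nrm (gr g)) +
      ∑ x, exS b S τ (lev R (pd p q) m x) / 2 * nx (cF p q α β (Q / S) g) x := by
    have e1 := nrm_cF p q α β (Q / S) g
    rw [div_pow] at e1
    rw [← e1, ← sum_nx, Finset.mul_sum, ← Finset.sum_add_distrib]
    refine Finset.sum_le_sum fun x _ => ?_
    have h2 : (1 + τ (lev R (pd p q) m x)) * stiff (2 ^ lev R (pd p q) m x) b - S ≤
        exS b S τ (lev R (pd p q) m x) := le_max_right _ _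
    have h3 := mul_le_mul_of_nonneg_right h2 (nx_nonneg (cF p q α β (Q / S) g) x)
    nlinarith
  have q5 := exc_le hg p q hc b S
  have q6 : S / 2 * (Q ^ 2 / S ^ 2 * nrm (jD p q α β)) = Q ^ 2 / (2 * S) * nrm (jD p q α β) := by
    field_simp
  have q7 : Q ^ 2 / S * nrm (jD p q α β) = Q ^ 2 / (2 * S) * nrm (jD p q α β) +
      Q ^ 2 / (2 * S) * nrm (jD p q α β) := by
    field_simp
    ring
  unfold ePr
  rw [mul_add] at q4
  linarith

end pr

end Vale.Agent.P159.H513
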