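import Vale.Agent.P159.H513.Eta8
import Vale.Agent.P159.Bdl.B7

/-!
SL5 with explicit parameters: `R k = 2 ^ (k + κ k + r)` (`1 ≤ k`), `τ k = 2 ^ (- κ k)`; neutral form.
-/

set_option linter.all false

open MeasureTheory Filter Topology Matrix

namespace Vale.Agent.P159.H513

open Vale.Agent.P159 Vale.Agent.P159.H353 Vale.Agent.P159.R2.H254 Vale.Agent.P159.H950
open Vale.Agent.P159.T1.H934 Vale.Agent.P159.T1.H731
open Vale.Agent.P159.H37 (qf bf re wM ZM Zs Zn)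
open Vale.Agent.P159.TM.SpecC (Tor wT)
open Vale.Agent.P159.H770 (wTD)
open Vale.Agent.P159.H817 (sz gr dv cu jD CG nrm)

/-- the radii -/
def Rk (κ : ℕ → ℕ) (r k : ℕ) : ℕ := if k = 0 then 0 else 2 ^ (k + κ k + r)

/-- the weights of the oscillation -/
noncomputable def tk (κ : ℕ → ℕ) (k : ℕ) : ℝ := 1 / 2 ^ κ k

lemma tk_pos (κ : ℕ → ℕ) (k : ℕ) : 0 < tk κ k := by unfold tk; positivity

lemma gk_tk (κ : ℕ → ℕ) (k : ℕ) : gk (tk κ) k ≤ 2 * 4 ^ k * 2 ^ κ k := by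
  unfold gk tk
  rw [one_div_one_div]
  have h1 : (1 : ℝ) ≤ 2 ^ κ k := one_le_pow₀ (by norm_num)
  have h2 : (0 : ℝ) < 4 ^ k := by positivity
  nlinarith

section pr

variable {N : ℕ} [NeZero N] {m n : ℕ}

/-- the parameters are admissible -/
theorem grd {κ : ℕ → ℕ} (hκ : Monotone κ) (hκ1 : ∀ k, κ (k + 1) ≤ κ k + 1) {r : ℕ} (hr : 2 ≤ r)
    (hN : N = n * 2 ^ m) (hRm : Rk κ r m ≤ N) :
    Grd N m n (Rk κ r) (tk κ) (2 * (1 + 2 ^ (1 + κ 1 + r))) (1 + n) (2 * 4 ^ m * 2 ^ κ m) where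
  hN := hN
  hR0 := by simp [Rk]
  mono := by
    intro i j hij
    unfold Rk
    split_ifs with h1 h2
    · exact le_rfl
    · exact Nat.zero_le _
    · omega
    · refine Nat.pow_le_pow_right (by norm_num) ?_
      have := hκ hij
      omega
  hR k hk := by
    unfold Rk
    rw [if_neg (by omega)]
    have e : 4 * 2 ^ k = 2 ^ (k + 2) := by rw [pow_add]; ring
    rw [e]
    exact Nat.pow_le_pow_right (by norm_num) (by omega)
  hRm := hRm
  hτ k := tk_pos κ k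
  hρ1 := by
    have : (0 : ℝ) < 2 ^ (1 + κ 1 + r) := by positivity
    linarith
  hρ1' := by
    have : (0 : ℝ) ≤ n := Nat.cast_nonneg n
    linarith
  hρ k _ := by
    have h8 : (8 : ℝ) ≤ 2 ^ (1 + κ 1 + r) := by
      calc (8 : ℝ) = 2 ^ 3 := by norm_num
        _ ≤ 2 ^ (1 + κ 1 + r) := pow_le_pow_right₀ (by norm_num) (by omega)
    rcases Nat.eq_zero_or_pos k with h0 | h0
    · subst h0
      unfold Rk
      rw [if_neg (by omega), if_pos rfl]
      push_cast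
      simp
    · have h1 : (Rk κ r (k + 1) : ℝ) ≤ 4 * Rk κ r k := by
        unfold Rk
        rw [if_neg (by omega), if_neg (by omega)]
        push_cast
        have e : (4 : ℝ) * 2 ^ (k + κ k + r) = 2 ^ (k + κ k + r + 2) := by rw [pow_add _ _ 2]; ring
        rw [e]
        refine pow_le_pow_right₀ (by norm_num) ?_
        have := hκ1 k
        omega
      have h2 : (0 : ℝ) ≤ Rk κ r k := Nat.cast_nonneg _
      nlinarith
  hρ' := by
    have hn : (0 : ℝ) ≤ n := Nat.cast_nonneg n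
    have h2 : (2 : ℝ) ^ m ≤ 1 + Rk κ r m := by
      rcases Nat.eq_zero_or_pos m with h0 | h0
      · subst h0
        simp [Rk]
      · unfold Rk
        rw [if_neg (by omega)]
        push_cast
        have : (2 : ℝ) ^ m ≤ 2 ^ (m + κ m + r) := pow_le_pow_right₀ (by norm_num) (by omega)
        linarith
    have h3 : (0 : ℝ) ≤ Rk κ r m := Nat.cast_nonneg _
    have e : (N : ℝ) = n * 2 ^ m := by rw [hN]; push_cast; rfl
    rw [e]
    nlinarith [mul_le_mul_of_nonneg_left h2 hn]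
  hG k hk := by
    refine (gk_tk κ k).trans ?_
    have h1 : (4 : ℝ) ^ k ≤ 4 ^ m := pow_le_pow_right₀ (by norm_num) hk
    have h2 : (2 : ℝ) ^ κ k ≤ 2 ^ κ m := pow_le_pow_right₀ (by norm_num) (hκ hk)
    have := mul_le_mul h1 h2 (by positivity) (by positivity)
    nlinarith

lemma stiff_le_b {b : ℝ} (hb : 0 ≤ b) (k : ℕ) : stiff (2 ^ k) b ≤ b := by
  have h := UJ.stiff_mono hb (le_refl 1) (Nat.one_le_two_pow (n := k))
  rwa [one_mul, stiff_one] at h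

/-- excess of the stiffness -/
noncomputable def ek (b S : ℝ) (k : ℕ) : ℝ := max 0 (stiff (2 ^ k) b - S)

lemma ek_nonneg (b S : ℝ) (k : ℕ) : 0 ≤ ek b S k := le_max_left _ _

lemma exS_tk {b : ℝ} (hb : 0 ≤ b) (S : ℝ) (κ : ℕ → ℕ) (k : ℕ) :
    exS b S (tk κ) k ≤ ek b S k + b / 2 ^ κ k := by
  unfold exS ek tk
  have h1 := stiff_le_b hb k
  have h2 : 0 ≤ b / 2 ^ κ k := by positivity
  refine max_le ?_ ?_
  · have := le_max_left 0 (stiff (2 ^ k) b - S)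
    linarith
  · have h3 := le_max_right 0 (stiff (2 ^ k) b - S)
    have h4 : 1 / 2 ^ κ k * stiff (2 ^ k) b ≤ b / 2 ^ κ k := by
      rw [one_div, div_eq_mul_inv, mul_comm]
      exact mul_le_mul_of_nonneg_right h1 (by positivity)
    linarith

/-- the errors of the graded tiling with the explicit parameters -/
lemma eW6_le {κ : ℕ → ℕ} {r : ℕ} {b K A B B' G : ℝ} (hb : 0 ≤ b) (hK : 0 ≤ K) :
    eW6 N m (Rk κ r) (tk κ) b K A B B' 32 G ≤
      2 ^ 17 * (b * A ^ 2 + 4 * (K * A ^ 4)) * (2 ^ κ 0 + ∑ k ∈ Finset.range (m + 1), 1 / 2 ^ κ k) +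
      (8 * (b * B' ^ 2) + 32 * (K * B ^ 4)) * (N ^ 2 * G) := by
  unfold eW6
  refine add_le_add ?_ le_rfl
  have key : ∑ k ∈ Finset.range (m + 1), gk (tk κ) k * (32 / (1 + (Rk κ r k : ℝ)) ^ 2) ≤
      64 * (2 ^ κ 0 + ∑ k ∈ Finset.range (m + 1), 1 / 2 ^ κ k) := by
    rw [Finset.sum_range_succ']
    have e0 : gk (tk κ) 0 * (32 / (1 + (Rk κ r 0 : ℝ)) ^ 2) ≤ 64 * 2 ^ κ 0 := by
      have := gk_tk κ 0
      simp only [pow_zero, mul_one] at this
      simp only [Rk, if_true, Nat.cast_zero, add_zero, one_pow, div_one]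
      linarith
    have e1 : ∀ k ∈ Finset.range m, gk (tk κ) (k + 1) * (32 / (1 + (Rk κ r (k + 1) : ℝ)) ^ 2) ≤
        64 * (1 / 2 ^ κ (k + 1)) := by
      intro k _
      have h1 := gk_tk κ (k + 1)
      have h2 : (4 : ℝ) ^ (k + 1) * (2 ^ κ (k + 1)) ^ 2 ≤ (1 + (Rk κ r (k + 1) : ℝ)) ^ 2 := by
        have h3 : (2 : ℝ) ^ (k + 1) * 2 ^ κ (k + 1) ≤ 1 + (Rk κ r (k + 1) : ℝ) := by
          unfold Rk
          rw [if_neg (by omega)]
          push_cast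
          rw [← pow_add]
          have : (2 : ℝ) ^ (k + 1 + κ (k + 1)) ≤ 2 ^ (k + 1 + κ (k + 1) + r) :=
            pow_le_pow_right₀ (by norm_num) (by omega)
          linarith
        have h4 := pow_le_pow_left₀ (by positivity) h3 2
        refine le_trans (le_of_eq ?_) h4
        have e9 : ((2 : ℝ) ^ (k + 1)) ^ 2 = 4 ^ (k + 1) := by
          rw [← pow_mul, mul_comm (k + 1) 2, pow_mul]
          norm_num
        rw [mul_pow, e9]
      have hpos : (0 : ℝ) < (1 + (Rk κ r (k + 1) : ℝ)) ^ 2 := by positivity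
      rw [mul_div_assoc', div_le_iff₀ hpos]
      have h5 : 64 * (1 / 2 ^ κ (k + 1)) * ((4 : ℝ) ^ (k + 1) * (2 ^ κ (k + 1)) ^ 2) =
          (2 * 4 ^ (k + 1) * 2 ^ κ (k + 1)) * 32 := by
        field_simp
        ring
      have h6 := mul_le_mul_of_nonneg_left h2
        (show (0 : ℝ) ≤ 64 * (1 / 2 ^ κ (k + 1)) by positivity)
      rw [h5] at h6
      have h7 := mul_le_mul_of_nonneg_right h1 (show (0 : ℝ) ≤ 32 by norm_num)
      linarith
    have e2 := Finset.sum_le_sum e1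
    rw [← Finset.mul_sum] at e2
    have e3 : ∑ k ∈ Finset.range m, (1 : ℝ) / 2 ^ κ (k + 1) ≤
        ∑ k ∈ Finset.range (m + 1), 1 / 2 ^ κ k := by
      rw [Finset.sum_range_succ' (fun k => (1 : ℝ) / 2 ^ κ k)]
      have : (0 : ℝ) ≤ 1 / 2 ^ κ 0 := by positivity
      linarith
    linarith
  have h0 : 0 ≤ 2048 * (b * A ^ 2 + 4 * (K * A ^ 4)) := by positivity
  have := mul_le_mul_of_nonneg_left key h0
  refine this.trans (le_of_eq ?_)
  ring

/-- the explicit error of SL5 -/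
noncomputable def eSL (N m n : ℕ) (κ : ℕ → ℕ) (r : ℕ) (b S A B B' Λ : ℝ) : ℝ :=
  64 * A ^ 2 * (1 + Real.log (2 * (1 + 2 ^ (1 + κ 1 + r)))) *
      ∑ k ∈ Finset.range m, (ek b S k + b / 2 ^ κ k) +
    64 * A ^ 2 * (1 + Real.log (1 + n)) * (ek b S m + b / 2 ^ κ m) +
    2 * B ^ 2 * (N ^ 2 * (ek b S m + b / 2 ^ κ m) + ∑ k ∈ Finset.range m,
      (ek b S k + b / 2 ^ κ k) * (64 * (1 + Rk κ r (k + 1)) ^ 2)) +
    2 ^ 17 * (b * A ^ 2 + 4 * (K4c b Λ * A ^ 4)) *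
      (2 ^ κ 0 + ∑ k ∈ Finset.range (m + 1), 1 / 2 ^ κ k) +
    (16 * (b * B' ^ 2) + 64 * (K4c b Λ * B ^ 4)) * (N ^ 2 * (4 ^ m * 2 ^ κ m))

lemma ePr_le {κ : ℕ → ℕ} {r : ℕ} {b S A B B' Λ : ℝ} (hb : 0 ≤ b) :
    ePr N m (Rk κ r) (tk κ) b S A B B' Λ (2 * (1 + 2 ^ (1 + κ 1 + r))) (1 + n)
      (2 * 4 ^ m * 2 ^ κ m) ≤ eSL N m n κ r b S A B B' Λ := by
  have hK : 0 ≤ K4c b Λ := by
    unfold K4c
    have := Real.cosh_pos Λ
    positivity
  unfold ePr eSL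
  have h1 := eW6_le (N := N) (m := m) (κ := κ) (r := r) (A := A) (B := B) (B' := B')
    (G := 2 * 4 ^ m * 2 ^ κ m) hb hK
  have hx := fun k => exS_tk hb S κ k
  have hL1 : 0 ≤ Real.log (2 * (1 + 2 ^ (1 + κ 1 + r))) := by
    refine Real.log_nonneg ?_
    have : (0 : ℝ) < 2 ^ (1 + κ 1 + r) := by positivity
    linarith
  have hL2 : 0 ≤ Real.log (1 + (n : ℝ)) := by
    refine Real.log_nonneg ?_
    have : (0 : ℝ) ≤ n := Nat.cast_nonneg n
    linarith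
  have s1 : ∑ k ∈ Finset.range m, exS b S (tk κ) k ≤
      ∑ k ∈ Finset.range m, (ek b S k + b / 2 ^ κ k) := Finset.sum_le_sum fun k _ => hx k
  have s2 : ∑ k ∈ Finset.range m, exS b S (tk κ) k * (64 * (1 + (Rk κ r (k + 1) : ℝ)) ^ 2) ≤
      ∑ k ∈ Finset.range m, (ek b S k + b / 2 ^ κ k) * (64 * (1 + (Rk κ r (k + 1) : ℝ)) ^ 2) :=
    Finset.sum_le_sum fun k _ => mul_le_mul_of_nonneg_right (hx k) (by positivity)
  have j1 : 2 * A ^ 2 * (16 * (1 + Real.log (2 * (1 + 2 ^ (1 + κ 1 + r)))) *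
      ∑ k ∈ Finset.range m, exS b S (tk κ) k) ≤
      64 * A ^ 2 * (1 + Real.log (2 * (1 + 2 ^ (1 + κ 1 + r)))) *
      ∑ k ∈ Finset.range m, (ek b S k + b / 2 ^ κ k) := by
    have h2 := mul_le_mul_of_nonneg_left s1
      (show 0 ≤ 32 * A ^ 2 * (1 + Real.log (2 * (1 + 2 ^ (1 + κ 1 + r)))) by positivity)
    have h3 : 0 ≤ ∑ k ∈ Finset.range m, (ek b S k + b / 2 ^ κ k) :=
      Finset.sum_nonneg fun k _ => by have := ek_nonneg b S k; positivity
    have h4 : 0 ≤ 32 * A ^ 2 * (1 + Real.log (2 * (1 + 2 ^ (1 + κ 1 + r)))) *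
      ∑ k ∈ Finset.range m, (ek b S k + b / 2 ^ κ k) := by positivity
    linarith
  have j2 : 2 * A ^ 2 * (16 * (1 + Real.log (1 + (n : ℝ))) * exS b S (tk κ) m) ≤
      64 * A ^ 2 * (1 + Real.log (1 + n)) * (ek b S m + b / 2 ^ κ m) := by
    have h2 := mul_le_mul_of_nonneg_left (hx m)
      (show 0 ≤ 32 * A ^ 2 * (1 + Real.log (1 + (n : ℝ))) by positivity)
    have h3 : 0 ≤ ek b S m + b / 2 ^ κ m := by have := ek_nonneg b S m; positivity
    have h4 : 0 ≤ 32 * A ^ 2 * (1 + Real.log (1 + (n : ℝ))) * (ek b S m + b / 2 ^ κ m) := by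
      positivity
    linarith
  have j3 := mul_le_mul_of_nonneg_left (add_le_add (mul_le_mul_of_nonneg_left (hx m)
    (show (0 : ℝ) ≤ N ^ 2 by positivity)) s2) (show 0 ≤ 2 * B ^ 2 by positivity)
  have e4 : (8 * (b * B' ^ 2) + 32 * (K4c b Λ * B ^ 4)) * ((N : ℝ) ^ 2 * (2 * 4 ^ m * 2 ^ κ m)) =
      (16 * (b * B' ^ 2) + 64 * (K4c b Λ * B ^ 4)) * (N ^ 2 * (4 ^ m * 2 ^ κ m)) := by ring
  rw [e4] at h1
  rw [mul_add (2 * A ^ 2)]
  linarith

/-- **SL5, explicit form** -/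
theorem sl5 {κ : ℕ → ℕ} (hκ : Monotone κ) (hκ1 : ∀ k, κ (k + 1) ≤ κ k + 1) {r : ℕ} (hr : 2 ≤ r)
    (hN : N = n * 2 ^ m) (hRm : Rk κ r m ≤ N) {b : ℝ} (hb : 0 ≤ b)
    (p q : Tor N) {Q α β : ℝ} {η : Tor N × Bool → ℤ} {f : Tor N → ℝ}
    (hf : ∀ e, (η e : ℝ) + gr f e = Q * jD p q α β e)
    {M : Matrix (Tor N) (Tor N) ℝ} (hMs : Mᵀ = M) {m0 : ℝ} (hm0 : 0 < m0)
    (hM : ∀ u : Tor N → ℝ, m0 * ∑ x, u x ^ 2 ≤ qf M u)
    {S : ℝ} (hS : 0 < S) (F w g : Tor N → ℝ)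
    (hJ : ∀ x, (M *ᵥ F) x = (M *ᵥ w) x + dv (gr g) x)
    {A B B' Λ : ℝ} (hc : FldB (Rk κ r) (pd p q) (cF p q α β (Q / S) g) A B B' Λ) :
    ZM (wTD N b η) M (f + F) ≤
      Real.exp (-((qf M F - qf M w) / 2) + S / 2 * nrm (gr g) -
        Q ^ 2 / (2 * S) * nrm (jD p q α β) + eSL N m n κ r b S A B B' Λ) *
        ZM (wT b N) M 0 := by
  have h := pair_up (grd hκ hκ1 hr hN hRm) hb p q hf hMs hm0 hM hS F w g hJ hc
  have hZ : 0 ≤ ZM (wT b N) M 0 := by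
    unfold ZM
    refine tsum_nonneg fun h => ?_
    refine mul_nonneg ?_ (Real.exp_pos _).le
    unfold wT
    exact Finset.prod_nonneg fun x _ => mul_nonneg (wI_nonneg hb _) (wI_nonneg hb _)
  refine h.trans (mul_le_mul_of_nonneg_right (Real.exp_le_exp.2 ?_) hZ)
  have := ePr_le (N := N) (m := m) (n := n) (κ := κ) (r := r) (S := S) (A := A) (B := B)
    (B' := B') (Λ := Λ) hb
  linarith

/-- **SL5, neutral form** -/
theorem sl5_Zn {κ : ℕ → ℕ} (hκ : Monotone κ) (hκ1 : ∀ k, κ (k + 1) ≤ κ k + 1) {r : ℕ}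
    (hr : 2 ≤ r) (hN : N = n * 2 ^ m) (hRm : Rk κ r m ≤ N) {b : ℝ} (hb : 0 ≤ b)
    (p q : Tor N) {Q α β : ℝ} {η : Tor N × Bool → ℤ} {f : Tor N → ℝ}
    (hf : ∀ e, (η e : ℝ) + gr f e = Q * jD p q α β e)
    {M : Matrix (Tor N) (Tor N) ℝ} (hMs : Mᵀ = M) {m0 : ℝ} (hm0 : 0 < m0)
    (hM : ∀ u : Tor N → ℝ, m0 * ∑ x, u x ^ 2 ≤ qf M u)
    {S : ℝ} (hS : 0 < S) (F w g : Tor N → ℝ)
    (hJ : ∀ x, (M *ᵥ F) x = (M *ᵥ w) x + dv (gr g) x)
    {A B B' Λ : ℝ} (hc : FldB (Rk κ r) (pd p q) (cF p q α β (Q / S) g) A B B' Λ) :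
    Zn (wTD N b η) M (f + F) ≤
      Real.exp (-((qf M F - qf M w) / 2) + S / 2 * nrm (gr g) -
        Q ^ 2 / (2 * S) * nrm (jD p q α β) + eSL N m n κ r b S A B B' Λ) *
        ZM (wT b N) M 0 := by
  have key : ∀ c : ℝ, ZM (wTD N b η) M (fun x => (f + F) x + c) ≤
      Real.exp (-((qf M F - qf M w) / 2) + S / 2 * nrm (gr g) -
        Q ^ 2 / (2 * S) * nrm (jD p q α β) + eSL N m n κ r b S A B B' Λ) *
        ZM (wT b N) M 0 := by
    intro c
    have h := sl5 hκ hκ1 hr hN hRm hb p q hf hMs hm0 hM hS (F + fun _ => c) (w + fun _ => c) g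
      (fun x => by
        rw [Matrix.mulVec_add, Matrix.mulVec_add, Pi.add_apply, Pi.add_apply, hJ x]
        ring) hc
    have e1 : (fun x => (f + F) x + c) = f + (F + fun _ => c) := by
      funext x
      simp only [Pi.add_apply]
      ring
    have e2 : qf M (F + fun _ => c) - qf M (w + fun _ => c) = qf M F - qf M w := by
      have a1 : ∀ u : Tor N → ℝ, qf M (u + fun _ => c) = qf M u + qf M (fun _ => c) +
          2 * ∑ x, c * (M *ᵥ u) x := by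
        intro u
        have h1 := H37.qf_sub_vec hMs u (-fun _ => c)
        rw [sub_neg_eq_add] at h1
        have h2 : qf M (-fun _ => c) = qf M (fun _ => c) := H37.qf_neg _ _
        have h3 : bf M u (-fun _ => c) = -∑ x, c * (M *ᵥ u) x := by
          rw [H37.bf_comm hMs, H37.bf_eq, neg_dotProduct]
          rfl
        rw [h1, h2, h3]
        ring
      rw [a1, a1, ← Finset.mul_sum, ← Finset.mul_sum]
      have a2 : ∑ x, (M *ᵥ F) x = ∑ x, (M *ᵥ w) x := by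
        simp_rw [hJ]
        rw [Finset.sum_add_distrib, H817.sum_dv, add_zero]
      rw [a2]
      ring
    rw [e1]
    rw [e2] at h
    exact h
  obtain ⟨E, hE⟩ : ∃ E : ℝ, Real.exp (-((qf M F - qf M w) / 2) + S / 2 * nrm (gr g) -
        Q ^ 2 / (2 * S) * nrm (jD p q α β) + eSL N m n κ r b S A B B' Λ) *
        ZM (wT b N) M 0 = E := ⟨_, rfl⟩
  rw [hE] at key ⊢
  have h0 : ∀ c : ℝ, 0 ≤ ZM (wTD N b η) M (fun x => (f + F) x + c) := by
    intro c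
    unfold ZM
    refine tsum_nonneg fun h => ?_
    refine mul_nonneg ?_ (Real.exp_pos _).le
    rw [H770.wTD_eq]
    exact Finset.prod_nonneg fun x _ => mul_nonneg (wI_nonneg hb _) (wI_nonneg hb _)
  unfold Zn
  have h1 := intervalIntegral.norm_integral_le_of_norm_le_const (a := (0 : ℝ)) (b := 1) (C := E)
    (f := fun c => ZM (wTD N b η) M (fun x => (f + F) x + c)) (fun c _ => by
      rw [Real.norm_eq_abs, abs_of_nonneg (h0 c)]
      exact key c)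
  rw [sub_zero, abs_one, mul_one] at h1
  exact (le_abs_self _).trans h1

end pr

end Vale.Agent.P159.H513
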