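import Vale.Agent.P159.H513.Dom4

/-!
The ratio of the tilted partition functions of a group of currents: upper bound by the exponential
of half the variance with a fourth order error in terms of the bare energy.
-/

open MeasureTheory Filter Topology

namespace Vale.Agent.P159.H513

open Vale.Agent.P159 Vale.Agent.P159.H353 Vale.Agent.P159.R2.H254
open Vale.Agent.P159.TM.H129 (ip ip_neg)
open Vale.Agent.P159.T1.H934 Vale.Agent.P159.T1.H731

variable {E : Type} [Fintype E]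

/-- `cosh x ≤ 1 + x²/2 + s⁻⁴ cosh (s x)` for `1 ≤ s` -/
lemma cosh_quart {s : ℝ} (hs : 1 ≤ s) (x : ℝ) :
    Real.cosh x ≤ 1 + x ^ 2 / 2 + (s⁻¹) ^ 4 * Real.cosh (s * x) := by
  have hs0 : 0 < s := by linarith
  have h1 := Real.hasSum_cosh x
  have h2 := Real.hasSum_cosh (s * x)
  have h3 := (hasSum_nat_add_iff' 2).2 h1
  have h4 := ((hasSum_nat_add_iff' 2).2 h2).mul_left ((s⁻¹) ^ 4)
  have h5 := hasSum_le (fun n => ?_) h3 h4
  · simp only [Finset.sum_range_succ, Finset.sum_range_zero] at h5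
    norm_num at h5
    have h6 : 0 ≤ (s ^ 4)⁻¹ * (1 + (s * x) ^ 2 / 2) := by positivity
    have h7 : (s⁻¹) ^ 4 = (s ^ 4)⁻¹ := by rw [inv_pow]
    rw [h7]
    nlinarith
  · have hc : 0 < (((2 * (n + 2)).factorial : ℕ) : ℝ) := by positivity
    have e1 : (s⁻¹) ^ 4 * ((s * x) ^ (2 * (n + 2)) / ((2 * (n + 2)).factorial : ℝ)) =
        (s ^ (2 * n)) * (x ^ (2 * (n + 2)) / ((2 * (n + 2)).factorial : ℝ)) := by
      have : (s * x) ^ (2 * (n + 2)) = s ^ 4 * s ^ (2 * n) * x ^ (2 * (n + 2)) := by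
        rw [mul_pow, ← pow_add]
        congr 2
        ring
      rw [this, inv_pow]
      field_simp
    rw [e1]
    have h8 : 0 ≤ x ^ (2 * (n + 2)) := by
      rw [pow_mul]
      positivity
    exact le_mul_of_one_le_left (by positivity) (one_le_pow₀ hs)

lemma one_add_le_cosh (x : ℝ) : 1 + x ^ 2 / 2 ≤ Real.cosh x :=
  TM.H129.one_add_sq_le_cosh x

/-- variance of the tilt -/
noncomputable def vG (J : E → ℝ) (Γ : AddSubgroup (E → ℤ)) (c : E → ℝ) : ℝ :=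
  (∑' n, gw' J Γ 0 n * ip c n ^ 2) / SG J Γ 0 0

lemma gw'_even (J : E → ℝ) (Γ : AddSubgroup (E → ℤ)) (n : E → ℤ) :
    gw' J Γ 0 (-n) = gw' J Γ 0 n := by
  classical
  unfold gw'
  have e2 : wt J 0 (-n) = wt J 0 n := by
    unfold T1.H731.wt
    simp [wI_neg]
  rw [neg_mem_iff, e2]

lemma gw'_tilt (J : E → ℝ) (Γ : AddSubgroup (E → ℤ)) (c : E → ℝ) (n : E → ℤ) :
    gw' J Γ c n = gw' J Γ 0 n * Real.exp (ip c n) := by
  classical
  unfold gw' T1.H731.wt ip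
  split_ifs
  · simp
  · simp

lemma summ_exp (J : E → ℝ) (hJ : ∀ e, 0 ≤ J e) (Γ : AddSubgroup (E → ℤ)) (c : E → ℝ) :
    Summable fun n => gw' J Γ 0 n * Real.exp (ip c n) :=
  (gw'_summable hJ Γ c).congr fun n => gw'_tilt J Γ c n

lemma summ_cosh (J : E → ℝ) (hJ : ∀ e, 0 ≤ J e) (Γ : AddSubgroup (E → ℤ)) (c : E → ℝ) :
    Summable fun n => gw' J Γ 0 n * Real.cosh (ip c n) := by
  have h1 := summ_exp J hJ Γ c
  have h2 := summ_exp J hJ Γ (-c)
  refine ((h1.add h2).div_const 2).congr fun n => ?_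
  rw [ip_neg_left, Real.cosh_eq]
  ring

lemma SG_cosh {J : E → ℝ} (hJ : ∀ e, 0 ≤ J e) (Γ : AddSubgroup (E → ℤ)) (c : E → ℝ) :
    SG J Γ c 0 = ∑' n, gw' J Γ 0 n * Real.cosh (ip c n) := by
  have h1 := summ_exp J hJ Γ c
  have h2 := summ_exp J hJ Γ (-c)
  have e1 : SG J Γ c 0 = ∑' n, gw' J Γ 0 n * Real.exp (ip c n) := by
    rw [SG_eq]
    exact tsum_congr fun n => gw'_tilt J Γ c n
  have e2 : SG J Γ c 0 = ∑' n, gw' J Γ 0 n * Real.exp (ip (-c) n) := by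
    rw [e1, ← (Equiv.neg (E → ℤ)).tsum_eq]
    refine tsum_congr fun n => ?_
    show gw' J Γ 0 (-n) * Real.exp (ip c (-n)) = _
    rw [gw'_even, ip_neg, ip_neg_left]
  have e3 : ∑' n, gw' J Γ 0 n * Real.cosh (ip c n) =
      (∑' n, gw' J Γ 0 n * Real.exp (ip c n) + ∑' n, gw' J Γ 0 n * Real.exp (ip (-c) n)) / 2 := by
    rw [← h1.tsum_add h2, ← tsum_div_const]
    refine tsum_congr fun n => ?_
    rw [ip_neg_left, Real.cosh_eq]
    ring
  rw [e3, ← e1, ← e2]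
  ring

lemma summ_sq {J : E → ℝ} (hJ : ∀ e, 0 ≤ J e) (Γ : AddSubgroup (E → ℤ)) (c : E → ℝ) :
    Summable fun n => gw' J Γ 0 n * ip c n ^ 2 := by
  refine Summable.of_nonneg_of_le (fun n => mul_nonneg (gw'_nonneg hJ Γ 0 n) (sq_nonneg _))
    (fun n => ?_) ((summ_cosh J hJ Γ c).mul_left 2)
  have h1 := one_add_le_cosh (ip c n)
  have h2 := gw'_nonneg hJ Γ 0 n
  nlinarith

lemma vG_nonneg {J : E → ℝ} (hJ : ∀ e, 0 ≤ J e) (Γ : AddSubgroup (E → ℤ)) (c : E → ℝ) :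
    0 ≤ vG J Γ c :=
  div_nonneg (tsum_nonneg fun n => mul_nonneg (gw'_nonneg hJ Γ 0 n) (sq_nonneg _))
    (SG_pos hJ Γ 0).le

/-- lower bound of the ratio -/
theorem rat_ge {J : E → ℝ} (hJ : ∀ e, 0 ≤ J e) (Γ : AddSubgroup (E → ℤ)) (c : E → ℝ) :
    1 + vG J Γ c / 2 ≤ rat J Γ c := by
  have h0 := SG_pos hJ Γ 0
  have hs0 := gw'_summable hJ Γ (0 : E → ℝ)
  unfold rat vG
  rw [le_div_iff₀ h0, SG_cosh hJ Γ c]
  have h1 : (1 + (∑' n, gw' J Γ 0 n * ip c n ^ 2) / SG J Γ 0 0 / 2) * SG J Γ 0 0 =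
      SG J Γ 0 0 + (∑' n, gw' J Γ 0 n * ip c n ^ 2) * (1 / 2) := by
    field_simp
  rw [h1]
  have h2 := hs0.tsum_add ((summ_sq hJ Γ c).mul_right (1 / 2))
  rw [tsum_mul_right] at h2
  have h3 : SG J Γ 0 0 = ∑' n, gw' J Γ 0 n := SG_eq J Γ 0
  rw [h3, ← h2]
  refine (hs0.add ((summ_sq hJ Γ c).mul_right (1 / 2))).tsum_le_tsum (fun n => ?_)
    (summ_cosh J hJ Γ c)
  have h4 := one_add_le_cosh (ip c n)
  have h5 := gw'_nonneg hJ Γ (0 : E → ℝ) n
  nlinarith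

/-- upper bound of the ratio -/
theorem rat_quart {J : E → ℝ} (hJ : ∀ e, 0 ≤ J e) (Γ : AddSubgroup (E → ℤ)) (c : E → ℝ) {s : ℝ}
    (hs : 1 ≤ s) : rat J Γ c ≤ 1 + vG J Γ c / 2 + (s⁻¹) ^ 4 * rat J Γ (s • c) := by
  have h0 := SG_pos hJ Γ 0
  have hs0 := gw'_summable hJ Γ (0 : E → ℝ)
  unfold rat vG
  rw [div_le_iff₀ h0, SG_cosh hJ Γ c, SG_cosh hJ Γ (s • c)]
  have h1 : (1 + (∑' n, gw' J Γ 0 n * ip c n ^ 2) / SG J Γ 0 0 / 2 +
      s⁻¹ ^ 4 * ((∑' n, gw' J Γ 0 n * Real.cosh (ip (s • c) n)) / SG J Γ 0 0)) * SG J Γ 0 0 =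
      SG J Γ 0 0 + (∑' n, gw' J Γ 0 n * ip c n ^ 2) * (1 / 2) +
      (∑' n, gw' J Γ 0 n * Real.cosh (ip (s • c) n)) * s⁻¹ ^ 4 := by
    field_simp
  have h3 : SG J Γ 0 0 = ∑' n, gw' J Γ 0 n := SG_eq J Γ 0
  have s1 := hs0.add ((summ_sq hJ Γ c).mul_right (1 / 2))
  have s2 := (summ_cosh J hJ Γ (s • c)).mul_right (s⁻¹ ^ 4)
  rw [h1]
  have h2 := hs0.tsum_add ((summ_sq hJ Γ c).mul_right (1 / 2))
  rw [tsum_mul_right] at h2
  have h4 := s1.tsum_add s2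
  rw [tsum_mul_right] at h4
  rw [h3, ← h2, ← h4]
  refine (summ_cosh J hJ Γ c).tsum_le_tsum (fun n => ?_) (s1.add s2)
  have h5 := cosh_quart hs (ip c n)
  have h6 := gw'_nonneg hJ Γ (0 : E → ℝ) n
  rw [ip_smul_left]
  nlinarith

/-- the free currents -/
theorem SG_top {J : E → ℝ} (hJ : ∀ e, 0 ≤ J e) (c : E → ℝ) :
    SG J ⊤ c 0 = ∏ e, Real.exp (J e * Real.cosh (c e)) := by
  have hone : ∀ (b x : ℝ), 0 ≤ b → HasSum (fun n : ℤ => wI b n * Real.exp (x * n))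
      (Real.exp (b * Real.cosh x)) := by
    intro b x hb
    have h := laurent hb (z := Complex.exp x) (Complex.exp_ne_zero _)
    have e1 : ∀ n : ℤ, (wI b n : ℂ) * Complex.exp (x : ℂ) ^ n =
        ((wI b n * Real.exp (x * n) : ℝ) : ℂ) := by
      intro n
      rw [← Complex.exp_int_mul]
      push_cast
      rw [mul_comm (n : ℂ) (x : ℂ)]
    have e2 : Complex.exp (b * ((Complex.exp x + (Complex.exp x)⁻¹) / 2)) =
        ((Real.exp (b * Real.cosh x) : ℝ) : ℂ) := by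
      push_cast
      rw [← Complex.exp_neg, Complex.cosh]
    rw [e2] at h
    simp only [e1] at h
    exact_mod_cast h
  have h := (prod_real (a := fun e n => wI (J e) n * Real.exp (c e * n)) (fun e => by
    refine (hone (J e) (c e) (hJ e)).summable.congr fun n => ?_
    rw [abs_of_nonneg (mul_nonneg (wI_nonneg (hJ e) _) (Real.exp_pos _).le)])).2
  rw [SG_eq]
  have e1 : ∀ n, gw' J ⊤ c n = ∏ e, (wI (J e) (n e) * Real.exp (c e * n e)) := by
    intro n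
    unfold gw' T1.H731.wt
    rw [if_pos (AddSubgroup.mem_top n), Finset.prod_mul_distrib, Real.exp_sum]
  rw [tsum_congr e1, h]
  exact Finset.prod_congr rfl fun e _ => (hone (J e) (c e) (hJ e)).tsum_eq

/-- bare bound of the ratio -/
theorem rat_bare {J : E → ℝ} (hJ : ∀ e, 0 ≤ J e) {Γ : AddSubgroup (E → ℤ)}
    (h2 : ∀ n, n + n ∈ Γ → n ∈ Γ) (c : E → ℝ) :
    rat J Γ c ≤ Real.exp (∑ e, J e * (Real.cosh (c e) - 1)) := by
  have h := SG_mono hJ (le_top : Γ ≤ ⊤) h2 c 0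
  have h0 := SG_pos hJ Γ 0
  have h1 := SG_pos hJ ⊤ 0
  have e1 : SG J ⊤ c 0 = Real.exp (∑ e, J e * (Real.cosh (c e) - 1)) * SG J ⊤ 0 0 := by
    rw [SG_top hJ, SG_top hJ, ← Real.exp_sum, ← Real.exp_sum, ← Real.exp_add,
      ← Finset.sum_add_distrib]
    congr 1
    refine Finset.sum_congr rfl fun e _ => ?_
    simp
    ring
  unfold rat
  rw [div_le_iff₀ h0]
  rw [e1] at h
  have h3 : SG J Γ c 0 * SG J ⊤ 0 0 ≤
      (Real.exp (∑ e, J e * (Real.cosh (c e) - 1)) * SG J Γ 0 0) * SG J ⊤ 0 0 := by linarith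
  exact le_of_mul_le_mul_right h3 h1

lemma cosh_sub_le_sq {x : ℝ} (hx : |x| ≤ 1) : Real.cosh x - 1 ≤ x ^ 2 := by
  have h1 := Real.cosh_le_exp_half_sq x
  have hx2 : x ^ 2 ≤ 1 := by
    rw [← sq_abs]
    exact pow_le_one₀ (abs_nonneg _) hx
  have h9 : |x ^ 2 / 2| ≤ 1 := by
    rw [abs_of_nonneg (by positivity)]
    linarith
  have h10 := (abs_le.1 (Real.abs_exp_sub_one_sub_id_le h9)).2
  nlinarith [sq_nonneg x]

/-- **fourth order bound with the bare energy** -/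
theorem rat_upper {J : E → ℝ} (hJ : ∀ e, 0 ≤ J e) {Γ : AddSubgroup (E → ℤ)}
    (h2 : ∀ n, n + n ∈ Γ → n ∈ Γ) (c : E → ℝ) (hc : ∀ e, |c e| ≤ 1) {B : ℝ}
    (hB : ∑ e, J e * c e ^ 2 ≤ B) (hBc : ∀ e, c e ^ 2 ≤ B) (hB0 : 0 ≤ B) :
    rat J Γ c ≤ Real.exp (vG J Γ c / 2 + 3 * B ^ 2) := by
  have hV := vG_nonneg hJ Γ c
  have bare : ∀ s : ℝ, (∀ e, |s * c e| ≤ 1) → rat J Γ (s • c) ≤ Real.exp (s ^ 2 * B) := by
    intro s hs
    refine (rat_bare hJ h2 (s • c)).trans (Real.exp_le_exp.2 ?_)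
    calc ∑ e, J e * (Real.cosh ((s • c) e) - 1) ≤ ∑ e, J e * (s * c e) ^ 2 := by
          refine Finset.sum_le_sum fun e _ => mul_le_mul_of_nonneg_left ?_ (hJ e)
          exact cosh_sub_le_sq (hs e)
      _ = s ^ 2 * ∑ e, J e * c e ^ 2 := by
          rw [Finset.mul_sum]
          exact Finset.sum_congr rfl fun e _ => by ring
      _ ≤ s ^ 2 * B := mul_le_mul_of_nonneg_left hB (sq_nonneg _)
  rcases le_or_gt 1 B with h1 | h1
  · have h3 := bare 1 (fun e => by rw [one_mul]; exact hc e)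
    rw [one_smul, one_pow, one_mul] at h3
    refine h3.trans (Real.exp_le_exp.2 ?_)
    nlinarith
  · rcases hB0.eq_or_lt with h0 | h0
    · have hc0 : c = 0 := by
        funext e
        have := hBc e
        rw [← h0] at this
        exact pow_eq_zero_iff (two_ne_zero) |>.1 (le_antisymm this (sq_nonneg _))
      subst hc0
      unfold rat
      rw [div_self (SG_pos hJ Γ 0).ne']
      exact Real.one_le_exp (by positivity)
    · -- `s = B ^ (-1/2)`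
      set s : ℝ := (Real.sqrt B)⁻¹ with hs
      have hsq : 0 < Real.sqrt B := Real.sqrt_pos.2 h0
      have hsB : s ^ 2 * B = 1 := by
        rw [hs, inv_pow, Real.sq_sqrt hB0, inv_mul_cancel₀ h0.ne']
      have hs1 : 1 ≤ s := by
        rw [hs]
        refine (one_le_inv₀ hsq).2 ?_
        exact Real.sqrt_le_one.2 h1.le
      have hsc : ∀ e, |s * c e| ≤ 1 := by
        intro e
        refine abs_le_one_iff_mul_self_le_one.2 ?_
        have h3 := hBc e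
        have h4 : s * c e * (s * c e) = s ^ 2 * c e ^ 2 := by ring
        rw [h4, ← hsB]
        exact mul_le_mul_of_nonneg_left h3 (sq_nonneg _)
      have h5 := rat_quart hJ Γ c hs1
      have h6 := bare s hsc
      rw [hsB] at h6
      have h7 : (s⁻¹) ^ 4 = B ^ 2 := by
        rw [hs, inv_inv, show (4 : ℕ) = 2 * 2 by norm_num, pow_mul, Real.sq_sqrt hB0]
      rw [h7] at h5
      have h8 : Real.exp 1 ≤ 3 := by
        have := Real.exp_one_lt_d9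
        linarith
      have h9 : B ^ 2 * rat J Γ (s • c) ≤ 3 * B ^ 2 := by
        have : rat J Γ (s • c) ≤ 3 := h6.trans h8
        nlinarith [sq_nonneg B]
      refine (h5.trans (by linarith : _ ≤ (vG J Γ c / 2 + 3 * B ^ 2) + 1)).trans
        (Real.add_one_le_exp _)

end Vale.Agent.P159.H513
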