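import Vale.Agent.P159.H513.Eta3
import Vale.Agent.P159.H529.Qf3

/-!
The class ratio of a block is the wired correlation of its circulations.
-/

set_option linter.all false

open MeasureTheory Filter Topology Matrix

namespace Vale.Agent.P159.H513

open Vale.Agent.P159 Vale.Agent.P159.H353 Vale.Agent.P159.R2.H254 Vale.Agent.P159.H950
open Vale.Agent.P159.T1.H934 Vale.Agent.P159.T1.H731
open Vale.Agent.P159.H773 (EW EL ext_off ext_on mm)
open Vale.Agent.P159.H529.Qf (EQ cqs EL_two)

section gen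

variable {G : Type*} [AddCommGroup G] [TopologicalSpace G] [IsTopologicalAddGroup G]
  [CompactSpace G] [SecondCountableTopology G] [MeasurableSpace G] [BorelSpace G]
  (μ : Measure G) [μ.IsAddHaarMeasure] [IsProbabilityMeasure μ]
  {κ : Type} [Fintype κ] (J : κ → ℝ) (χ : κ → Chr G)

/-- **duality for a class** -/
theorem SG_cls (hJ : ∀ e, 0 ≤ J e) (m : κ → ℤ) :
    (SG J (GX χ) 0 m : ℂ) =
      ∫ x, pc χ m x * ((Real.exp (∑ e, J e * (χ e).c x) : ℝ) : ℂ) ∂μ := by
  classical
  set tm : (κ → ℤ) → G → ℂ := fun n x => pc χ m x *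
    ∏ e, (((wI (J e) (n e) * Real.exp ((0 : ℝ) * n e) : ℝ) : ℂ) * ((χ e).e x) ^ (-(n e))) with htm
  have hw : ∀ n, wt J 0 n = ∏ e, (wI (J e) (n e) * Real.exp ((0 : ℝ) * n e)) := fun n => by
    unfold T1.H731.wt
    rw [Finset.prod_mul_distrib, ← Real.exp_sum]
    simp
  have htm' : ∀ n x, tm n x = (wt J 0 n : ℂ) * pc χ (m - n) x := by
    intro n x
    rw [htm, hw, sub_eq_add_neg, pc_add]
    simp only
    have h1 : pc χ (-n) x = ∏ e, ((χ e).e x) ^ (-(n e)) := rfl
    rw [Finset.prod_mul_distrib, h1]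
    push_cast
    ring
  have hnorm : ∀ n x, ‖tm n x‖ = wt J 0 n := by
    intro n x
    rw [htm', norm_mul, norm_pc, mul_one, Complex.norm_real, Real.norm_eq_abs,
      abs_of_nonneg (wt_nonneg hJ 0 n)]
  have hpt : ∀ x : G, HasSum (fun n => tm n x)
      (pc χ m x * ((Real.exp (∑ e, J e * (χ e).c x) : ℝ) : ℂ)) := by
    intro x
    have h := prod_tsum_all ℤ κ (fun e n => ((wI (J e) n * Real.exp ((0 : ℝ) * n) : ℝ) : ℂ) *
      ((χ e).e x) ^ (-n)) (fun e => (expC (χ e) (hJ e) 0 x).summable.norm)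
    have h2 : ∏ e, ∑' n : ℤ, (((wI (J e) n * Real.exp ((0 : ℝ) * n) : ℝ) : ℂ) *
      ((χ e).e x) ^ (-n)) = ((Real.exp (∑ e, J e * (χ e).c x) : ℝ) : ℂ) := by
      rw [Real.exp_sum]
      push_cast
      refine Finset.prod_congr rfl fun e _ => ?_
      have h3 := (expC (χ e) (hJ e) 0 x).tsum_eq
      have h5 : (((0 : ℝ) : ℂ) * Complex.I) = 0 := by simp
      rw [h5, Chr.C_zero] at h3
      rw [← h3]
      push_cast
      rfl
    have h4 := (h.1.of_norm).hasSum
    rw [h.2, h2] at h4
    exact h4.mul_left _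
  have hcont : ∀ n, Continuous (tm n) := by
    intro n
    have : tm n = fun x => (wt J 0 n : ℂ) * pc χ (m - n) x := funext fun x => htm' n x
    rw [this]
    exact continuous_const.mul (pc_cont χ _)
  have hint : ∀ n, ∫ x, tm n x ∂μ = ((gx J (GX χ) 0 m n : ℝ) : ℂ) := by
    intro n
    simp only [htm']
    rw [integral_const_mul, pc_integral]
    unfold gx
    have h1 : m - n ∈ GX χ ↔ n - m ∈ GX χ := by rw [← neg_mem_iff, neg_sub]
    simp only [h1]
    split_ifs <;> simp
  have hs := hasSum_integral_of_summable_integral_norm (μ := μ) (F := tm)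
    (fun n => cint (hcont n)) (by
      simp only [hnorm]
      simpa using wt_summable hJ 0)
  simp only [hint] at hs
  have e6 : ∀ x : G, ∑' n, tm n x = pc χ m x * ((Real.exp (∑ e, J e * (χ e).c x) : ℝ) : ℂ) :=
    fun x => (hpt x).tsum_eq
  simp only [e6] at hs
  rw [← hs.tsum_eq, SG_eq_gx, Complex.ofReal_tsum]

end gen

section blk

variable {b : ℝ} {l : ℕ}

lemma intR_inner (l : ℕ) : intR (blk (0, 0) l) = (↑(inner l) : Set (ℤ × ℤ)) := by
  ext v
  rw [Finset.mem_coe, H773.mem_inner_iff]
  unfold intR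
  simp only [Set.mem_setOf_eq, mem_blk, Prod.fst_sub, Prod.snd_sub, zero_add]
  omega

/-- the energy of the wired configurations as a sum over the edges of the block -/
lemma EL_blk (b : ℝ) (l : ℕ) {ω : ℤ × ℤ → T} (h0 : ∀ z, z ∉ inner l → ω z = 0) :
    ∑ e : EB l, b * cosT (ω (uB l e) - ω (vB l e)) = EL b ω + ∑ _e : EB l, b := by
  have hfin : (Function.support ω).Finite := by
    refine (Finset.finite_toSet (inner l)).subset fun v hv => ?_
    by_contra h
    exact hv (h0 v h)
  rw [EL_two b hfin]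
  have key : ∀ (a d : ℤ × ℤ), (∀ u : ℤ × ℤ, u - a ∉ blk (0, 0) l → u ∉ inner l ∧ u + d ∉ inner l) →
      ∑' u : ℤ × ℤ, b * (cosT (ω u - ω (u + d)) - 1) =
        ∑ c ∈ blk (0, 0) l, b * (cosT (ω (c + a) - ω (c + a + d)) - 1) := by
    intro a d h
    rw [tsum_eq_sum (s := (blk (0, 0) l).image fun c => c + a), Finset.sum_image]
    · intro x _ y _ h
      exact add_right_cancel h
    · intro u hu
      have h1 : u - a ∉ blk (0, 0) l := by
        intro h2
        apply hu
        rw [Finset.mem_image]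
        exact ⟨u - a, h2, by abel⟩
      obtain ⟨h2, h3⟩ := h u h1
      rw [h0 u h2, h0 _ h3, sub_zero, cosT_zero, sub_self, mul_zero]
  have k1 := key (0, 1) (1, 0) (fun u h => by
    simp only [mem_blk, H773.mem_inner_iff, Prod.fst_sub, Prod.snd_sub, Prod.fst_add,
      Prod.snd_add, zero_add] at *
    omega)
  have k2 := key (1, 0) (0, 1) (fun u h => by
    simp only [mem_blk, H773.mem_inner_iff, Prod.fst_sub, Prod.snd_sub, Prod.fst_add,
      Prod.snd_add, zero_add] at *
    omega)
  rw [k1, k2, Fintype.sum_prod_type, Fintype.sum_prod_type]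
  simp only [Fintype.sum_bool]
  rw [Finset.sum_add_distrib, Finset.sum_add_distrib]
  have u1 : ∀ c : ↥(blk (0, 0) l), uB l (c, true) = (c : ℤ × ℤ) + (1, 0) := fun c => by
    unfold uB hu
    ext <;> simp
  have v1 : ∀ c : ↥(blk (0, 0) l), vB l (c, true) = (c : ℤ × ℤ) + (1, 0) + (0, 1) := fun c => by
    unfold vB hv hu
    ext <;> simp
  have u2 : ∀ c : ↥(blk (0, 0) l), uB l (c, false) = (c : ℤ × ℤ) + (0, 1) := fun c => by
    unfold uB hu
    ext <;> simp
  have v2 : ∀ c : ↥(blk (0, 0) l), vB l (c, false) = (c : ℤ × ℤ) + (0, 1) + (1, 0) := fun c => by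
    unfold vB hv hu
    ext <;> simp
  simp only [u1, v1, u2, v2]
  rw [Finset.sum_coe_sort (blk (0, 0) l) (fun c => b * cosT (ω (c + (1, 0)) -
      ω (c + (1, 0) + (0, 1)))),
    Finset.sum_coe_sort (blk (0, 0) l) (fun c => b * cosT (ω (c + (0, 1)) -
      ω (c + (0, 1) + (1, 0)))),
    Finset.sum_coe_sort (blk (0, 0) l) (fun _ => b)]
  have e : ∀ g : ℤ × ℤ → ℝ, ∑ c ∈ blk (0, 0) l, b * (g c - 1) =
      ∑ c ∈ blk (0, 0) l, b * g c - ∑ _c ∈ blk (0, 0) l, b := by
    intro g
    rw [← Finset.sum_sub_distrib]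
    exact Finset.sum_congr rfl fun c _ => by ring
  rw [e, e]
  ring

/-- projected configurations -/
lemma proj_ext (l : ℕ) (x : Ginf) :
    proj (intR (blk (0, 0) l)) x = ext (fun v : inner l => x v.1) := by
  funext v
  rw [intR_inner]
  by_cases h : v ∈ inner l
  · have h1 : ext (fun v : inner l => x v.1) v = x v := H773.ext_on (fun v : inner l => x v.1) h
    rw [h1]
    exact proj_of_mem (Finset.mem_coe.2 h) x
  · have h1 : ext (fun v : inner l => x v.1) v = 0 := H773.ext_off (fun v : inner l => x v.1) h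
    rw [h1]
    exact proj_of_notMem (fun h' => h (Finset.mem_coe.1 h')) x

/-- the phase of a class -/
lemma pc_cqs (n : EB l → ℤ) (x : Ginf) : pc (chB l) n x =
    (fourier 1 (cqs (inner l) (T1.H731.dv (uB l) (vB l) n)
      (proj (intR (blk (0, 0) l)) x)) : ℂ) := by
  rw [pc_chB, ang_eq_lin (F := inner l ∪ (Finset.univ.image (uB l) ∪ Finset.univ.image (vB l)))
    (uB l) (vB l) (fun e => Finset.mem_union_right _
      (Finset.mem_union_left _ (Finset.mem_image_of_mem _ (Finset.mem_univ e))))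
    (fun e => Finset.mem_union_right _
      (Finset.mem_union_right _ (Finset.mem_image_of_mem _ (Finset.mem_univ e))))]
  congr 1
  unfold lin cqs
  symm
  refine Finset.sum_subset Finset.subset_union_left fun v _ hv => ?_
  rw [intR_inner, proj_of_notMem (fun h' => hv (Finset.mem_coe.1 h')), smul_zero]

lemma fourier_re (x : T) : (fourier 1 x : ℂ).re = cosT x := by
  rw [fourier_one_cs]
  simp

/-- **the class sum of a block as a wired integral** -/
theorem SG_wired (hb : 0 ≤ b) (n : EB l → ℤ) :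
    SG (fun _ : EB l => b) (GX (chB l)) 0 n =
      Real.exp (∑ _e : EB l, b) * ∫ φ : inner l → T, Real.exp (EL b (ext φ)) *
        cosT (cqs (inner l) (T1.H731.dv (uB l) (vB l) n) (ext φ)) ∂(torusHaar (inner l)) := by
  have h := SG_cls muInf (fun _ : EB l => b) (chB l) (fun _ => hb) n
  set q := T1.H731.dv (uB l) (vB l) n with hq
  have hc : ∀ (e : EB l) (x : Ginf), (chB l e).c x =
      cosT (proj (intR (blk (0, 0) l)) x (uB l e) - proj (intR (blk (0, 0) l)) x (vB l e)) :=
    fun e x => rfl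
  have hE : ∀ x : Ginf, ∑ e : EB l, b * (chB l e).c x =
      EL b (ext (fun v : inner l => x v.1)) + ∑ _e : EB l, b := by
    intro x
    have h1 : ∀ z, z ∉ inner l → ext (fun v : inner l => x v.1) z = 0 := fun z hz =>
      H773.ext_off (fun v : inner l => x v.1) hz
    rw [← EL_blk b l h1]
    refine Finset.sum_congr rfl fun e _ => ?_
    rw [hc, proj_ext]
  simp only [hE, pc_cqs, proj_ext, ← hq] at h
  have h2 := congrArg Complex.re h
  rw [Complex.ofReal_re] at h2
  have hcont : Continuous fun φ : inner l → T => (ext φ : ℤ × ℤ → T) := ext_cont _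
  have hEc : Continuous fun φ : inner l → T => EL b (ext φ) := H773.EL_cont b (inner l)
  have hint : Integrable (fun x : Ginf => ((fourier 1 (cqs (inner l) q
      (ext fun v : inner l => x v.1)) : ℂ)) *
      ((Real.exp (EL b (ext fun v : inner l => x v.1) + ∑ _e : EB l, b) : ℝ) : ℂ)) muInf := by
    refine cint ?_
    have hr : Continuous fun x : Ginf => (fun v : inner l => x v.1) :=
      continuous_pi fun v => continuous_apply v.1
    refine Continuous.mul ?_ ?_
    · exact (fourier 1).continuous.comp ((H529.Qf.cqs_cont _ _).comp (hcont.comp hr))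
    · exact Complex.continuous_ofReal.comp (Real.continuous_exp.comp
        ((hEc.comp hr).add continuous_const))
  have h3 := integral_re hint
  rw [h2]
  have h4 : (∫ x : Ginf, ((fourier 1 (cqs (inner l) q (ext fun v : inner l => x v.1)) : ℂ)) *
      ((Real.exp (EL b (ext fun v : inner l => x v.1) + ∑ _e : EB l, b) : ℝ) : ℂ) ∂muInf).re =
      ∫ x : Ginf, (((fourier 1 (cqs (inner l) q (ext fun v : inner l => x v.1)) : ℂ)) *
      ((Real.exp (EL b (ext fun v : inner l => x v.1) + ∑ _e : EB l, b) : ℝ) : ℂ)).re ∂muInf := by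
    exact h3.symm
  rw [h4]
  have h5 : ∀ x : Ginf, (((fourier 1 (cqs (inner l) q (ext fun v : inner l => x v.1)) : ℂ)) *
      ((Real.exp (EL b (ext fun v : inner l => x v.1) + ∑ _e : EB l, b) : ℝ) : ℂ)).re =
      (fun φ : inner l → T => Real.exp (∑ _e : EB l, b) * (Real.exp (EL b (ext φ)) *
        cosT (cqs (inner l) q (ext φ)))) (relabel (fun v : inner l => v.1) x) := by
    intro x
    rw [Complex.re_mul_ofReal, fourier_re, Real.exp_add]
    show _ = Real.exp (∑ _e : EB l, b) * (Real.exp (EL b (ext fun v : inner l => x v.1)) *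
      cosT (cqs (inner l) q (ext fun v : inner l => x v.1)))
    ring
  simp_rw [h5]
  rw [integral_relabel (fun v : inner l => v.1) Subtype.val_injective muInf
    (torusHaar (inner l)) (f := fun φ : inner l → T => Real.exp (∑ _e : EB l, b) *
      (Real.exp (EL b (ext φ)) * cosT (cqs (inner l) q (ext φ))))]
  · rw [integral_const_mul]
  · refine continuous_const.mul ((Real.continuous_exp.comp hEc).mul ?_)
    exact cont_cos.comp ((H529.Qf.cqs_cont _ _).comp hcont)

/-- **the ratio of a class of a block is the wired correlation of its circulations** -/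
theorem rtx_EQ (hb : 0 ≤ b) (n : EB l → ℤ) :
    rtx (fun _ : EB l => b) (GX (chB l)) 0 n =
      EQ b (inner l) (T1.H731.dv (uB l) (vB l) n) := by
  unfold rtx EQ EW
  rw [SG_wired hb, SG_wired hb]
  have h0 : ∀ φ : inner l → T, Real.exp (EL b (ext φ)) *
      cosT (cqs (inner l) (T1.H731.dv (uB l) (vB l) (0 : EB l → ℤ)) (ext φ)) =
      Real.exp (EL b (ext φ)) := by
    intro φ
    have : cqs (inner l) (T1.H731.dv (uB l) (vB l) (0 : EB l → ℤ)) (ext φ) = 0 := by
      unfold cqs T1.H731.dv
      simp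
    rw [this, cosT_zero, mul_one]
  simp_rw [h0]
  rw [mul_div_mul_left _ _ (Real.exp_pos _).ne']

end blk

end Vale.Agent.P159.H513
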