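import Vale.Agent.P159.H513.Rel1

/-!
Tilt of a class: log-convexity in the amplitude of the real tilt.
-/

set_option linter.all false

open MeasureTheory Filter Topology Matrix

namespace Vale.Agent.P159.H513

open Vale.Agent.P159 Vale.Agent.P159.H353 Vale.Agent.P159.R2.H254 Vale.Agent.P159.H950
open Vale.Agent.P159.T1.H934 Vale.Agent.P159.T1.H731

section tilt

variable {E : Type} [Fintype E] {J : E → ℝ}

/-- a class with any real tilt costs at most the bare energy of the tilt -/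
theorem rtx_bare (hJ : ∀ e, 0 ≤ J e) {Γ : AddSubgroup (E → ℤ)} (h2 : ∀ n, n + n ∈ Γ → n ∈ Γ)
    (c : E → ℝ) (m : E → ℤ) :
    rtx J Γ c m ≤ Real.exp (∑ e, J e * (Real.cosh (c e) - 1)) := by
  have h := SG_mono hJ (le_top : Γ ≤ ⊤) h2 c m
  have h0 := SG_pos hJ Γ 0
  have h1 := SG_pos hJ ⊤ 0
  have hm : SG J ⊤ c m = SG J ⊤ c 0 := SG_mem J ⊤ c (AddSubgroup.mem_top m)
  have e1 : SG J ⊤ c 0 = Real.exp (∑ e, J e * (Real.cosh (c e) - 1)) * SG J ⊤ 0 0 := by
    rw [SG_top hJ, SG_top hJ, ← Real.exp_sum, ← Real.exp_sum, ← Real.exp_add,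
      ← Finset.sum_add_distrib]
    congr 1
    refine Finset.sum_congr rfl fun e _ => ?_
    simp
    ring
  unfold rtx
  rw [div_le_iff₀ h0]
  rw [hm, e1] at h
  have h3 : SG J Γ c m * SG J ⊤ 0 0 ≤
      (Real.exp (∑ e, J e * (Real.cosh (c e) - 1)) * SG J Γ 0 0) * SG J ⊤ 0 0 := by linarith
  exact le_of_mul_le_mul_right h3 h1

/-- Young -/
lemma exp_young {s : ℝ} (hs : 1 ≤ s) (u : ℝ) : Real.exp u ≤ 1 - 1 / s + Real.exp (s * u) / s := by
  have hs0 : 0 < s := by linarith
  have h := one_add_mul_self_le_rpow_one_add (s := Real.exp u - 1) (p := s)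
    (by linarith [Real.exp_pos u]) hs
  have e1 : 1 + (Real.exp u - 1) = Real.exp u := by ring
  rw [e1, ← Real.exp_mul, mul_comm u s] at h
  have h2 : s * Real.exp u ≤ s - 1 + Real.exp (s * u) := by linarith
  have h3 : Real.exp u ≤ (s - 1 + Real.exp (s * u)) / s := by
    rw [le_div_iff₀ hs0]
    linarith
  refine h3.trans (le_of_eq ?_)
  field_simp

lemma wt_tilt (c : E → ℝ) (n : E → ℤ) :
    wt J c n = wt J 0 n * Real.exp (∑ e, c e * (n e : ℝ)) := by
  unfold T1.H731.wt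
  simp

/-- **log-convexity in the amplitude** -/
theorem SG_conv (hJ : ∀ e, 0 ≤ J e) (Γ : AddSubgroup (E → ℤ)) (c : E → ℝ) (m : E → ℤ) {s : ℝ}
    (hs : 1 ≤ s) :
    SG J Γ c m ≤ SG J Γ 0 m ^ (1 - 1 / s) * SG J Γ (s • c) m ^ (1 / s) := by
  classical
  have hs0 : 0 < s := by linarith
  have hA := SG_nonneg hJ Γ 0 m
  have hB := SG_nonneg hJ Γ (s • c) m
  have hc : ∀ n, gx J Γ c m n = gx J Γ 0 m n * Real.exp (∑ e, c e * (n e : ℝ)) := by
    intro n
    unfold gx
    split_ifs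
    · exact wt_tilt c n
    · rw [zero_mul]
  have hcs : ∀ n, gx J Γ (s • c) m n =
      gx J Γ 0 m n * Real.exp (s * ∑ e, c e * (n e : ℝ)) := by
    intro n
    unfold gx
    split_ifs
    · rw [wt_tilt, Finset.mul_sum]
      congr 2
      exact Finset.sum_congr rfl fun e _ => by rw [Pi.smul_apply, smul_eq_mul]; ring
    · rw [zero_mul]
  have s0 := gx_summable hJ Γ 0 m
  have s1 := gx_summable hJ Γ c m
  have s2 := gx_summable hJ Γ (s • c) m
  rcases hA.eq_or_lt with h0 | h0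
  · -- all terms vanish
    have h1 : ∀ n, gx J Γ 0 m n = 0 := by
      rw [SG_eq_gx] at h0
      have := (hasSum_zero_iff_of_nonneg (gx_nonneg hJ Γ 0 m)).1 (by
        have := s0.hasSum
        rwa [← h0] at this)
      exact fun n => congrFun this n
    have h2 : SG J Γ c m = 0 := by
      rw [SG_eq_gx]
      simp [hc, h1]
    rw [h2]
    positivity
  · have hBp : 0 < SG J Γ (s • c) m := by
      refine lt_of_le_of_ne hB fun h => ?_
      have h1 : ∀ n, gx J Γ (s • c) m n = 0 := by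
        rw [SG_eq_gx] at h
        have := (hasSum_zero_iff_of_nonneg (gx_nonneg hJ Γ (s • c) m)).1 (by
          have := s2.hasSum
          rwa [← h] at this)
        exact fun n => congrFun this n
      have h2 : ∀ n, gx J Γ 0 m n = 0 := by
        intro n
        have h3 := h1 n
        rw [hcs n] at h3
        exact (mul_eq_zero.1 h3).resolve_right (Real.exp_pos _).ne'
      have : SG J Γ 0 m = 0 := by
        rw [SG_eq_gx]
        simp [h2]
      linarith
    set A := SG J Γ 0 m with hAd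
    set B := SG J Γ (s • c) m with hBd
    set α : ℝ := (Real.log B - Real.log A) / s with hα
    have key : ∀ n, gx J Γ c m n ≤ Real.exp α * (1 - 1 / s) * gx J Γ 0 m n +
        Real.exp (α - s * α) / s * gx J Γ (s • c) m n := by
      intro n
      rw [hc n, hcs n]
      have h1 := exp_young hs ((∑ e, c e * (n e : ℝ)) - α)
      have h2 := mul_le_mul_of_nonneg_left h1 (Real.exp_pos α).le
      rw [← Real.exp_add] at h2
      have e1 : α + ((∑ e, c e * (n e : ℝ)) - α) = ∑ e, c e * (n e : ℝ) := by ring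
      rw [e1] at h2
      have h3 := mul_le_mul_of_nonneg_left h2 (gx_nonneg hJ Γ 0 m n)
      refine h3.trans (le_of_eq ?_)
      have e2 : Real.exp (s * ((∑ e, c e * (n e : ℝ)) - α)) * Real.exp α =
          Real.exp (α - s * α) * Real.exp (s * ∑ e, c e * (n e : ℝ)) := by
        rw [← Real.exp_add, ← Real.exp_add]
        congr 1
        ring
      have e3 : Real.exp α * (1 - 1 / s + Real.exp (s * ((∑ e, c e * (n e : ℝ)) - α)) / s) =
          Real.exp α * (1 - 1 / s) +
            (Real.exp (s * ((∑ e, c e * (n e : ℝ)) - α)) * Real.exp α) / s := by ring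
      rw [e3, e2]
      ring
    have hsum : SG J Γ c m ≤ Real.exp α * (1 - 1 / s) * A + Real.exp (α - s * α) / s * B := by
      rw [hAd, hBd, SG_eq_gx, SG_eq_gx, SG_eq_gx, ← tsum_mul_left, ← tsum_mul_left,
        ← (s0.mul_left _).tsum_add (s2.mul_left _)]
      exact s1.tsum_le_tsum key ((s0.mul_left _).add (s2.mul_left _))
    have e1 : Real.exp (α - s * α) * B = Real.exp α * A := by
      have h3 : s * α = Real.log B - Real.log A := by
        rw [hα]
        field_simp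
      rw [Real.exp_sub, h3, Real.exp_sub, Real.exp_log hBp, Real.exp_log h0]
      field_simp
    have e2 : Real.exp α * (1 - 1 / s) * A + Real.exp (α - s * α) / s * B = Real.exp α * A := by
      have : Real.exp (α - s * α) / s * B = Real.exp α * A / s := by
        rw [← e1]; ring
      rw [this]
      field_simp
      ring
    rw [e2] at hsum
    refine hsum.trans (le_of_eq ?_)
    rw [Real.rpow_def_of_pos h0, Real.rpow_def_of_pos hBp]
    have h4 : A = Real.exp (Real.log A) := (Real.exp_log h0).symm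
    conv_lhs => rw [h4]
    rw [← Real.exp_add, ← Real.exp_add]
    congr 1
    rw [hα]
    field_simp
    ring

/-- **tilt of a class** -/
theorem rtx_tilt (hJ : ∀ e, 0 ≤ J e) {Γ : AddSubgroup (E → ℤ)} (h2 : ∀ n, n + n ∈ Γ → n ∈ Γ)
    (c : E → ℝ) (m : E → ℤ) {s : ℝ} (hs : 1 ≤ s) :
    rtx J Γ c m ≤ rtx J Γ 0 m ^ (1 - 1 / s) *
      Real.exp ((∑ e, J e * (Real.cosh (s * c e) - 1)) / s) := by
  have hs0 : 0 < s := by linarith
  have hZ := SG_pos hJ Γ 0
  have h1 := SG_conv hJ Γ c m hs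
  have h3 := rtx_bare hJ h2 (s • c) m
  have hr := rtx_nonneg hJ Γ (s • c) m
  have hA := SG_nonneg hJ Γ 0 m
  have hB := SG_nonneg hJ Γ (s • c) m
  have e1 : SG J Γ 0 m ^ (1 - 1 / s) * SG J Γ (s • c) m ^ (1 / s) / SG J Γ 0 0 =
      rtx J Γ 0 m ^ (1 - 1 / s) * rtx J Γ (s • c) m ^ (1 / s) := by
    unfold rtx
    rw [Real.div_rpow hA hZ.le, Real.div_rpow hB hZ.le]
    have : SG J Γ 0 0 ^ (1 - 1 / s) * SG J Γ 0 0 ^ (1 / s) = SG J Γ 0 0 := by
      rw [← Real.rpow_add hZ]
      have : 1 - 1 / s + 1 / s = 1 := by ring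
      rw [this, Real.rpow_one]
    rw [div_mul_div_comm, this]
  have h4 : rtx J Γ c m ≤ rtx J Γ 0 m ^ (1 - 1 / s) * rtx J Γ (s • c) m ^ (1 / s) := by
    rw [← e1]
    unfold rtx
    exact div_le_div_of_nonneg_right h1 hZ.le
  refine h4.trans (mul_le_mul_of_nonneg_left ?_ (Real.rpow_nonneg (rtx_nonneg hJ Γ 0 m) _))
  have h5 := Real.rpow_le_rpow hr h3 (show 0 ≤ 1 / s by positivity)
  refine h5.trans (le_of_eq ?_)
  rw [← Real.exp_mul]
  congr 1
  have e2 : ∀ e, (s • c) e = s * c e := fun e => rfl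
  simp only [e2]
  ring

/-- **tilt of a class, small tilts** -/
theorem rtx_tilt' (hJ : ∀ e, 0 ≤ J e) {Γ : AddSubgroup (E → ℤ)} (h2 : ∀ n, n + n ∈ Γ → n ∈ Γ)
    (c : E → ℝ) (m : E → ℤ) {s b : ℝ} (hs : 1 ≤ s) (hb : ∀ e, J e ≤ b)
    (hc : ∀ e, |s * c e| ≤ 1) :
    rtx J Γ c m ≤ rtx J Γ 0 m ^ (1 - 1 / s) * Real.exp (b * s * ∑ e, c e ^ 2) := by
  refine (rtx_tilt hJ h2 c m hs).trans (mul_le_mul_of_nonneg_left (Real.exp_le_exp.2 ?_)
    (Real.rpow_nonneg (rtx_nonneg hJ Γ 0 m) _))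
  have hs0 : 0 < s := by linarith
  rw [div_le_iff₀ hs0, Finset.mul_sum, Finset.sum_mul]
  refine Finset.sum_le_sum fun e _ => ?_
  have h1 := cosh_sub_le_sq (hc e)
  have h2 : J e * (Real.cosh (s * c e) - 1) ≤ b * (s * c e) ^ 2 := by
    have h3 : 0 ≤ Real.cosh (s * c e) - 1 := by linarith [Real.one_le_cosh (s * c e)]
    have hb0 : 0 ≤ b := (hJ e).trans (hb e)
    calc _ ≤ b * (Real.cosh (s * c e) - 1) := mul_le_mul_of_nonneg_right (hb e) h3
      _ ≤ _ := mul_le_mul_of_nonneg_left h1 hb0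
  refine h2.trans (le_of_eq (by ring))

end tilt

end Vale.Agent.P159.H513
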