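import Vale.Agent.P159.H513.Rel2
import Vale.Agent.P159.H513.Eta10

/-!
The graded tiling with one large tile around every core.
-/

set_option linter.all false

open MeasureTheory Filter Topology Matrix

namespace Vale.Agent.P159.H513

open Vale.Agent.P159 Vale.Agent.P159.H353 Vale.Agent.P159.R2.H254 Vale.Agent.P159.H950
open Vale.Agent.P159.T1.H934 Vale.Agent.P159.T1.H731
open Vale.Agent.P159.TM.SpecC (Tor wT)
open Vale.Agent.P159.H817 (sz)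

section one

variable {N : ℕ} [NeZero N] {k : ℕ}

/-- corner coordinate of the tile of a core -/
def oC (k : ℕ) (p : ZMod N) : ℤ := ((p.val / 2 ^ k : ℕ) : ℤ) * 2 ^ k - 2 ^ k

lemma oC_p (k : ℕ) (p : ZMod N) : oC k p + (2 ^ k + ((p.val % 2 ^ k : ℕ) : ℤ)) = p.val := by
  unfold oC
  have h : (((p.val / 2 ^ k : ℕ) : ℤ)) * 2 ^ k + ((p.val % 2 ^ k : ℕ) : ℤ) = (p.val : ℤ) := by
    exact_mod_cast (by rw [Nat.mul_comm]; exact Nat.div_add_mod p.val _)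
  linarith

lemma cast_val (x : ZMod N) : (((x.val : ℤ)) : ZMod N) = x := by
  rw [Int.cast_natCast, ZMod.natCast_zmod_val]

lemma arc_mod {q : ℕ} (hN : N = q * 2 ^ k) {p x : ZMod N} {c : ℤ}
    (h : ((oC k p + c : ℤ) : ZMod N) = x) : c % 2 ^ k = (x.val : ℤ) % 2 ^ k := by
  have h1 : (((x.val : ℤ) - (oC k p + c) : ℤ) : ZMod N) = 0 := by
    rw [Int.cast_sub, h, cast_val, sub_self]
  rw [ZMod.intCast_zmod_eq_zero_iff_dvd] at h1
  have h2 : ((2 : ℤ) ^ k) ∣ (N : ℤ) := by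
    refine ⟨q, ?_⟩
    rw [hN]
    push_cast
    ring
  have h3 := h2.trans h1
  have h4 : ((2 : ℤ) ^ k) ∣ oC k p := by
    unfold oC
    exact ⟨((p.val / 2 ^ k : ℕ) : ℤ) - 1, by ring⟩
  have h5 : ((2 : ℤ) ^ k) ∣ (x.val : ℤ) - c := by
    have := dvd_add h3 h4
    have e : (x.val : ℤ) - (oC k p + c) + oC k p = x.val - c := by ring
    rwa [e] at this
  exact (Int.emod_emod_of_dvd _ dvd_rfl).symm.trans (by
    have := Int.emod_emod_of_dvd c (dvd_refl ((2 : ℤ) ^ k))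
    rw [this]
    exact (Int.emod_emod_of_dvd _ dvd_rfl).symm.trans (by
      rw [Int.emod_emod_of_dvd _ dvd_rfl]
      exact Int.ModEq.symm (Int.modEq_iff_dvd.2 (by
        have := h5.neg_right
        rwa [neg_sub] at this))))

lemma arc_inv {q : ℕ} (hN : N = q * 2 ^ k) {p x y : ZMod N} (hxy : x.val / 2 ^ k = y.val / 2 ^ k)
    {j : ℤ} {c : ℤ} (h0 : 0 ≤ c) (h1 : c < j * 2 ^ k) (h : ((oC k p + c : ℤ) : ZMod N) = x) :
    ∃ c', 0 ≤ c' ∧ c' < j * 2 ^ k ∧ ((oC k p + c' : ℤ) : ZMod N) = y := by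
  have hm := arc_mod hN h
  have hp : (0 : ℤ) < 2 ^ k := by positivity
  have hd := Int.mul_ediv_add_emod c (2 ^ k)
  have hx : (x.val : ℤ) = ((x.val / 2 ^ k : ℕ) : ℤ) * 2 ^ k + (x.val : ℤ) % 2 ^ k := by
    have := Int.mul_ediv_add_emod (x.val : ℤ) (2 ^ k)
    push_cast
    linarith
  have hy : (y.val : ℤ) = ((x.val / 2 ^ k : ℕ) : ℤ) * 2 ^ k + (y.val : ℤ) % 2 ^ k := by
    have := Int.mul_ediv_add_emod (y.val : ℤ) (2 ^ k)
    rw [hxy]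
    push_cast
    linarith
  have y0 := Int.emod_nonneg (y.val : ℤ) hp.ne'
  have y1 := Int.emod_lt_of_pos (y.val : ℤ) hp
  have hc0 : 0 ≤ c / 2 ^ k := Int.ediv_nonneg h0 hp.le
  have hc1 : c / 2 ^ k < j := Int.ediv_lt_of_lt_mul hp h1
  refine ⟨2 ^ k * (c / 2 ^ k) + (y.val : ℤ) % 2 ^ k, by positivity, ?_, ?_⟩
  · have h2 : c / 2 ^ k + 1 ≤ j := hc1
    have h3 := mul_le_mul_of_nonneg_right h2 hp.le
    linarith
  · have e : (oC k p + (2 ^ k * (c / 2 ^ k) + (y.val : ℤ) % 2 ^ k) : ℤ) =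
        (oC k p + c) + ((y.val : ℤ) - x.val) := by
      linarith
    rw [e, Int.cast_add, h, Int.cast_sub, cast_val, cast_val]
    ring

lemma arc_near {p x : ZMod N} (h : (x - p).valMinAbs.natAbs ≤ 2 ^ k) :
    ∃ c, 0 ≤ c ∧ c < 3 * 2 ^ k ∧ ((oC k p + c : ℤ) : ZMod N) = x := by
  have hp : (0 : ℤ) < 2 ^ k := by positivity
  have h1 : |(x - p).valMinAbs| ≤ 2 ^ k := by
    rw [Int.abs_eq_natAbs]
    exact_mod_cast h
  obtain ⟨h2, h3⟩ := abs_le.1 h1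
  have m0 : (0 : ℤ) ≤ ((p.val % 2 ^ k : ℕ) : ℤ) := by positivity
  have m1 : ((p.val % 2 ^ k : ℕ) : ℤ) < 2 ^ k := by
    exact_mod_cast Nat.mod_lt p.val (by positivity)
  refine ⟨2 ^ k + ((p.val % 2 ^ k : ℕ) : ℤ) + (x - p).valMinAbs, by linarith, by linarith, ?_⟩
  have e : (oC k p + (2 ^ k + ((p.val % 2 ^ k : ℕ) : ℤ) + (x - p).valMinAbs) : ℤ) =
      p.val + (x - p).valMinAbs := by
    rw [← oC_p k p]
    ring
  rw [e, Int.cast_add, cast_val, ZMod.coe_valMinAbs]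
  ring

lemma arc_far {p x : ZMod N} {c : ℤ} (h0 : 0 ≤ c) (h1 : c < 3 * 2 ^ k)
    (h : ((oC k p + c : ℤ) : ZMod N) = x) : (x - p).valMinAbs.natAbs ≤ 2 ^ (k + 1) := by
  have hp : (0 : ℤ) < 2 ^ k := by positivity
  have m0 : (0 : ℤ) ≤ ((p.val % 2 ^ k : ℕ) : ℤ) := by positivity
  have m1 : ((p.val % 2 ^ k : ℕ) : ℤ) < 2 ^ k := by
    exact_mod_cast Nat.mod_lt p.val (by positivity)
  have e1 : (((x - p).valMinAbs : ℤ) : ZMod N) =
      ((c - (2 ^ k + ((p.val % 2 ^ k : ℕ) : ℤ)) : ℤ) : ZMod N) := by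
    rw [ZMod.coe_valMinAbs, ← h]
    have h2 : ((oC k p + (2 ^ k + ((p.val % 2 ^ k : ℕ) : ℤ)) : ℤ) : ZMod N) = p := by
      rw [oC_p, cast_val]
    have h3 : ((oC k p + c : ℤ) : ZMod N) - p = ((oC k p + c : ℤ) : ZMod N) -
        ((oC k p + (2 ^ k + ((p.val % 2 ^ k : ℕ) : ℤ)) : ℤ) : ZMod N) := by rw [h2]
    rw [h3, ← Int.cast_sub]
    congr 1
    ring
  have h3 := ZMod.natAbs_min_of_le_div_two N _ _ e1 (ZMod.natAbs_valMinAbs_le _)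
  have h4 : |c - (2 ^ k + ((p.val % 2 ^ k : ℕ) : ℤ))| ≤ 2 ^ (k + 1) := by
    rw [pow_succ, abs_le]
    constructor <;> linarith
  rw [Int.abs_eq_natAbs] at h4
  have h5 : (c - (2 ^ k + ((p.val % 2 ^ k : ℕ) : ℤ))).natAbs ≤ 2 ^ (k + 1) := by exact_mod_cast h4
  omega

lemma arc_inj {L : ℕ} (hL : L ≤ N) {o c c' : ℤ} (h0 : 0 ≤ c) (h1 : c < L) (h0' : 0 ≤ c')
    (h1' : c' < L) (h : ((o + c : ℤ) : ZMod N) = ((o + c' : ℤ) : ZMod N)) : c = c' := by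
  rw [ZMod.intCast_eq_intCast_iff] at h
  have h2 := h.symm.dvd
  have e : o + c - (o + c') = c - c' := by ring
  rw [e] at h2
  have hLN : (L : ℤ) ≤ N := by exact_mod_cast hL
  have h3 := Int.eq_zero_of_abs_lt_dvd h2 (by
    rw [abs_lt]
    constructor <;> linarith)
  linarith

end one

section box

variable {N : ℕ} [NeZero N] {k : ℕ}

/-- corner of the tile of a core -/
def oC2 (k : ℕ) (p : Tor N) : ℤ × ℤ := (oC k p.1, oC k p.2)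

/-- the sites of the tile of a core -/
def BxS (k : ℕ) (p x : Tor N) : Prop := ∃ c ∈ blk (0, 0) (3 * 2 ^ k), sT N (oC2 k p) c = x

lemma mem_b3 {c : ℤ × ℤ} : c ∈ blk (0, 0) (3 * 2 ^ k) ↔
    (0 ≤ c.1 ∧ c.1 < 3 * 2 ^ k) ∧ (0 ≤ c.2 ∧ c.2 < 3 * 2 ^ k) := by
  rw [mem_blk]
  simp only [zero_add]
  push_cast
  tauto

lemma BxS.cong {q : ℕ} (hN : N = q * 2 ^ k) {p x y : Tor N} (h : sq2 k x y) (hx : BxS k p x) :
    BxS k p y := by
  obtain ⟨c, hc, rfl⟩ := hx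
  rw [mem_b3] at hc
  obtain ⟨⟨h1, h2⟩, h3, h4⟩ := hc
  unfold sT oC2 at h
  obtain ⟨a, a0, a1, a2⟩ := arc_inv hN h.1 h1 h2 rfl
  obtain ⟨b, b0, b1, b2⟩ := arc_inv hN h.2 h3 h4 rfl
  exact ⟨(a, b), mem_b3.2 ⟨⟨a0, a1⟩, b0, b1⟩, Prod.ext a2 b2⟩

lemma BxS.near {p x : Tor N} (h : sz (x - p) ≤ 2 ^ k) : BxS k p x := by
  unfold H817.sz at h
  obtain ⟨a, a0, a1, a2⟩ := arc_near (k := k) (p := p.1) (x := x.1) (by
    simp only [Prod.fst_sub] at h; omega)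
  obtain ⟨b, b0, b1, b2⟩ := arc_near (k := k) (p := p.2) (x := x.2) (by
    simp only [Prod.snd_sub] at h; omega)
  exact ⟨(a, b), mem_b3.2 ⟨⟨a0, a1⟩, b0, b1⟩, Prod.ext a2 b2⟩

lemma BxS.far {p x : Tor N} (h : BxS k p x) : sz (x - p) ≤ 2 ^ (k + 1) := by
  obtain ⟨c, hc, rfl⟩ := h
  rw [mem_b3] at hc
  obtain ⟨⟨h1, h2⟩, h3, h4⟩ := hc
  have a := arc_far (p := p.1) (k := k) h1 h2 rfl
  have b := arc_far (p := p.2) (k := k) h3 h4 rfl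
  unfold H817.sz
  exact max_le a b

lemma BxS.inj (hL : 3 * 2 ^ k ≤ N) {p : Tor N} {c c' : ℤ × ℤ} (hc : c ∈ blk (0, 0) (3 * 2 ^ k))
    (hc' : c' ∈ blk (0, 0) (3 * 2 ^ k)) (h : sT N (oC2 k p) c = sT N (oC2 k p) c') : c = c' := by
  rw [mem_b3] at hc hc'
  have h1 := congrArg Prod.fst h
  have h2 := congrArg Prod.snd h
  exact Prod.ext (arc_inj (L := 3 * 2 ^ k) hL hc.1.1 (by push_cast; exact hc.1.2) hc'.1.1
      (by push_cast; exact hc'.1.2) h1)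
    (arc_inj (L := 3 * 2 ^ k) hL hc.2.1 (by push_cast; exact hc.2.2) hc'.2.1
      (by push_cast; exact hc'.2.2) h2)

lemma BxS.disj {p p' x : Tor N} (h : BxS k p x) (h' : BxS k p' x) : sz (p - p') ≤ 2 ^ (k + 2) := by
  have h1 := h.far
  have h2 := h'.far
  rw [H817.sz_sub_comm] at h1
  have h3 := H817.sz_add_le (p - x) (x - p')
  rw [sub_add_sub_cancel] at h3
  have : 2 ^ (k + 2) = 2 ^ (k + 1) + 2 ^ (k + 1) := by ring
  omega

/-- the core in the coordinates of its tile -/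
def cC (k : ℕ) (p : Tor N) : ℤ × ℤ :=
  (2 ^ k + ((p.1.val % 2 ^ k : ℕ) : ℤ), 2 ^ k + ((p.2.val % 2 ^ k : ℕ) : ℤ))

lemma cC_bd (k : ℕ) (p : Tor N) : (2 ^ k ≤ (cC k p).1 ∧ (cC k p).1 < 2 * 2 ^ k) ∧
    (2 ^ k ≤ (cC k p).2 ∧ (cC k p).2 < 2 * 2 ^ k) := by
  unfold cC
  have m0 : ∀ a : ℕ, (0 : ℤ) ≤ ((a % 2 ^ k : ℕ) : ℤ) := fun a => by positivity
  have m1 : ∀ a : ℕ, ((a % 2 ^ k : ℕ) : ℤ) < 2 ^ k := fun a => by
    exact_mod_cast Nat.mod_lt a (by positivity)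
  have a0 := m0 p.1.val
  have a1 := m1 p.1.val
  have b0 := m0 p.2.val
  have b1 := m1 p.2.val
  refine ⟨⟨by linarith, by linarith⟩, by linarith, by linarith⟩

lemma cC_mem (k : ℕ) (p : Tor N) : cC k p ∈ blk (0, 0) (3 * 2 ^ k) := by
  have h := cC_bd k p
  have hp : (0 : ℤ) < 2 ^ k := by positivity
  rw [mem_b3]
  refine ⟨⟨by linarith [h.1.1], by linarith [h.1.2]⟩, by linarith [h.2.1], by linarith [h.2.2]⟩

lemma sT_cC (k : ℕ) (p : Tor N) : sT N (oC2 k p) (cC k p) = p := by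
  unfold sT oC2 cC
  refine Prod.ext ?_ ?_
  · show ((oC k p.1 + (2 ^ k + ((p.1.val % 2 ^ k : ℕ) : ℤ)) : ℤ) : ZMod N) = p.1
    rw [oC_p, cast_val]
  · show ((oC k p.2 + (2 ^ k + ((p.2.val % 2 ^ k : ℕ) : ℤ)) : ℤ) : ZMod N) = p.2
    rw [oC_p, cast_val]

end box

end Vale.Agent.P159.H513
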