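import Vale.Agent.P159.H513.Rel3
import Vale.Agent.P159.H513.Eta8

/-!
The merged tiling: graded tiles outside the core tiles, one tile per core.
-/

set_option linter.all false

open MeasureTheory Filter Topology Matrix

namespace Vale.Agent.P159.H513

open Vale.Agent.P159 Vale.Agent.P159.H353 Vale.Agent.P159.R2.H254 Vale.Agent.P159.H950
open Vale.Agent.P159.T1.H934 Vale.Agent.P159.T1.H731
open Vale.Agent.P159.TM.SpecC (Tor wT)
open Vale.Agent.P159.H817 (sz)

section til

variable {N : ℕ} [NeZero N] {R : ℕ → ℕ} {d : Tor N → ℕ} {m n k : ℕ} {κ : Type} [Fintype κ]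
  {p : κ → Tor N}

/-- in a core tile -/
def InB (k : ℕ) (p : κ → Tor N) (x : Tor N) : Prop := ∃ j, BxS k (p j) x

/-- geometry of the cores -/
structure MrgH (N m n k : ℕ) [NeZero N] (R : ℕ → ℕ) (d : Tor N → ℕ) (p : κ → Tor N) : Prop where
  hN : N = n * 2 ^ m
  hR0 : R 0 = 0
  hkm : k ≤ m
  hL : 3 * 2 ^ k ≤ N
  sep : ∀ i j, i ≠ j → 2 ^ (k + 2) < sz (p i - p j)
  hR : ∀ k', 1 ≤ k' → 4 * 2 ^ k' ≤ R k'
  near : ∀ j x, d x ≤ sz (x - p j)

lemma MrgH.div (H : MrgH N m n k R d p) : N = (n * 2 ^ (m - k)) * 2 ^ k := by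
  rw [mul_assoc, ← pow_add, Nat.sub_add_cancel H.hkm]
  exact H.hN

lemma MrgH.lev_box (H : MrgH N m n k R d p) {x : Tor N} (hx : InB k p x) : lev R d m x ≤ k := by
  obtain ⟨j, hj⟩ := hx
  by_contra h
  push Not at h
  have h1 := lev_dist (m := m) (d := d) H.hR0 x
  have h2 := H.hR (lev R d m x) (by omega)
  have h3 := H.near j x
  have h4 := hj.far
  have h5 : 2 ^ (k + 1) ≤ 2 ^ lev R d m x := Nat.pow_le_pow_right (by norm_num) h
  have h6 : 0 < 2 ^ (k + 1) := by positivity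
  omega

lemma MrgH.cong (H : MrgH N m n k R d p) {x y : Tor N} (h : sq2 (lev R d m x) x y)
    (hx : InB k p x) : InB k p y := by
  have h1 := H.lev_box hx
  obtain ⟨j, hj⟩ := hx
  exact ⟨j, hj.cong H.div (h.up h1)⟩

lemma MrgH.cong' (H : MrgH N m n k R d p) {x y : Tor N} (h : sq2 (lev R d m x) x y) :
    InB k p x ↔ InB k p y := by
  refine ⟨H.cong h, fun hy => ?_⟩
  have hl := lev_cong (m := m) (d := d) H.hR0 h
  refine H.cong (x := y) ?_ hy
  rw [hl]
  exact h.symm

/-- index set of the merged tiling -/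
abbrev WJ (N : ℕ) [NeZero N] (R : ℕ → ℕ) (d : Tor N → ℕ) (m k : ℕ) (p : κ → Tor N) : Type _ :=
  {t : WI N R d m // ¬InB k p t.1} ⊕ κ

open Classical in
noncomputable instance (R : ℕ → ℕ) (d : Tor N → ℕ) (m k : ℕ) (p : κ → Tor N) :
    Fintype {t : WI N R d m // ¬InB k p t.1} := Subtype.fintype _

/-- **the merged tiling** -/
noncomputable def mrg {κ : Type} [Fintype κ] {p : κ → Tor N} (H : MrgH N m n k R d p) :
    Til N (WJ N R d m k p) where
  l := Sum.elim (fun t => 2 ^ lev R d m t.1.1) (fun _ => 3 * 2 ^ k)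
  hl := by
    rintro (t | j)
    · exact Nat.one_le_two_pow
    · have := Nat.one_le_two_pow (n := k)
      simp only [Sum.elim_inr]
      omega
  o := Sum.elim (fun t => ((t.1.1.1.val : ℤ), (t.1.1.2.val : ℤ))) (fun j => oC2 k (p j))
  bij := by
    have hT := (whi (d := d) (R := R) H.hN H.hR0).bij
    have hs : ∀ (t : WI N R d m) (c : ℤ × ℤ), c ∈ blk (0, 0) (2 ^ lev R d m t.1) →
        (InB k p t.1 ↔ InB k p (sT N ((t.1.1.val : ℤ), (t.1.2.val : ℤ)) c)) := by
      intro t c hc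
      exact H.cong' (whi_site (d := d) (R := R) H.hN H.hR0 t hc).1
    constructor
    · rintro ⟨t | j, ⟨c, hc⟩⟩ ⟨t' | j', ⟨c', hc'⟩⟩ h
      · simp only [Sum.elim_inl] at h hc hc'
        have hi := hT.1
        have h1 := @hi ⟨t.1, ⟨c, hc⟩⟩ ⟨t'.1, ⟨c', hc'⟩⟩ h
        rw [Sigma.mk.injEq] at h1
        obtain ⟨h2, h3⟩ := h1
        have h4 : t = t' := Subtype.ext h2
        subst h4
        have h5 := eq_of_heq h3
        have h6 : c = c' := congrArg Subtype.val h5
        subst h6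
        rfl
      · exfalso
        simp only [Sum.elim_inl, Sum.elim_inr] at h hc hc'
        have h1 := (hs t.1 c hc).not.1 t.2
        apply h1
        rw [h]
        exact ⟨j', c', hc', rfl⟩
      · exfalso
        simp only [Sum.elim_inl, Sum.elim_inr] at h hc hc'
        have h1 := (hs t'.1 c' hc').not.1 t'.2
        apply h1
        rw [← h]
        exact ⟨j, c, hc, rfl⟩
      · simp only [Sum.elim_inr] at h hc hc'
        have hj : j = j' := by
          by_contra hne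
          have h1 : BxS k (p j) (sT N (oC2 k (p j')) c') := ⟨c, hc, h⟩
          have h2 : BxS k (p j') (sT N (oC2 k (p j')) c') := ⟨c', hc', rfl⟩
          have h3 := h1.disj h2
          have h4 := H.sep j j' hne
          omega
        subst hj
        have h1 := BxS.inj H.hL hc hc' h
        subst h1
        rfl
    · intro x
      by_cases hx : InB k p x
      · obtain ⟨j, c, hc, h⟩ := hx
        exact ⟨⟨Sum.inr j, ⟨c, hc⟩⟩, h⟩
      · obtain ⟨⟨t, ⟨c, hc⟩⟩, h⟩ := hT.2 x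
        have h1 : ¬InB k p t.1 := by
          intro h2
          have h3 := (hs t c hc).1 h2
          apply hx
          have h4 : sT N ((t.1.1.val : ℤ), (t.1.2.val : ℤ)) c = x := h
          rwa [h4] at h3
        exact ⟨⟨Sum.inl ⟨t, h1⟩, ⟨c, hc⟩⟩, h⟩

variable (H : MrgH N m n k R d p)

lemma mrg_s_inl (t : {t : WI N R d m // ¬InB k p t.1}) (c : ℤ × ℤ) :
    (mrg H).s (Sum.inl t) c = (whi (d := d) (R := R) H.hN H.hR0).s t.1 c := rfl

lemma mrg_s_inr (j : κ) (c : ℤ × ℤ) : (mrg H).s (Sum.inr j) c = sT N (oC2 k (p j)) c := rfl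

/-- sums over the sites off the core tiles -/
lemma mrg_sum (f : Tor N → ℝ) (hf : ∀ x, InB k p x → f x = 0) :
    ∑ t : {t : WI N R d m // ¬InB k p t.1},
      ∑ c : ↥(blk (0, 0) (2 ^ lev R d m t.1.1)), f ((whi (d := d) (R := R) H.hN H.hR0).s t.1 c) =
      ∑ x, f x := by
  rw [(mrg H).sum, Fintype.sum_sum_type]
  have h1 : ∑ j : κ, ∑ c : ↥(blk (0, 0) ((mrg H).l (Sum.inr j))), f ((mrg H).s (Sum.inr j) c) =
      0 := by
    refine Finset.sum_eq_zero fun j _ => Finset.sum_eq_zero fun c _ => hf _ ?_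
    exact ⟨j, c.1, c.2, rfl⟩
  rw [h1, add_zero]
  rfl

end til

end Vale.Agent.P159.H513
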