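import Vale.Agent.P159.H513.Rel4

/-!
The domination of the dislocated weights with the merged tiling: wired factors of the core tiles.
-/

set_option linter.all false

open MeasureTheory Filter Topology Matrix

namespace Vale.Agent.P159.H513

open Vale.Agent.P159 Vale.Agent.P159.H353 Vale.Agent.P159.R2.H254 Vale.Agent.P159.H950
open Vale.Agent.P159.T1.H934 Vale.Agent.P159.T1.H731
open Vale.Agent.P159.H37 (qf bf re wM ZM Zs Zn)
open Vale.Agent.P159.TM.SpecC (Tor wT)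
open Vale.Agent.P159.H770 (wTD)
open Vale.Agent.P159.H817 (sz)
open Vale.Agent.P159.H773 (EW EL mm tr)
open Vale.Agent.P159.H529.Qf (EQ cqs)

section gen

variable {N : ℕ} [NeZero N] {ι : Type} [Fintype ι] (T : Til N ι)

/-- **general tiling, any bounds of the ratios** -/
theorem Til.upB {b : ℝ} (hb : 0 ≤ b) (η : Tor N × Bool → ℤ)
    {M : Matrix (Tor N) (Tor N) ℝ} (hMs : Mᵀ = M) {m0 : ℝ} (hm0 : 0 < m0)
    (hM : ∀ u : Tor N → ℝ, m0 * ∑ x, u x ^ 2 ≤ qf M u) (F w : Tor N → ℝ)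
    (c : Tor N × Bool → ℝ) (hJ : ∀ x, (M *ᵥ F) x = (M *ᵥ w) x + H817.dv c x) {B : ι → ℝ}
    (hB : ∀ i, rtx (fun _ : EB (T.l i) => b) (GX (chB (T.l i))) (T.c c i) (T.η η i) ≤ B i) :
    ZM (wTD N b η) M F ≤
      Real.exp (-((qf M F - qf M w) / 2) - ∑ e, c e * η e) * (∏ i, B i) * ZM (wT b N) M 0 := by
  have h := (T.dom hb η hMs hm0 hM (M *ᵥ F) w c hJ).total
  have e : ∀ (μ : (Tor N → ℤ) → ℝ) (J : Tor N → ℝ), Zs μ J =
      ∑' h, μ h * Real.exp (∑ x, J x * (h x : ℝ)) := by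
    intro μ J
    unfold H37.Zs TM.H104.T TM.H104.li
    exact tsum_congr fun h => by ring
  have h' : Zs (wM (wTD N b η) M) (M *ᵥ F) ≤ (Real.exp (qf M w / 2 - ∑ e, c e * η e) *
      ∏ i, rtx (fun _ : EB (T.l i) => b) (GX (chB (T.l i))) (T.c c i) (T.η η i)) *
        Zs (wM (wT b N) M) 0 := by
    rw [e _ (M *ᵥ F), e _ 0]
    simpa using h
  have hZ : 0 ≤ Zs (wM (wT b N) M) 0 := by
    rw [e]
    refine tsum_nonneg fun h => mul_nonneg (mul_nonneg ?_ (Real.exp_pos _).le) (Real.exp_pos _).le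
    unfold wT
    exact Finset.prod_nonneg fun x _ => mul_nonneg (wI_nonneg hb _) (wI_nonneg hb _)
  have hP : ∏ i, rtx (fun _ : EB (T.l i) => b) (GX (chB (T.l i))) (T.c c i) (T.η η i) ≤ ∏ i, B i :=
    Finset.prod_le_prod (fun i _ => rtx_nonneg (fun _ => hb) _ _ _) fun i _ => hB i
  have h2 : Zs (wM (wTD N b η) M) (M *ᵥ F) ≤ (Real.exp (qf M w / 2 - ∑ e, c e * η e) *
      ∏ i, B i) * Zs (wM (wT b N) M) 0 :=
    h'.trans (mul_le_mul_of_nonneg_right (mul_le_mul_of_nonneg_left hP (Real.exp_pos _).le) hZ)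
  rw [H37.ZM_eq _ hMs, H37.ZM_eq _ hMs]
  have e0 : Real.exp (-(qf M 0 / 2)) = 1 := by
    rw [H37.qf_zero_vec]; simp
  rw [e0, one_mul, Matrix.mulVec_zero]
  have h3 := mul_le_mul_of_nonneg_left h2 (Real.exp_pos (-(qf M F / 2))).le
  refine h3.trans (le_of_eq ?_)
  rw [← mul_assoc, ← mul_assoc, ← Real.exp_add]
  congr 3
  ring

/-- the circulations of a block -/
lemma Til.dv_η (η : Tor N × Bool → ℤ) (i : ι) {w : ℤ × ℤ} (hw : w ∈ inner (T.l i)) :
    T1.H731.dv (uB (T.l i)) (vB (T.l i)) (T.η η i) w = -cuZ η (T.s i (w - (1, 1))) := by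
  have hw' : w ∈ intR (blk (0, 0) (T.l i)) := by
    rw [intR_inner]
    exact Finset.mem_coe.2 hw
  obtain ⟨h0, h1, h2, h3⟩ := hw'
  have a1 : ∀ c : ℤ × ℤ, hu c (true, true) = w ↔ c = w - (1, 0) := fun c => by
    unfold hu
    constructor
    · rintro rfl; ext <;> simp
    · rintro rfl; ext <;> simp
  have a2 : ∀ c : ℤ × ℤ, hu c (false, true) = w ↔ c = w - (0, 1) := fun c => by
    unfold hu
    constructor
    · rintro rfl; ext <;> simp
    · rintro rfl; ext <;> simp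
  have a3 : ∀ c : ℤ × ℤ, hv c (true, true) = w ↔ c = w - (1, 1) := fun c => by
    unfold hv hu
    constructor
    · rintro rfl; ext <;> simp
    · rintro rfl; ext <;> simp
  have a4 : ∀ c : ℤ × ℤ, hv c (false, true) = w ↔ c = w - (1, 1) := fun c => by
    unfold hv hu
    constructor
    · rintro rfl; ext <;> simp
    · rintro rfl; ext <;> simp
  unfold cuZ
  unfold T1.H731.dv
  rw [Fintype.sum_prod_type]
  simp only [Fintype.sum_bool, uB, vB, a1, a2, a3, a4, Til.η, if_true, Bool.false_eq_true, if_false]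
  have key : ∀ (g : ℤ × ℤ → ℤ) (v : ℤ × ℤ), v ∈ blk (0, 0) (T.l i) →
      ∑ c : ↥(blk (0, 0) (T.l i)), g c * (if (c : ℤ × ℤ) = v then 1 else 0) = g v := by
    intro g v hv'
    rw [Finset.sum_coe_sort (blk (0, 0) (T.l i)) (fun c => g c * (if c = v then 1 else 0))]
    simp [hv']
  simp only [mul_sub, Finset.sum_add_distrib, Finset.sum_sub_distrib]
  rw [key (fun c => η (T.s i c, false)) _ h1, key (fun c => η (T.s i c, false)) _ h3,
    key (fun c => -η (T.s i c, true)) _ h2, key (fun c => -η (T.s i c, true)) _ h3]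
  have e1 : T.s i (w - (1, 0)) = T.s i (w - (1, 1)) + (0, 1) := by
    rw [← T.s_e2]
    congr 1
    ext <;> simp
  have e2 : T.s i (w - (0, 1)) = T.s i (w - (1, 1)) + (1, 0) := by
    rw [← T.s_e1]
    congr 1
    ext <;> simp
  rw [e1, e2]
  ring

/-- sum of squares in a block -/
lemma Til.c_sq (c : Tor N × Bool → ℝ) (i : ι) {B : ℝ} (hB : 0 ≤ B)
    (h : ∀ p ∈ blk (0, 0) (T.l i), ∀ t, |c (T.s i p, t)| ≤ B) :
    ∑ e, T.c c i e ^ 2 ≤ 2 * (T.l i : ℝ) ^ 2 * B ^ 2 := by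
  rw [T.nT c i]
  have : ∀ p : ↥(blk (0, 0) (T.l i)), nx c (T.s i p) ≤ 2 * B ^ 2 := by
    intro p
    have b1 := pow_le_pow_left₀ (abs_nonneg _) (h p p.2 false) 2
    have b2 := pow_le_pow_left₀ (abs_nonneg _) (h p p.2 true) 2
    rw [sq_abs] at b1 b2
    unfold nx
    linarith
  refine (Finset.sum_le_sum fun p _ => this p).trans (le_of_eq ?_)
  rw [Finset.sum_const, Finset.card_univ, nsmul_eq_mul, card_blk0]
  ring

end gen

section core

variable {N : ℕ} [NeZero N] {R : ℕ → ℕ} {d : Tor N → ℕ} {m n k : ℕ} {κ : Type} [Fintype κ]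
  {p : κ → Tor N}

lemma tr_sub (k : ℕ) (q : Tor N) :
    H773.tr (box (2 ^ k - 1)) (cC k q + (1, 1)) ⊆ inner (3 * 2 ^ k) := by
  intro v hv
  rw [H773.mem_tr, box, Finset.mem_Icc, Prod.le_def, Prod.le_def] at hv
  have h := cC_bd k q
  have hp : (1 : ℤ) ≤ 2 ^ k := one_le_pow₀ (by norm_num)
  have hc : ((2 ^ k - 1 : ℕ) : ℤ) = 2 ^ k - 1 := by
    rw [Nat.cast_sub Nat.one_le_two_pow]
    push_cast
    rfl
  rw [hc] at hv
  simp only [Prod.fst_sub, Prod.snd_sub, Prod.fst_add, Prod.snd_add] at hv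
  obtain ⟨⟨v1, v2⟩, v3, v4⟩ := hv
  rw [H773.mem_inner_iff]
  push_cast
  refine ⟨⟨by linarith [h.1.1], by linarith [h.2.1]⟩, by linarith [h.1.2], by linarith [h.2.2]⟩

variable (H : MrgH N m n k R d p)

/-- **the wired factor of a core tile** -/
theorem core_mm {b : ℝ} (hb : 0 ≤ b) {η : Tor N × Bool → ℤ}
    (h1 : ∀ j, cuZ η (p j) = 1 ∨ cuZ η (p j) = -1) (h0 : ∀ x, (∀ j, x ≠ p j) → cuZ η x = 0)
    (j : κ) :
    rtx (fun _ : EB ((mrg H).l (Sum.inr j)) => b) (GX (chB ((mrg H).l (Sum.inr j)))) 0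
      ((mrg H).η η (Sum.inr j)) ≤ mm b (2 ^ k - 1) := by
  rw [rtx_EQ hb]
  have hs : ∀ v, (mrg H).s (Sum.inr j) v = sT N (oC2 k (p j)) v := fun v => rfl
  have hl : (mrg H).l (Sum.inr j) = 3 * 2 ^ k := rfl
  have hz : cC k (p j) + (1, 1) ∈ inner ((mrg H).l (Sum.inr j)) := by
    rw [hl]
    refine tr_sub k (p j) ?_
    rw [H773.mem_tr, sub_self]
    exact XY.zero_mem_box _
  refine H529.Qf.EQ_one hb (z := cC k (p j) + (1, 1)) (ρ := 2 ^ k - 1) ?_ ?_ ?_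
  · rw [hl]
    exact tr_sub k (p j)
  · rw [(mrg H).dv_η η (Sum.inr j) hz, add_sub_cancel_right, hs, sT_cC]
    rcases h1 j with h | h
    · right; rw [h]
    · left; rw [h, neg_neg]
  · intro v hv hne
    rw [(mrg H).dv_η η (Sum.inr j) hv, neg_eq_zero, hs]
    refine h0 _ fun i hi => ?_
    -- the site is in the tile of `j`
    have hv' : v - (1, 1) ∈ blk (0, 0) (3 * 2 ^ k) := by
      rw [hl, H773.mem_inner_iff] at hv
      push_cast at hv
      rw [mem_b3]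
      simp only [Prod.fst_sub, Prod.snd_sub]
      constructor <;> constructor <;> linarith [hv.1.1, hv.1.2, hv.2.1, hv.2.2]
    by_cases hij : i = j
    · subst hij
      have h2 := BxS.inj H.hL hv' (cC_mem k (p i)) (by rw [hi, sT_cC])
      apply hne
      rw [← h2]
      ext <;> simp
    · have hb1 : BxS k (p j) (p i) := ⟨v - (1, 1), hv', hi⟩
      have hb2 : BxS k (p i) (p i) := ⟨cC k (p i), cC_mem k (p i), sT_cC k (p i)⟩
      have h3 := hb1.disj hb2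
      have h4 := H.sep j i (Ne.symm hij)
      omega

/-- **the factor of a core tile with a small tilt** -/
theorem core_tilt {b : ℝ} (hb : 0 ≤ b) {η : Tor N × Bool → ℤ}
    (h1 : ∀ j, cuZ η (p j) = 1 ∨ cuZ η (p j) = -1) (h0 : ∀ x, (∀ j, x ≠ p j) → cuZ η x = 0)
    (j : κ) {c : Tor N × Bool → ℝ} {B σ : ℝ} (hB : 0 ≤ B) (hσ : 1 ≤ σ) (hσB : σ * B ≤ 1)
    (hc : ∀ x, BxS k (p j) x → ∀ t, |c (x, t)| ≤ B) :
    rtx (fun _ : EB ((mrg H).l (Sum.inr j)) => b) (GX (chB ((mrg H).l (Sum.inr j))))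
      ((mrg H).c c (Sum.inr j)) ((mrg H).η η (Sum.inr j)) ≤
      mm b (2 ^ k - 1) ^ (1 - 1 / σ) * Real.exp (18 * b * σ * (4 ^ k * B ^ 2)) := by
  have hcB : ∀ q ∈ blk (0, 0) ((mrg H).l (Sum.inr j)), ∀ t,
      |c ((mrg H).s (Sum.inr j) q, t)| ≤ B := fun q hq t => hc _ ⟨q, hq, rfl⟩ t
  have hσ0 : 0 < σ := by linarith
  have e1 : 0 ≤ 1 - 1 / σ := sub_nonneg.2 ((div_le_one hσ0).2 hσ)
  have t1 := rtx_tilt' (J := fun _ : EB ((mrg H).l (Sum.inr j)) => b) (fun _ => hb)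
    (GX_half G_div2 (chB ((mrg H).l (Sum.inr j)))) ((mrg H).c c (Sum.inr j))
    ((mrg H).η η (Sum.inr j)) (s := σ) (b := b) hσ (fun _ => le_rfl) (fun e => by
      have h2 : |(mrg H).c c (Sum.inr j) e| ≤ B := by
        unfold Til.c
        split_ifs
        · exact hcB _ e.1.2 _
        · rw [abs_neg]; exact hcB _ e.1.2 _
      rw [abs_mul, abs_of_pos hσ0]
      exact (mul_le_mul_of_nonneg_left h2 hσ0.le).trans hσB)
  have t2 := core_mm H hb h1 h0 j
  have t3 := (mrg H).c_sq c (Sum.inr j) hB hcB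
  have hl : (((mrg H).l (Sum.inr j) : ℕ) : ℝ) = 3 * 2 ^ k := by
    show ((3 * 2 ^ k : ℕ) : ℝ) = _
    push_cast
    rfl
  rw [hl] at t3
  have t4 : b * σ * ∑ e, (mrg H).c c (Sum.inr j) e ^ 2 ≤ 18 * b * σ * (4 ^ k * B ^ 2) := by
    have h5 := mul_le_mul_of_nonneg_left t3 (show 0 ≤ b * σ by positivity)
    refine h5.trans (le_of_eq ?_)
    have : ((2 : ℝ) ^ k) ^ 2 = 4 ^ k := by
      rw [← pow_mul, mul_comm k 2, pow_mul]; norm_num
    rw [mul_pow, this]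
    ring
  refine t1.trans (mul_le_mul (Real.rpow_le_rpow (rtx_nonneg (fun _ => hb) _ _ _) t2 e1)
    (Real.exp_le_exp.2 t4) (Real.exp_pos _).le (Real.rpow_nonneg (H773.mm_nonneg hb _) _))

end core

end Vale.Agent.P159.H513
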