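import Vale.Agent.P159.H513.Eta16
import Vale.Agent.P159.H972.Good
import Vale.Agent.P159.H43.Num
import Vale.Agent.P159.H817.St10

/-!
P159, helper513: the smoothing by the inverse of one plus κ lapM, κ = 1 / (S t), and the exact quadratic form of the
neutral model against the form of the free field with stiffness `1/S` (from the flat profile `FL`).
-/

set_option linter.all false

open Matrix Finset

namespace Vale.Agent.P159.H513

open Vale.Agent.P159.H37 (qf bf re wM ZM Zs Zn)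
open Vale.Agent.P159.TM.SpecC (Tor wT)
open Vale.Agent.P159.TM.Spec (V)
open Vale.Agent.P159.TM.H764 (cN sN dt EE)
open Vale.Agent.P159.H864 (TI sym lapM ti_lapM sym_lapM)
open Vale.Agent.P159.H817 (sz gr dv cu rot cst cG CG nrm lp mnj G0 aN)
open Vale.Agent.P159.H963 (Pin Ank Anm Gnh)

section sm

variable {N : ℕ} [NeZero N] {κ : ℝ}

/-- the smoothing -/
noncomputable def Sm (N : ℕ) [NeZero N] (κ : ℝ) : Matrix (V N) (V N) ℝ :=
  (1 + κ • lapM)⁻¹

lemma EE_nn (k : V N) : 0 ≤ EE k := by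
  unfold EE
  have h1 := TM.H764.cN_le_one k.1
  have h2 := TM.H764.cN_le_one k.2
  linarith

lemma ti_oneL (κ : ℝ) : TI (1 + κ • (lapM : Matrix (V N) (V N) ℝ)) := TI.one.add (ti_lapM.smul κ)

lemma sym_oneL (κ : ℝ) (k : V N) : sym (1 + κ • (lapM : Matrix (V N) (V N) ℝ)) k = 1 + κ * EE k := by
  rw [H864.sym_add, H864.sym_one, H864.sym_smul, sym_lapM]

lemma oneL_ne (hκ : 0 ≤ κ) (k : V N) : sym (1 + κ • (lapM : Matrix (V N) (V N) ℝ)) k ≠ 0 := by
  rw [sym_oneL]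
  have := mul_nonneg hκ (EE_nn k)
  positivity

lemma ti_Sm (κ : ℝ) : TI (Sm N κ) := (ti_oneL κ).inv

lemma sym_Sm (hκ : 0 ≤ κ) (k : V N) : sym (Sm N κ) k = (1 + κ * EE k)⁻¹ := by
  unfold Sm
  rw [H864.sym_inv' (ti_oneL κ) (oneL_ne hκ), sym_oneL]

lemma Sm_eq (hκ : 0 ≤ κ) (F : V N → ℝ) (x : V N) :
    (Sm N κ *ᵥ F) x + κ * (lapM *ᵥ (Sm N κ *ᵥ F)) x = F x := by
  have h1 : (1 + κ • (lapM : Matrix (V N) (V N) ℝ)) *ᵥ (Sm N κ *ᵥ F) = F := by
    unfold Sm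
    rw [Matrix.mulVec_mulVec,
      Matrix.mul_nonsing_inv _ (H864.isUnit_det (ti_oneL κ) (oneL_ne hκ)), Matrix.one_mulVec]
  have h2 := congrFun h1 x
  rw [Matrix.add_mulVec, Matrix.one_mulVec, Matrix.smul_mulVec] at h2
  simpa using h2

lemma qf_dot (A : Matrix (V N) (V N) ℝ) (u : V N → ℝ) : qf A u = ∑ x, u x * (A *ᵥ u) x := by
  rw [H37.qf_eq]
  rfl

/-- the cost of the smoothing -/
lemma Sm_cost {S t : ℝ} (hS : 0 < S) (ht : 0 < t) (F w : V N → ℝ)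
    (hw : w = Sm N (S * t)⁻¹ *ᵥ F) :
    qf (t • (1 : Matrix (V N) (V N) ℝ)) F - qf (t • (1 : Matrix (V N) (V N) ℝ)) w -
      S⁻¹ * qf lapM w = qf (t • (1 - Sm N (S * t)⁻¹)) F := by
  have hκ : 0 ≤ (S * t)⁻¹ := by positivity
  have h1 : ∀ x, F x = w x + (S * t)⁻¹ * (lapM *ᵥ w) x := fun x => by
    rw [hw]; exact (Sm_eq hκ F x).symm
  have e1 : ∀ u : V N → ℝ, qf (t • (1 : Matrix (V N) (V N) ℝ)) u = t * ∑ x, u x ^ 2 := by
    intro u
    rw [qf_dot, Matrix.smul_mulVec, Matrix.one_mulVec, Finset.mul_sum]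
    exact Finset.sum_congr rfl fun x _ => by simp [smul_eq_mul]; ring
  have e2 : qf (t • (1 - Sm N (S * t)⁻¹)) F = t * ∑ x, F x * (F x - w x) := by
    rw [qf_dot, Matrix.smul_mulVec, Matrix.sub_mulVec, Matrix.one_mulVec, Finset.mul_sum, hw]
    exact Finset.sum_congr rfl fun x _ => by simp [smul_eq_mul]; ring
  rw [e1, e1, e2, qf_dot lapM w]
  simp_rw [Finset.mul_sum]
  rw [← Finset.sum_sub_distrib, ← Finset.sum_sub_distrib]
  refine Finset.sum_congr rfl fun x _ => ?_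
  rw [h1 x]
  field_simp
  ring

end sm

section an

variable {N : ℕ} [NeZero N] {b t S a η : ℝ}

lemma an_ineq {t P K E : ℝ} (ht : 0 < t) (hP : 0 ≤ P) (hK : 0 ≤ K) :
    t * P / (t + P) ≤ t * (1 - (1 + K)⁻¹) ^ 2 + P * (1 + K)⁻¹ ^ 2 := by
  rw [div_le_iff₀ (by positivity)]
  set γ := (1 + K)⁻¹
  nlinarith [sq_nonneg (t * (1 - γ) - P * γ)]

/-- **exact quadratic form ≤ free form** -/
theorem Ank_le (hb : 0 < b) (ht : 0 < t) (hS : 0 < S) (hη : 0 ≤ η) (hF : H972.FL b t a η N)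
    (ha : a ≤ S⁻¹ + η) (k : V N) :
    Ank N b t k ≤ t * (1 - (1 + (S * t)⁻¹ * EE k)⁻¹) +
      (η / (N : ℝ) ^ 2 + 2 * η * (S * t) + η * (S ^ 2 * t)) := by
  obtain ⟨z, a', hz, hzN, haa, h⟩ := hF
  have hN : (0 : ℝ) < (N : ℝ) ^ 2 := H864.N_pos
  have hE := EE_nn k
  have hK : 0 ≤ (S * t)⁻¹ * EE k := by positivity
  by_cases hk : k = 0
  · unfold H963.Ank
    rw [if_pos hk]
    have h1 : (1 + (S * t)⁻¹ * EE k)⁻¹ ≤ 1 := inv_le_one_of_one_le₀ (by linarith)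
    have h2 : 0 ≤ t * (1 - (1 + (S * t)⁻¹ * EE k)⁻¹) := mul_nonneg ht.le (by linarith)
    have h3 : 0 ≤ η / (N : ℝ) ^ 2 + 2 * η * (S * t) + η * (S ^ 2 * t) := by positivity
    linarith
  · rw [H963.Ank_eq hb ht hk]
    have hP := H963.Pin_nonneg (N := N) hb ht hk
    refine (an_ineq (E := 0) ht hP hK).trans ?_
    have h1 := (abs_le.1 (h k hk)).2
    have h2 := (abs_le.1 haa).2
    set E := EE k
    set γ := (1 + (S * t)⁻¹ * E)⁻¹ with hγ
    have hγ0 : 0 < γ := by positivity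
    have hγ1 : γ ≤ 1 := inv_le_one_of_one_le₀ (by linarith)
    have hγe : γ * (1 + (S * t)⁻¹ * E) = 1 := inv_mul_cancel₀ (by positivity)
    have hEγ : γ * E ≤ S * t := by
      have : γ * E = S * t * (γ * ((S * t)⁻¹ * E)) := by
        field_simp
      rw [this]
      have h3 : γ * ((S * t)⁻¹ * E) ≤ 1 := by nlinarith
      have h4 : 0 ≤ S * t := by positivity
      nlinarith
    have hEγ0 : 0 ≤ γ * E := by positivity
    have hz' : z ≤ η / (N : ℝ) ^ 2 := by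
      rw [le_div_iff₀ hN]
      exact hzN
    have h4 : Pin N b t k ≤ z + (S⁻¹ + 2 * η) * E + η * E ^ 2 / t := by
      have h5 : a' * E ≤ (S⁻¹ + 2 * η) * E := mul_le_mul_of_nonneg_right (by linarith) hE
      linarith
    have h6 : Pin N b t k * γ ^ 2 ≤ (z + (S⁻¹ + 2 * η) * E + η * E ^ 2 / t) * γ ^ 2 :=
      mul_le_mul_of_nonneg_right h4 (by positivity)
    have e1 : t * (1 - γ) ^ 2 + S⁻¹ * E * γ ^ 2 = t * (1 - γ) := by
      have h7 : (1 - γ) = γ * ((S * t)⁻¹ * E) := by linarith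
      have h8 : S⁻¹ * E * γ ^ 2 = t * (γ * (γ * ((S * t)⁻¹ * E))) := by
        field_simp
      rw [h8, ← h7]
      ring
    have h9 : z * γ ^ 2 ≤ η / (N : ℝ) ^ 2 := by
      have : γ ^ 2 ≤ 1 := by nlinarith
      nlinarith
    have h10 : 2 * η * E * γ ^ 2 ≤ 2 * η * (S * t) := by
      have h11 : E * γ ^ 2 ≤ S * t := by
        have : E * γ ^ 2 = (γ * E) * γ := by ring
        rw [this]
        nlinarith
      have : 2 * η * E * γ ^ 2 = 2 * η * (E * γ ^ 2) := by ring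
      rw [this]
      exact mul_le_mul_of_nonneg_left h11 (by positivity)
    have h12 : η * E ^ 2 / t * γ ^ 2 ≤ η * (S ^ 2 * t) := by
      have h13 : (γ * E) ^ 2 ≤ (S * t) ^ 2 := pow_le_pow_left₀ hEγ0 hEγ 2
      have h14 : η * E ^ 2 / t * γ ^ 2 = η * ((γ * E) ^ 2 / t) := by
        field_simp
      rw [h14]
      refine mul_le_mul_of_nonneg_left ?_ hη
      rw [div_le_iff₀ ht]
      nlinarith
    nlinarith

theorem qf_Anm_le (hb : 0 < b) (ht : 0 < t) (hS : 0 < S) (hη : 0 ≤ η) (hF : H972.FL b t a η N)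
    (ha : a ≤ S⁻¹ + η) (F : V N → ℝ) :
    qf (Anm N b t) F ≤ qf (t • (1 - Sm N (S * t)⁻¹)) F +
      (η / (N : ℝ) ^ 2 + 2 * η * (S * t) + η * (S ^ 2 * t)) * ∑ x, F x ^ 2 := by
  set c := η / (N : ℝ) ^ 2 + 2 * η * (S * t) + η * (S ^ 2 * t)
  have hκ : 0 ≤ (S * t)⁻¹ := by positivity
  have hT : TI (t • (1 - Sm N (S * t)⁻¹) + c • (1 : Matrix (V N) (V N) ℝ)) :=
    ((TI.one.sub (ti_Sm _)).smul t).add (TI.one.smul c)
  have h1 := (H864.qf_le_iff (H963.ti_Anm hb.le ht) hT).2 (fun k => by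
    rw [H963.sym_Anm, H864.sym_add, H864.sym_smul, H864.sym_sub, H864.sym_one, sym_Sm hκ,
      H864.sym_smul_one]
    exact Ank_le hb ht hS hη hF ha k) F
  refine h1.trans (le_of_eq ?_)
  rw [qf_dot, qf_dot, Matrix.add_mulVec, Finset.mul_sum, ← Finset.sum_add_distrib]
  refine Finset.sum_congr rfl fun x _ => ?_
  rw [Pi.add_apply, Matrix.smul_mulVec c, Matrix.one_mulVec]
  simp only [Pi.smul_apply, smul_eq_mul]
  ring

end an

end Vale.Agent.P159.H513
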