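import Vale.Agent.P159.H513.Rg1
import Vale.Agent.P159.H340.Rsv

/-!
P159, helper513: `Rs` of the neutral model at real fields of bounded oscillation (deterministic half
of (iii) of Ed3).
-/

set_option linter.all false

open Matrix Finset Filter Topology

namespace Vale.Agent.P159.H513

open Vale.Agent.P159.H37 (qf bf re wM ZM Zs Zn Rs Un)
open Vale.Agent.P159.TM.SpecC (Tor wT)
open Vale.Agent.P159.TM.Spec (V)
open Vale.Agent.P159.TM.H764 (cN sN dt EE)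
open Vale.Agent.P159.H864 (TI sym lapM ti_lapM sym_lapM)
open Vale.Agent.P159.H817 (sz gr dv cu rot cst cG CG nrm lp mnj G0 aN)
open Vale.Agent.P159.H963 (Pin Ank Anm Gnh ntr nM nwt MF mf_smul gw_wT)
open Vale.Agent.P159.H770 (wTD)
open Vale.Agent.P159.H43 (omT)

section z0

variable {N : ℕ} [NeZero N]

lemma enR_zero : enR (fun _ : Tor N => (0 : ℝ)) = 0 := by
  unfold enR
  simp

lemma qa_zero : qa (fun _ : Tor N => (0 : ℝ)) = 0 := by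
  unfold qa
  simp

lemma cG_zero (x : Tor N) : cG (fun _ : Tor N => (0 : ℝ)) x = 0 := by
  unfold H817.cG
  simp

lemma jR_zero (e : Tor N × Bool) : jR (fun _ : Tor N => (0 : ℝ)) 0 0 e = 0 := by
  obtain ⟨x, t⟩ := e
  unfold jR H817.rot H817.cst
  cases t <;> simp [cG_zero]

lemma gr_zero (e : Tor N × Bool) : gr (fun _ : Tor N => (0 : ℝ)) e = 0 := by
  unfold H817.gr
  simp

end z0

/-- `R + 1 ≤ 2 ^ (R - (3 R + 3) / 4)` for large `R` -/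
lemma pow_quarter {R : ℕ} (hR : 32 ≤ R) : (R : ℝ) + 1 ≤ 2 ^ (R - (3 * R + 3) / 4) := by
  have h1 : ∀ k : ℕ, 8 ≤ k → 4 * k + 4 ≤ 2 ^ k := by
    intro k hk
    induction k, hk using Nat.le_induction with
    | base => norm_num
    | succ k hk ih =>
      rw [pow_succ]
      omega
  have h2 : 8 ≤ R - (3 * R + 3) / 4 + 1 := by omega
  have h3 : R + 1 ≤ 4 * (R - (3 * R + 3) / 4) + 4 := by omega
  have h4 : ∀ k : ℕ, 7 ≤ k → 4 * k + 4 ≤ 2 ^ k := by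
    intro k hk
    rcases Nat.lt_or_ge k 8 with h | h
    · have : k = 7 := by omega
      subst this
      norm_num
    · exact h1 k h
  have h5 := h3.trans (h4 _ (by omega))
  exact_mod_cast h5

section eqn

variable {N : ℕ} [NeZero N] {S t : ℝ}

lemma eqn_w (hS : 0 < S) (ht : 0 < t) {F w : V N → ℝ}
    (h : ∀ x, w x + (S * t)⁻¹ * (lapM *ᵥ w) x = F x) (x : V N) :
    ((t • (1 : Matrix (V N) (V N) ℝ)) *ᵥ F) x = ((t • (1 : Matrix (V N) (V N) ℝ)) *ᵥ w) x +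
      dv (gr (fun y => S⁻¹ * w y)) x := by
  rw [H817.dv_gr, Matrix.smul_mulVec, Matrix.smul_mulVec, Matrix.one_mulVec, Matrix.one_mulVec]
  simp only [Pi.smul_apply, smul_eq_mul]
  have h1 : lp (fun y => S⁻¹ * w y) x = S⁻¹ * lp w x := by
    unfold H817.lp
    ring
  have h2 : (lapM *ᵥ w) x = -lp w x := congrFun (H817.lapM_mulVec w) x
  rw [h1, ← h x, h2]
  field_simp

lemma gr_mul (c : ℝ) (w : V N → ℝ) (e : V N × Bool) : gr (fun y => c * w y) e = c * gr w e := by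
  unfold H817.gr
  split_ifs <;> ring

lemma nrm_gr_mul (c : ℝ) (w : V N → ℝ) : nrm (gr (fun y => c * w y)) = c ^ 2 * qf lapM w := by
  rw [H817.qf_lap]
  unfold H817.nrm
  rw [Finset.mul_sum]
  exact Finset.sum_congr rfl fun e _ => by rw [gr_mul]; ring

lemma div_step {S m B N P : ℝ} (hS : 0 < S) (hm : 0 < m) (hN : 0 < N) (h : 4 * B * N ≤ P * S * m) :
    S⁻¹ * (4 * B / m) ≤ P / N := by
  rw [← div_eq_inv_mul, div_div, div_le_div_iff₀ (by positivity) hN]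
  linarith

end eqn

/-- **charge zero form of the bound on regular backgrounds** -/
theorem sl5_zero {b S : ℝ} (hb : 0 ≤ b) (hS : 0 < S) (hSi : ∀ i, S ≤ stiff (2 ^ i) b)
    (hL : LkS b S) (ε : ℝ) (hε : 0 < ε) :
    ∃ C : ℝ, 0 ≤ C ∧ ∃ R0 : ℕ, ∀ R : ℕ, R0 ≤ R → ∀ (P : ℝ), 1 ≤ P → P ≤ (R : ℝ) + 1 →
    ∀ (t : ℝ), 0 < t → ∀ m : ℕ, 1 ≤ m → (m : ℝ) ^ 2 * (S * t) ≤ 2 →
    ∀ (F : Tor (2 ^ R) → ℝ) (c B G : ℝ), (∀ x, |F x - c| ≤ B) →
    (∀ x, |F (x + (1, 0)) - F x| ≤ G) → (∀ x, |F (x + (0, 1)) - F x| ≤ G) →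
    4 * B * 2 ^ R ≤ P * S * m → 4 * G * (2 ^ R * 2 ^ ((3 * R + 3) / 4)) ≤ P * S * m →
    Zn (wT b (2 ^ R)) (t • (1 : Matrix (Tor (2 ^ R)) (Tor (2 ^ R)) ℝ)) F ≤
      Real.exp (-(qf (t • (1 - Sm (2 ^ R) (S * t)⁻¹)) F / 2) +
        C * (P ^ 2 * ((R : ℝ) + 1) ^ ε / ((R : ℝ) + 1))) *
        ZM (wT b (2 ^ R)) (t • (1 : Matrix (Tor (2 ^ R)) (Tor (2 ^ R)) ℝ)) 0 := by
  obtain ⟨C, hC, R0, h⟩ := sl5_reg hb hS hSi hL 0 le_rfl ε hε
  refine ⟨C, hC, max R0 32, fun R hR P hP1 hP2 t ht m hm hmt F c B G hB hG1 hG2 hP3 hP4 => ?_⟩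
  have hR0 : R0 ≤ R := (le_max_left _ _).trans hR
  have hR32 : 32 ≤ R := (le_max_right _ _).trans hR
  have hκ : 0 ≤ (S * t)⁻¹ := by positivity
  have hm0 : (0 : ℝ) < m := by exact_mod_cast hm
  have hmκ : (m : ℝ) ^ 2 ≤ 2 * (S * t)⁻¹ := by
    rw [← div_eq_mul_inv, le_div_iff₀ (by positivity)]
    exact hmt
  have hN2 : (2 : ℕ) ^ R = 2 * 2 ^ (R - 1) := by
    rw [← pow_succ']
    congr 1
    omega
  obtain ⟨w, hw⟩ : ∃ w : Tor (2 ^ R) → ℝ, w = Sm (2 ^ R) (S * t)⁻¹ *ᵥ F := ⟨_, rfl⟩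
  have hwe : ∀ x, w x + (S * t)⁻¹ * (lapM *ᵥ w) x = F x := fun x => by
    rw [hw]
    exact Sm_eq hκ F x
  have hgrd := fun e => H340.rsv_grad hN2 hm hmκ hwe hB e
  have hgrd1 := fun x s => H340.rsv_grad2 hN2 hm hmκ hwe (a := ((1, 0) : Tor (2 ^ R))) hG1 x s
  have hgrd2 := fun x s => H340.rsv_grad2 hN2 hm hmκ hwe (a := ((0, 1) : Tor (2 ^ R))) hG2 x s
  have h2R : (0 : ℝ) < 2 ^ R := by positivity
  have hi0 : (3 * R + 3) / 4 ≤ R := by omega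
  have h3R : 3 * R ≤ 4 * ((3 * R + 3) / 4) := by omega
  have hPi : 2 ^ ((3 * R + 3) / 4) * P ≤ (2 : ℝ) ^ R := by
    have h1 := hP2.trans (pow_quarter hR32)
    have h2 : (2 : ℝ) ^ R = 2 ^ ((3 * R + 3) / 4) * 2 ^ (R - (3 * R + 3) / 4) := by
      rw [← pow_add]
      congr 1
      omega
    rw [h2]
    exact mul_le_mul_of_nonneg_left h1 (by positivity)
  have hcor : Cor (dF (fun _ : Unit => (0 : Tor (2 ^ R)))) 1 := by
    have := cor_dF (fun _ : Unit => (0 : Tor (2 ^ R)))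
    simpa using this
  have hSi0 : 0 < S⁻¹ := by positivity
  have h1 := h R hR0 ((3 * R + 3) / 4) hi0 h3R P hP1 hP2 hPi
    (dF (fun _ : Unit => (0 : Tor (2 ^ R)))) 1 le_rfl hcor (fun _ => 0) (by simp)
    (fun x y hy => absurd rfl hy) (by rw [qa_zero]) 0 0 0 0 (by
      rw [abs_zero, add_zero]
      positivity) 0 (fun _ => 0) (fun e => by
      rw [jR_zero, gr_zero]
      simp) (t • (1 : Matrix (Tor (2 ^ R)) (Tor (2 ^ R)) ℝ)) t (mf_smul ht).symm ht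
    (H789.coer_smul t) F w (fun y => S⁻¹ * w y) (eqn_w hS ht hwe) (fun e => by
      rw [gr_mul, abs_mul, abs_of_pos hSi0]
      exact (mul_le_mul_of_nonneg_left (hgrd e) hSi0.le).trans (div_step hS hm0 h2R hP3))
    (fun x s => by
      rw [gr_mul, gr_mul, ← mul_sub, abs_mul, abs_of_pos hSi0]
      exact (mul_le_mul_of_nonneg_left (hgrd1 x s) hSi0.le).trans
        (div_step hS hm0 (by positivity) hP4))
    (fun x s => by
      rw [gr_mul, gr_mul, ← mul_sub, abs_mul, abs_of_pos hSi0]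
      exact (mul_le_mul_of_nonneg_left (hgrd2 x s) hSi0.le).trans
        (div_step hS hm0 (by positivity) hP4))
  have e1 : ((fun _ => (0 : ℝ)) + F : Tor (2 ^ R) → ℝ) = F := by
    funext x
    simp
  have h2 := Sm_cost hS ht F w hw
  rw [H770.wTD_zero, e1, qa_zero, enR_zero, nrm_gr_mul] at h1
  refine h1.trans (le_of_eq ?_)
  congr 2
  have h3 : S / 2 * (S⁻¹ ^ 2 * qf lapM w) = S⁻¹ * qf lapM w / 2 := by
    field_simp
  rw [h3, ← h2]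
  ring

lemma err_num {S t m N B P η s : ℝ} (hS : 0 < S) (ht : 0 < t) (hm : 0 < m) (hN : 0 < N)
    (hmN : m ≤ N) (hB : 0 ≤ B) (hη : 0 ≤ η) (hmt : m ^ 2 * (S * t) ≤ 2)
    (hP : 4 * B * N ≤ P * S * m) (hs : s ≤ N ^ 2 * B ^ 2) :
    (η / N ^ 2 + 2 * η * (S * t) + η * (S ^ 2 * t)) * s / 2 ≤ (S ^ 2 + S ^ 3) * (η * P ^ 2) := by
  have h1 : (4 * B * N) ^ 2 ≤ (P * S * m) ^ 2 := pow_le_pow_left₀ (by positivity) hP 2
  have h2 : N ^ 2 * B ^ 2 ≤ P ^ 2 * S ^ 2 * m ^ 2 / 16 := by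
    have e1 : (4 * B * N) ^ 2 = 16 * (N ^ 2 * B ^ 2) := by ring
    have e2 : (P * S * m) ^ 2 = P ^ 2 * S ^ 2 * m ^ 2 := by ring
    rw [e1, e2] at h1
    linarith
  have h3 : s ≤ P ^ 2 * S ^ 2 * m ^ 2 / 16 := hs.trans h2
  have hm2 : m ^ 2 / N ^ 2 ≤ 1 := by
    rw [div_le_one (by positivity)]
    exact pow_le_pow_left₀ hm.le hmN 2
  have hc : 0 ≤ η / N ^ 2 + 2 * η * (S * t) + η * (S ^ 2 * t) := by positivity
  have h4 := mul_le_mul_of_nonneg_left h3 hc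
  have e3 : (η / N ^ 2 + 2 * η * (S * t) + η * (S ^ 2 * t)) * (P ^ 2 * S ^ 2 * m ^ 2 / 16) =
      η * P ^ 2 * S ^ 2 / 16 * (m ^ 2 / N ^ 2 + 2 * (m ^ 2 * (S * t)) + S * (m ^ 2 * (S * t))) := by
    field_simp
  rw [e3] at h4
  have h5 : m ^ 2 / N ^ 2 + 2 * (m ^ 2 * (S * t)) + S * (m ^ 2 * (S * t)) ≤ 1 + 4 + S * 2 := by
    have := mul_le_mul_of_nonneg_left hmt hS.le
    linarith
  have h6 : 0 ≤ η * P ^ 2 * S ^ 2 / 16 := by positivity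
  have h7 := mul_le_mul_of_nonneg_left h5 h6
  have h8 : η * P ^ 2 * S ^ 2 / 16 * (1 + 4 + S * 2) ≤ 2 * ((S ^ 2 + S ^ 3) * (η * P ^ 2)) := by
    have h9 : 0 ≤ η * P ^ 2 * S ^ 2 := by positivity
    have h10 : 0 ≤ η * P ^ 2 * S ^ 3 := by positivity
    nlinarith
  linarith

/-- the neutral source of a constant shift -/
lemma ntr_shift {V : Type} [Fintype V] [Nonempty V] [DecidableEq V] {t : ℝ} (F : V → ℝ) (c : ℝ) :
    ntr (t • (1 : Matrix V V ℝ)) t *ᵥ (fun x => F x - c) = ntr (t • (1 : Matrix V V ℝ)) t *ᵥ F := by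
  have h : ∀ x, ∑ y, (t • (1 : Matrix V V ℝ)) x y = t := by
    intro x
    simp only [Matrix.smul_apply, smul_eq_mul, ← Finset.mul_sum, Matrix.one_apply]
    simp
  funext x
  have h1 := H963.ntr_row h x
  unfold Matrix.mulVec dotProduct
  have h2 : ∑ y, ntr (t • (1 : Matrix V V ℝ)) t x y * (F y - c) =
      ∑ y, ntr (t • (1 : Matrix V V ℝ)) t x y * F y -
        (∑ y, ntr (t • (1 : Matrix V V ℝ)) t x y) * c := by
    rw [Finset.sum_mul, ← Finset.sum_sub_distrib]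
    exact Finset.sum_congr rfl fun y _ => by ring
  rw [h2, h1]
  ring

/-- **RegR: `Rs` of the neutral model at real fields of bounded oscillation** -/
theorem reg_R {b S : ℝ} (hb : 0 < b) (hS : 0 < S) (hSi : ∀ i, S ≤ stiff (2 ^ i) b)
    (hL : LkS b S) (ε : ℝ) (hε : 0 < ε) :
    ∃ C : ℝ, 0 ≤ C ∧ ∃ R0 : ℕ, ∀ R : ℕ, R0 ≤ R → ∀ (P : ℝ), 1 ≤ P → P ≤ (R : ℝ) + 1 →
    ∀ (t : ℝ), 0 < t → ∀ m : ℕ, 1 ≤ m → m ≤ 2 ^ R → (m : ℝ) ^ 2 * (S * t) ≤ 2 →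
    ∀ (F : Tor (2 ^ R) → ℝ) (c B G : ℝ), (∀ x, |F x - c| ≤ B) →
    (∀ x, |F (x + (1, 0)) - F x| ≤ G) → (∀ x, |F (x + (0, 1)) - F x| ≤ G) →
    4 * B * 2 ^ R ≤ P * S * m → 4 * G * (2 ^ R * 2 ^ ((3 * R + 3) / 4)) ≤ P * S * m →
    ∀ η a : ℝ, 0 ≤ η → H972.FL b t a η (2 ^ R) → a ≤ S⁻¹ + η →
    Rs (nwt (2 ^ R) b t 0) (ntr (t • (1 : Matrix (Tor (2 ^ R)) (Tor (2 ^ R)) ℝ)) t *ᵥ F) ≤
      C * (P ^ 2 * ((R : ℝ) + 1) ^ ε / ((R : ℝ) + 1) + η * P ^ 2) +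
        omT (wT b (2 ^ R)) (t • (1 : Matrix (Tor (2 ^ R)) (Tor (2 ^ R)) ℝ)) := by
  obtain ⟨C, hC, R0, h⟩ := sl5_zero hb.le hS hSi hL ε hε
  refine ⟨C + (S ^ 2 + S ^ 3), by positivity, R0, fun R hR P hP1 hP2 t ht m hm hmR hmt F c B G hB
    hG1 hG2 hP3 hP4 η a hη hFL ha => ?_⟩
  set M : Matrix (Tor (2 ^ R)) (Tor (2 ^ R)) ℝ := t • (1 : Matrix (Tor (2 ^ R)) (Tor (2 ^ R)) ℝ)
    with hM
  have h1 := h R hR P hP1 hP2 t ht m hm hmt (fun x => F x - c) 0 B G (fun x => by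
    rw [sub_zero]
    exact hB x) (fun x => by
    have : F (x + (1, 0)) - c - (F x - c) = F (x + (1, 0)) - F x := by ring
    rw [this]
    exact hG1 x) (fun x => by
    have : F (x + (0, 1)) - c - (F x - c) = F (x + (0, 1)) - F x := by ring
    rw [this]
    exact hG2 x) hP3 hP4
  have hB0 : 0 ≤ B := (abs_nonneg _).trans (hB 0)
  have h2 := qf_Anm_le hb ht hS hη hFL ha (fun x => F x - c)
  have hm0 : (0 : ℝ) < m := by exact_mod_cast hm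
  have hmN : (m : ℝ) ≤ 2 ^ R := by exact_mod_cast hmR
  have hcard : ∑ x : Tor (2 ^ R), (F x - c) ^ 2 ≤ ((2 : ℝ) ^ R) ^ 2 * B ^ 2 := by
    have h3 : ∑ x : Tor (2 ^ R), (F x - c) ^ 2 ≤ ∑ x : Tor (2 ^ R), B ^ 2 :=
      Finset.sum_le_sum fun x _ => by
        rw [← sq_abs]
        exact pow_le_pow_left₀ (abs_nonneg _) (hB x) 2
    refine h3.trans (le_of_eq ?_)
    rw [Finset.sum_const, Finset.card_univ, nsmul_eq_mul, TM.H764.card_V]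
    push_cast
    ring
  have h4 := err_num hS ht hm0 (by positivity) hmN hB0 hη hmt hP3 hcard
  have h5 := (gw_wT (N := 2 ^ R) hb.le).Un_eq (mf_smul ht) (0 : Tor (2 ^ R)) (fun x => F x - c)
  rw [H963.qf_An_torus b ht, ntr_shift] at h5
  have hZ0 := (gw_wT (N := 2 ^ R) hb.le).Zn_pos (mf_smul ht) (0 : Tor (2 ^ R) → ℝ)
  have hZF := (gw_wT (N := 2 ^ R) hb.le).Zn_pos (mf_smul ht) (fun x : Tor (2 ^ R) => F x - c)
  rw [← hM] at hZ0 hZF h5 h1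
  have homT : ZM (wT b (2 ^ R)) M 0 = (1 + omT (wT b (2 ^ R)) M) * Zn (wT b (2 ^ R)) M 0 := by
    unfold H43.omT
    field_simp
    ring
  have hU : -Un (wT b (2 ^ R)) M (fun x => F x - c) ≤
      -(qf (t • (1 - Sm (2 ^ R) (S * t)⁻¹)) (fun x => F x - c) / 2) +
        C * (P ^ 2 * ((R : ℝ) + 1) ^ ε / ((R : ℝ) + 1)) + omT (wT b (2 ^ R)) M := by
    unfold H37.Un
    rw [neg_neg]
    have h6 : Zn (wT b (2 ^ R)) M (fun x => F x - c) / Zn (wT b (2 ^ R)) M 0 ≤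
        Real.exp (-(qf (t • (1 - Sm (2 ^ R) (S * t)⁻¹)) (fun x => F x - c) / 2) +
          C * (P ^ 2 * ((R : ℝ) + 1) ^ ε / ((R : ℝ) + 1)) + omT (wT b (2 ^ R)) M) := by
      rw [div_le_iff₀ hZ0, Real.exp_add _ (omT (wT b (2 ^ R)) M)]
      refine h1.trans ?_
      rw [homT]
      have h7 : 1 + omT (wT b (2 ^ R)) M ≤ Real.exp (omT (wT b (2 ^ R)) M) := by
        have := Real.add_one_le_exp (omT (wT b (2 ^ R)) M)
        linarith
      have h8 := mul_le_mul_of_nonneg_right h7 hZ0.le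
      have h9 := mul_le_mul_of_nonneg_left h8 (Real.exp_pos
        (-(qf (t • (1 - Sm (2 ^ R) (S * t)⁻¹)) (fun x => F x - c) / 2) +
          C * (P ^ 2 * ((R : ℝ) + 1) ^ ε / ((R : ℝ) + 1)))).le
      refine h9.trans (le_of_eq ?_)
      ring
    have h10 := Real.log_le_log (div_pos hZF hZ0) h6
    rwa [Real.log_exp] at h10
  have h11 : Rs (nwt (2 ^ R) b t 0) (ntr M t *ᵥ F) =
      qf (Anm (2 ^ R) b t) (fun x => F x - c) / 2 - Un (wT b (2 ^ R)) M (fun x => F x - c) := by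
    have h12 : nM (wT b (2 ^ R)) M t 0 = nwt (2 ^ R) b t 0 := rfl
    rw [h5, h12]
    ring
  rw [h11]
  have h13 : ((2 ^ R : ℕ) : ℝ) = 2 ^ R := by push_cast; ring
  rw [h13] at h2
  have h14 : 0 ≤ (S ^ 2 + S ^ 3) * (P ^ 2 * ((R : ℝ) + 1) ^ ε / ((R : ℝ) + 1)) := by positivity
  have h15 : 0 ≤ C * (η * P ^ 2) := by positivity
  nlinarith

end Vale.Agent.P159.H513
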