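import Vale.Agent.P159.H513.Quart
import Vale.Agent.P159.H950.A4

/-!
Duality: the tilted partition function of the currents annihilated by a family of characters is the
partition function of the spins at an imaginary twist; the fourth order bound for `rho`.
-/

set_option linter.all false

open MeasureTheory Filter Topology

namespace Vale.Agent.P159.H513

open Vale.Agent.P159 Vale.Agent.P159.H353 Vale.Agent.P159.R2.H254
open Vale.Agent.P159.TM.H129 (ip ip_neg)
open Vale.Agent.P159.T1.H934 Vale.Agent.P159.T1.H731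

section chr

variable {G : Type*} [AddCommGroup G] [TopologicalSpace G]

lemma e_add' (A : Chr G) (a b : G) : A.e (a + b) = A.e a * A.e b := by
  unfold Chr.e
  rw [A.c_add, A.s_add]
  push_cast
  have hI := Complex.I_sq
  linear_combination (-(A.s a : ℂ) * A.s b) * hI

lemma e_ne (A : Chr G) (a : G) : A.e a ≠ 0 := by
  intro h
  have := A.norm_e a
  rw [h, norm_zero] at this
  norm_num at this

lemma e_zero' (A : Chr G) : A.e 0 = 1 := by
  have h := e_add' A 0 0
  rw [add_zero] at h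
  have := e_ne A 0
  field_simp at h
  exact h.symm

lemma e_inv (A : Chr G) (x : G) : (A.e x)⁻¹ = A.c x - A.s x * Complex.I := by
  have h1 : A.e x * (A.c x - A.s x * Complex.I) = 1 := by
    unfold Chr.e
    have h2 : ((A.c x ^ 2 + A.s x ^ 2 : ℝ) : ℂ) = 1 := by rw [A.norm_sq]; simp
    push_cast at h2
    have hI := Complex.I_sq
    linear_combination h2 - (A.s x : ℂ) ^ 2 * hI
  exact inv_eq_of_mul_eq_one_right h1

variable {κ : Type} [Fintype κ]

/-- the character `∏ e ^ n` -/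
noncomputable def pc (χ : κ → Chr G) (n : κ → ℤ) (x : G) : ℂ := ∏ k, (χ k).e x ^ n k

lemma pc_add_arg (χ : κ → Chr G) (n : κ → ℤ) (x y : G) : pc χ n (x + y) = pc χ n x * pc χ n y := by
  unfold pc
  rw [← Finset.prod_mul_distrib]
  exact Finset.prod_congr rfl fun k _ => by rw [e_add', mul_zpow]

lemma pc_add (χ : κ → Chr G) (n m : κ → ℤ) (x : G) : pc χ (n + m) x = pc χ n x * pc χ m x := by
  unfold pc
  rw [← Finset.prod_mul_distrib]
  exact Finset.prod_congr rfl fun k _ => by rw [Pi.add_apply, zpow_add₀ (e_ne _ _)]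

lemma pc_neg (χ : κ → Chr G) (n : κ → ℤ) (x : G) : pc χ (-n) x = (pc χ n x)⁻¹ := by
  unfold pc
  rw [← Finset.prod_inv_distrib]
  exact Finset.prod_congr rfl fun k _ => by rw [Pi.neg_apply, zpow_neg]

lemma norm_pc (χ : κ → Chr G) (n : κ → ℤ) (x : G) : ‖pc χ n x‖ = 1 := by
  unfold pc
  rw [norm_prod]
  exact Finset.prod_eq_one fun k _ => by rw [norm_zpow, Chr.norm_e, one_zpow]

lemma pc_cont (χ : κ → Chr G) (n : κ → ℤ) : Continuous (pc χ n) := by
  unfold pc
  exact continuous_finsetProd _ fun k _ => (χ k).cont_e.zpow₀ _ fun x => Or.inl (e_ne _ x)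

/-- the currents annihilated by the characters -/
def GX (χ : κ → Chr G) : AddSubgroup (κ → ℤ) where
  carrier := {n | ∀ x, pc χ n x = 1}
  zero_mem' := fun x => by simp [pc]
  add_mem' := fun {a b} ha hb x => by rw [pc_add, ha x, hb x, one_mul]
  neg_mem' := fun {a} ha x => by rw [pc_neg, ha x, inv_one]

lemma mem_GX {χ : κ → Chr G} {n : κ → ℤ} : n ∈ GX χ ↔ ∀ x, pc χ n x = 1 := Iff.rfl

lemma GX_half (h2 : ∀ g : G, ∃ h : G, h + h = g) (χ : κ → Chr G) (n : κ → ℤ)
    (hn : n + n ∈ GX χ) : n ∈ GX χ := by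
  intro x
  obtain ⟨y, rfl⟩ := h2 x
  rw [pc_add_arg, ← pc_add]
  exact hn y

end chr

section dual

variable {G : Type*} [AddCommGroup G] [TopologicalSpace G] [IsTopologicalAddGroup G]
  [CompactSpace G] [SecondCountableTopology G] [MeasurableSpace G] [BorelSpace G]
  (μ : Measure G) [μ.IsAddHaarMeasure] [IsProbabilityMeasure μ]
  {κ : Type} [Fintype κ] (J : κ → ℝ) (χ : κ → Chr G)

open Classical in
lemma pc_integral (n : κ → ℤ) : ∫ x, pc χ n x ∂μ = if n ∈ GX χ then 1 else 0 := by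
  split_ifs with h
  · have h1 : ∀ x, pc χ n x = 1 := h
    simp [h1]
  · rw [mem_GX] at h
    push Not at h
    obtain ⟨y, hy⟩ := h
    have h1 := integral_add_right_eq_self (μ := μ) (fun x => pc χ n x) y
    simp only [pc_add_arg] at h1
    rw [integral_mul_const] at h1
    have h2 : (pc χ n y - 1) * ∫ x, pc χ n x ∂μ = 0 := by linear_combination h1
    rcases mul_eq_zero.1 h2 with h3 | h3
    · exact absurd (sub_eq_zero.1 h3) hy
    · exact h3

omit [IsTopologicalAddGroup G] [CompactSpace G] [SecondCountableTopology G] [MeasurableSpace G]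
  [BorelSpace G] [Fintype κ] in
lemma expC (A : Chr G) {b : ℝ} (hb : 0 ≤ b) (y : ℝ) (x : G) :
    HasSum (fun n : ℤ => ((wI b n * Real.exp (y * n) : ℝ) : ℂ) * (A.e x) ^ (-n))
      (Complex.exp (b * A.C (y * Complex.I) x)) := by
  have hz : Complex.exp y * (A.e x)⁻¹ ≠ 0 :=
    mul_ne_zero (Complex.exp_ne_zero _) (inv_ne_zero (e_ne A x))
  have h := laurent hb hz
  have e1 : (Complex.exp y * (A.e x)⁻¹ + (Complex.exp y * (A.e x)⁻¹)⁻¹) / 2 =
      A.C (y * Complex.I) x := by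
    have h3 : (Complex.exp y * (A.e x)⁻¹)⁻¹ = Complex.exp (-y) * A.e x := by
      rw [mul_inv, inv_inv, Complex.exp_neg]
    rw [h3, e_inv]
    unfold Chr.C Chr.e
    rw [Complex.cos_mul_I, Complex.sin_mul_I, Complex.cosh, Complex.sinh]
    have hI := Complex.I_sq
    ring
  rw [e1] at h
  refine hs_congr h fun n => ?_
  rw [mul_zpow, ← Complex.exp_int_mul, inv_zpow', Complex.ofReal_mul, Complex.ofReal_exp]
  push_cast
  rw [mul_comm (n : ℂ) (y : ℂ)]
  ring

/-- **duality** -/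
theorem SG_ZZ (hJ : ∀ e, 0 ≤ J e) (c : κ → ℝ) :
    (SG J (GX χ) c 0 : ℂ) = ZZ μ J χ (fun e => c e * Complex.I) := by
  classical
  set tm : (κ → ℤ) → G → ℂ := fun n x =>
    ∏ e, (((wI (J e) (n e) * Real.exp (c e * n e) : ℝ) : ℂ) * ((χ e).e x) ^ (-(n e))) with htm
  have hw : ∀ n, wt J c n = ∏ e, (wI (J e) (n e) * Real.exp (c e * n e)) := fun n => by
    unfold T1.H731.wt
    rw [Finset.prod_mul_distrib, Real.exp_sum]
  have htm' : ∀ n x, tm n x = (wt J c n : ℂ) * pc χ (-n) x := by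
    intro n x
    rw [htm, hw]
    unfold pc
    simp only
    rw [Finset.prod_mul_distrib]
    push_cast
    rfl
  have hnorm : ∀ n x, ‖tm n x‖ = wt J c n := by
    intro n x
    rw [htm', norm_mul, norm_pc, mul_one, Complex.norm_real, Real.norm_eq_abs,
      abs_of_nonneg (wt_nonneg hJ c n)]
  have hpt : ∀ x : G, HasSum (fun n => tm n x)
      (Complex.exp (∑ e, J e * (χ e).C (c e * Complex.I) x)) := by
    intro x
    have h := prod_tsum_all ℤ κ (fun e n => ((wI (J e) n * Real.exp (c e * n) : ℝ) : ℂ) *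
      ((χ e).e x) ^ (-n)) (fun e => (expC (χ e) (hJ e) (c e) x).summable.norm)
    have h2 : ∏ e, ∑' n : ℤ, (((wI (J e) n * Real.exp (c e * n) : ℝ) : ℂ) *
      ((χ e).e x) ^ (-n)) = Complex.exp (∑ e, J e * (χ e).C (c e * Complex.I) x) := by
      rw [Complex.exp_sum]
      exact Finset.prod_congr rfl fun e _ => (expC (χ e) (hJ e) (c e) x).tsum_eq
    have h4 := (h.1.of_norm).hasSum
    rw [h.2, h2] at h4
    exact h4
  have hcont : ∀ n, Continuous (tm n) := by
    intro n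
    have : tm n = fun x => (wt J c n : ℂ) * pc χ (-n) x := funext fun x => htm' n x
    rw [this]
    exact continuous_const.mul (pc_cont χ _)
  have hint : ∀ n, ∫ x, tm n x ∂μ = ((gw' J (GX χ) c n : ℝ) : ℂ) := by
    intro n
    simp only [htm']
    rw [integral_const_mul, pc_integral]
    unfold gw'
    rw [neg_mem_iff]
    split_ifs <;> simp
  have hs := hasSum_integral_of_summable_integral_norm (μ := μ) (F := tm)
    (fun n => cint (hcont n)) (by
      simp only [hnorm]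
      simpa using wt_summable hJ c)
  simp only [hint] at hs
  have e6 : ∀ x : G, ∑' n, tm n x = Complex.exp (∑ e, J e * (χ e).C (c e * Complex.I) x) :=
    fun x => (hpt x).tsum_eq
  simp only [e6] at hs
  unfold ZZ
  rw [← hs.tsum_eq, SG_eq, Complex.ofReal_tsum]

/-- the ratio of the currents is the ratio of the spins -/
theorem rat_rho (hJ : ∀ e, 0 ≤ J e) (c : κ → ℝ) : rat J (GX χ) c = rho μ J χ c := by
  unfold rat rho
  have h1 := SG_ZZ μ J χ hJ c
  have h0 := SG_ZZ μ J χ hJ 0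
  have e0 : (fun e : κ => (((0 : κ → ℝ) e : ℝ) : ℂ) * Complex.I) = 0 := by
    ext e; simp
  rw [e0] at h0
  rw [← h1, ← h0, Complex.norm_real, Complex.norm_real, Real.norm_eq_abs, Real.norm_eq_abs,
    abs_of_pos (SG_pos hJ _ _), abs_of_pos (SG_pos hJ _ _)]

/-- the variance is at most the quadratic form -/
theorem vG_le (hJ : ∀ e, 0 ≤ J e) (c : κ → ℝ) : vG J (GX χ) c ≤ Qform μ J χ c := by
  obtain ⟨S, hS⟩ : ∃ S : ℝ, S = ∑ e, J e := ⟨_, rfl⟩
  have hS0 : 0 ≤ S := hS ▸ Finset.sum_nonneg fun e _ => hJ e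
  obtain ⟨Y, hY⟩ : ∃ Y : ℝ, Y = ∑ e, |c e| := ⟨_, rfl⟩
  have hY0 : 0 ≤ Y := hY ▸ Finset.sum_nonneg fun e _ => abs_nonneg _
  have hcY : ∀ e, |c e| ≤ Y := fun e => by
    rw [hY]
    exact Finset.single_le_sum (f := fun e => |c e|) (fun _ _ => abs_nonneg _) (Finset.mem_univ e)
  obtain ⟨K, hK⟩ : ∃ K : ℝ, K = S + 6 * S ^ 2 + 4 * S ^ 3 + 16 * S ^ 4 := ⟨_, rfl⟩
  have hK0 : 0 ≤ K := by rw [hK]; positivity
  -- the inequality at the scale `t`
  have key : ∀ t : ℝ, 0 < t → t * Y ≤ 1 → 2 * S * (t * Y) ≤ 1 →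
      vG J (GX χ) c ≤ Qform μ J χ c + 2 * K * Y ^ 4 * t ^ 2 := by
    intro t ht h1 h2
    have h3 := rat_ge hJ (GX χ) (t • c)
    rw [rat_rho μ J χ hJ] at h3
    have h4 := rho_second μ J χ hJ hS.symm (t • c) h1 h2 (fun e => by
      rw [Pi.smul_apply, smul_eq_mul, abs_mul, abs_of_pos ht]
      exact mul_le_mul_of_nonneg_left (hcY e) ht.le) (by positivity)
    rw [H950.Qform_smul, ← hK] at h4
    have h5 : vG J (GX χ) (t • c) = t ^ 2 * vG J (GX χ) c := by
      unfold vG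
      rw [← mul_div_assoc, ← tsum_mul_left]
      congr 1
      refine tsum_congr fun n => ?_
      rw [ip_smul_left]
      ring
    rw [h5] at h3
    have h6 : t ^ 2 * vG J (GX χ) c ≤ t ^ 2 * (Qform μ J χ c + 2 * K * Y ^ 4 * t ^ 2) := by
      have e1 : (t * Y) ^ 4 = t ^ 2 * (Y ^ 4 * t ^ 2) := by ring
      rw [e1] at h4
      nlinarith
    exact le_of_mul_le_mul_left h6 (by positivity)
  by_contra hne
  push Not at hne
  set ε : ℝ := vG J (GX χ) c - Qform μ J χ c with hε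
  have hε0 : 0 < ε := by rw [hε]; linarith
  set D : ℝ := 1 + Y + 2 * S * Y + 4 * K * Y ^ 4 / ε with hD
  have hD1 : 1 ≤ D := by
    rw [hD]
    have : 0 ≤ Y + 2 * S * Y + 4 * K * Y ^ 4 / ε := by positivity
    linarith
  have hD0 : 0 < D := by linarith
  have hfrac : ∀ a : ℝ, a ≤ D → a * (1 / D) ≤ 1 := by
    intro a ha
    rw [mul_one_div, div_le_one hD0]
    exact ha
  have h1 : 1 / D * Y ≤ 1 := by
    rw [mul_comm]
    refine hfrac _ ?_
    rw [hD]
    have : 0 ≤ 2 * S * Y + 4 * K * Y ^ 4 / ε := by positivity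
    linarith
  have h2 : 2 * S * (1 / D * Y) ≤ 1 := by
    have := hfrac (2 * S * Y) (by
      rw [hD]
      have : 0 ≤ 4 * K * Y ^ 4 / ε := by positivity
      linarith)
    linarith
  have h3 := key (1 / D) (by positivity) h1 h2
  have h4 : 4 * K * Y ^ 4 / ε * (1 / D) ≤ 1 := hfrac _ (by
    rw [hD]
    have : 0 ≤ 2 * S * Y := by positivity
    linarith)
  have h5 : 2 * K * Y ^ 4 * (1 / D) ^ 2 ≤ ε / 2 := by
    have h6 : (1 / D) ^ 2 ≤ 1 / D := by
      have h7 : 1 / D ≤ 1 := by rw [div_le_one hD0]; exact hD1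
      have h8 : 0 ≤ 1 / D := by positivity
      nlinarith
    have h7 : 4 * K * Y ^ 4 * (1 / D) ≤ ε := by
      have e1 : 4 * K * Y ^ 4 * (1 / D) = ε * (4 * K * Y ^ 4 / ε * (1 / D)) := by
        field_simp
      rw [e1]
      nlinarith
    have h8 : 0 ≤ 2 * K * Y ^ 4 := by positivity
    nlinarith
  rw [hε] at h5
  linarith

/-- **fourth order bound for the ratio of the spins** -/
theorem rho_quart (h2 : ∀ g : G, ∃ h : G, h + h = g) (hJ : ∀ e, 0 ≤ J e) (c : κ → ℝ)
    (hc : ∀ e, |c e| ≤ 1) {B : ℝ} (hB : ∑ e, J e * c e ^ 2 ≤ B) (hBc : ∀ e, c e ^ 2 ≤ B)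
    (hB0 : 0 ≤ B) :
    rat J (GX χ) c ≤ Real.exp (Qform μ J χ c / 2 + 3 * B ^ 2) := by
  refine (rat_upper hJ (GX_half h2 χ) c hc hB hBc hB0).trans (Real.exp_le_exp.2 ?_)
  have := vG_le μ J χ hJ c
  linarith

end dual

end Vale.Agent.P159.H513
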